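import Vale.Agent.P281.H713.Defs

/-!
# P281, T-Delta, block D10c: the Hermitian forms of the divisors are bounded by the polarization
-/

open Set Filter Topology Complex
open Vale.Agent.P281 Vale.Agent.P281.H713

set_option linter.unusedSectionVars false

noncomputable section

namespace H383.TD

variable {n : ℕ} {V : Type} [NormedAddCommGroup V] [InnerProductSpace ℂ V] [FiniteDimensional ℂ V]

/-- the symplectic form of `G` as a linear map into the dual -/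
def symp (G : V ≃L[ℂ] V) : V →ₗ[ℝ] (V →ₗ[ℝ] ℝ) :=
  LinearMap.mk₂ ℝ (fun v w => (inner ℂ (G v) (G w)).im)
    (fun v v' w => by rw [map_add, inner_add_left, Complex.add_im])
    (fun c v w => by
      have : G (c • v) = (c : ℂ) • G v := by rw [← Complex.coe_smul, map_smul]
      rw [this, inner_smul_left]; simp)
    (fun v w w' => by rw [map_add, inner_add_right, Complex.add_im])
    (fun c v w => by
      have : G (c • w) = (c : ℂ) • G w := by rw [← Complex.coe_smul, map_smul]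
      rw [this, inner_smul_right]; simp)

lemma symp_apply (G : V ≃L[ℂ] V) (v w : V) : symp G v w = (inner ℂ (G v) (G w)).im := rfl

lemma symp_inj (G : V ≃L[ℂ] V) : Function.Injective (symp G) := by
  rw [injective_iff_map_eq_zero]
  intro v hv
  have h1 : symp G v (I • v) = 0 := by rw [hv]; rfl
  rw [symp_apply, map_smul, inner_smul_right, inner_self_eq_norm_sq_to_K] at h1
  have h2 : ‖G v‖ ^ 2 = 0 := by
    simpa [← Complex.ofReal_pow] using h1
  have h3 : G v = 0 := by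
    have := pow_eq_zero_iff (two_ne_zero) |>.1 h2
    exact norm_eq_zero.1 this
  exact (map_eq_zero_iff G G.injective).1 h3

/-- the operator of a form -/
lemma exists_op (G : V ≃L[ℂ] V) (E : V →L[ℝ] V →L[ℝ] ℝ) :
    ∃ A : V →ₗ[ℝ] V, ∀ v w, (inner ℂ (G (A v)) (G w)).im = E v w := by
  have : FiniteDimensional ℝ V := FiniteDimensional.complexToReal V
  have hd : Module.finrank ℝ V = Module.finrank ℝ (V →ₗ[ℝ] ℝ) :=
    (Subspace.dual_finrank_eq (K := ℝ) (V := V)).symm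
  have hb : Function.Bijective (symp G) :=
    ⟨symp_inj G, (LinearMap.injective_iff_surjective_of_finrank_eq_finrank hd).1 (symp_inj G)⟩
  let Φ := LinearEquiv.ofBijective (symp G) hb
  let El : V →ₗ[ℝ] (V →ₗ[ℝ] ℝ) :=
    LinearMap.mk₂ ℝ (fun v w => E v w) (fun v v' w => by simp) (fun c v w => by simp)
      (fun v w w' => by simp) (fun c v w => by simp)
  refine ⟨Φ.symm.toLinearMap ∘ₗ El, fun v w => ?_⟩
  have h1 : symp G (Φ.symm (El v)) = El v := Φ.apply_symm_apply (El v)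
  have h2 := congrArg (fun l : V →ₗ[ℝ] ℝ => l w) h1
  exact h2

/-- the trace of the operator -/
lemma trace_op (G : V ≃L[ℂ] V) {E : V →L[ℝ] V →L[ℝ] ℝ} (hE0 : ∀ v, E v v = 0) {A : V →ₗ[ℝ] V}
    (hA : ∀ v w, (inner ℂ (G (A v)) (G w)).im = E v w) {ι : Type*} [Fintype ι]
    (b : OrthonormalBasis ι ℂ V) :
    LinearMap.trace ℝ V A = -2 * ∑ i, E (I • G.symm (b i)) (G.symm (b i)) := by
  classical
  have hsk : ∀ v w, E v w = -E w v := by
    intro v w
    have h1 := hE0 (v + w)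
    simp only [map_add, add_apply, hE0] at h1
    linarith
  let f : Module.Basis ι ℂ V := b.toBasis.map G.symm.toLinearEquiv
  have hf : ∀ i, f i = G.symm (b i) := fun i => by simp [f]
  have hfr : ∀ v i, f.repr v i = inner ℂ (b i) (G v) := by
    intro v i
    have h1 : f.repr v i = b.toBasis.repr (G v) i := by
      simp [f]
    rw [h1, b.coe_toBasis_repr_apply, b.repr_apply_apply]
  let β := Complex.basisOneI.smulTower f
  rw [LinearMap.trace_eq_matrix_trace ℝ β, Matrix.trace, Fintype.sum_prod_type]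
  simp only [Matrix.diag_apply, LinearMap.toMatrix_apply]
  rw [Fin.sum_univ_two]
  have h0 : ∀ i, β.repr (A (β (0, i))) (0, i) = -E (I • G.symm (b i)) (G.symm (b i)) := by
    intro i
    have e1 : β (0, i) = G.symm (b i) := by
      simp [β, Module.Basis.smulTower_apply, hf]
    have e2 : β.repr (A (β (0, i))) (0, i) = (f.repr (A (β (0, i))) i).re := by
      simp [β, Module.Basis.smulTower_repr]
    rw [e2, e1, hfr, ← hsk, ← hA, map_smul, inner_smul_right, G.apply_symm_apply]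
    rw [← inner_conj_symm, Complex.conj_re]
    simp
  have h1 : ∀ i, β.repr (A (β (1, i))) (1, i) = -E (I • G.symm (b i)) (G.symm (b i)) := by
    intro i
    have e1 : β (1, i) = I • G.symm (b i) := by
      simp [β, Module.Basis.smulTower_apply, hf]
    have e2 : β.repr (A (β (1, i))) (1, i) = (f.repr (A (β (1, i))) i).im := by
      simp [β, Module.Basis.smulTower_repr]
    rw [e2, e1, hfr, ← hA, G.apply_symm_apply]
    rw [← inner_conj_symm, Complex.conj_im]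
  rw [Finset.sum_congr rfl fun i _ => h0 i, Finset.sum_congr rfl fun i _ => h1 i,
    Finset.sum_neg_distrib]
  ring

/-- the form is bounded by the trace -/
lemma form_le (G : V ≃L[ℂ] V) {E : V →L[ℝ] V →L[ℝ] ℝ} (hE0 : ∀ v, E v v = 0)
    (hpos : ∀ w, 0 ≤ E (I • w) w) {A : V →ₗ[ℝ] V}
    (hA : ∀ v w, (inner ℂ (G (A v)) (G w)).im = E v w) (w : V) :
    E (I • w) w ≤ (-(LinearMap.trace ℝ V A) / 2) * ‖G w‖ ^ 2 := by
  classical
  by_cases hw : G w = 0
  · have h1 : w = 0 := (map_eq_zero_iff G G.injective).1 hw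
    subst h1
    simp
  have hn : 0 < ‖G w‖ := norm_pos_iff.2 hw
  set u : V := ((‖G w‖⁻¹ : ℝ) : ℂ) • G w with hu
  have hun : ‖u‖ = 1 := by
    rw [hu, norm_smul, Complex.norm_real, Real.norm_of_nonneg (by positivity)]
    field_simp
  have hort : Orthonormal ℂ ((↑) : ({u} : Set V) → V) := by
    constructor
    · rintro ⟨x, hx⟩
      rw [mem_singleton_iff] at hx
      simp [hx, hun]
    · rintro ⟨x, hx⟩ ⟨y, hy⟩ hxy
      rw [mem_singleton_iff] at hx hy
      exact absurd (Subtype.ext (hx.trans hy.symm)) hxy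
  obtain ⟨s, b, hs, hb⟩ := hort.exists_orthonormalBasis_extension
  have hus : u ∈ s := hs (mem_singleton u)
  have htr := trace_op G hE0 hA b
  have hbu : b ⟨u, hus⟩ = u := by rw [hb]
  have h1 : E (I • G.symm (b ⟨u, hus⟩)) (G.symm (b ⟨u, hus⟩))
      ≤ ∑ i, E (I • G.symm (b i)) (G.symm (b i)) :=
    Finset.single_le_sum (f := fun i => E (I • G.symm (b i)) (G.symm (b i)))
      (fun i _ => hpos _) (Finset.mem_univ _)
  have h2 : G.symm u = (‖G w‖⁻¹ : ℝ) • w := by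
    rw [hu, map_smul, G.symm_apply_apply, Complex.coe_smul]
  rw [hbu, h2] at h1
  have h3 : E (I • (‖G w‖⁻¹ : ℝ) • w) ((‖G w‖⁻¹ : ℝ) • w) = (‖G w‖⁻¹) ^ 2 * E (I • w) w := by
    rw [smul_comm, map_smul, map_smul, smul_apply, smul_eq_mul, smul_eq_mul]
    ring
  rw [h3] at h1
  have h4 : -(LinearMap.trace ℝ V A) / 2 = ∑ i, E (I • G.symm (b i)) (G.symm (b i)) := by
    rw [htr]; ring
  rw [h4]
  calc E (I • w) w = ((‖G w‖⁻¹) ^ 2 * E (I • w) w) * ‖G w‖ ^ 2 := by field_simp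
    _ ≤ _ := by gcongr

/-- `t` is the trace of `Q⁻¹ e` -/
def IsTr (Q : (Fin n → ℝ) → (Fin n → ℝ) → ℝ) (e : (Fin n → ℝ) → (Fin n → ℝ) → ℝ) (t : ℝ) : Prop :=
  ∃ K : (Fin n → ℝ) →ₗ[ℝ] (Fin n → ℝ), (∀ x x', Q (K x) x' = e x x') ∧
    LinearMap.trace ℝ (Fin n → ℝ) K = t

lemma IsTr.unique {Q : (Fin n → ℝ) → (Fin n → ℝ) → ℝ} {π : (Fin n → ℝ) ≃L[ℝ] V}
    (hQ : IsPolarized Q π) {e : (Fin n → ℝ) → (Fin n → ℝ) → ℝ} {t t' : ℝ} (h : IsTr Q e t)
    (h' : IsTr Q e t') : t = t' := by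
  obtain ⟨G, hG⟩ := hQ
  obtain ⟨K, hK, rfl⟩ := h
  obtain ⟨K', hK', rfl⟩ := h'
  have : K = K' := by
    refine LinearMap.ext fun x => ?_
    have h1 : symp G (π (K x)) = symp G (π (K' x)) := by
      refine LinearMap.ext fun w => ?_
      obtain ⟨x', rfl⟩ := π.surjective w
      rw [symp_apply, symp_apply, hG, hG, hK, hK']
    exact π.injective (symp_inj G h1)
  rw [this]

lemma IsTr.of_op {Q : (Fin n → ℝ) → (Fin n → ℝ) → ℝ} {π : (Fin n → ℝ) ≃L[ℝ] V} {G : V ≃L[ℂ] V}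
    (hG : ∀ x x', (inner ℂ (G (π x)) (G (π x'))).im = Q x x') {E : V →L[ℝ] V →L[ℝ] ℝ}
    {A : V →ₗ[ℝ] V} (hA : ∀ v w, (inner ℂ (G (A v)) (G w)).im = E v w) :
    IsTr Q (fun x x' => E (π x) (π x')) (LinearMap.trace ℝ V A) := by
  refine ⟨π.symm.toLinearEquiv.conj A, fun x x' => ?_, LinearMap.trace_conj' A _⟩
  have h1 : (π.symm.toLinearEquiv.conj A) x = π.symm (A (π x)) := rfl
  rw [← hG, h1, π.apply_symm_apply]
  exact hA (π x) (π x')

lemma IsTr.change {Q : (Fin n → ℝ) → (Fin n → ℝ) → ℝ} {π π' : (Fin n → ℝ) ≃L[ℝ] V}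
    {G : V ≃L[ℂ] V} (hG : IsPeriodChange Q π π' G) {E E' : V →L[ℝ] V →L[ℝ] ℝ}
    (hE : ∀ v w, E' (G v) (G w) = E v w) {t : ℝ}
    (h : IsTr Q (fun x x' => E' (π' x) (π' x')) t) : IsTr Q (fun x x' => E (π x) (π x')) t := by
  obtain ⟨K, hK, rfl⟩ := h
  let G' : V ≃ₗ[ℝ] V := G.toLinearEquiv.restrictScalars ℝ
  let M : (Fin n → ℝ) ≃ₗ[ℝ] (Fin n → ℝ) :=
    (π.toLinearEquiv.trans G').trans π'.symm.toLinearEquiv
  have hM : ∀ x, M x = π'.symm (G (π x)) := fun x => rfl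
  refine ⟨M.symm.conj K, fun x x' => ?_, LinearMap.trace_conj' K _⟩
  have h1 : (M.symm.conj K) x = M.symm (K (M x)) := rfl
  have h2 := hG.2.2 (M.symm (K (M x))) x'
  rw [← hM, ← hM, M.apply_symm_apply, hK] at h2
  rw [h1, ← h2]
  show E' (π' (M x)) (π' (M x')) = E (π x) (π x')
  rw [hM, hM, π'.apply_symm_apply, π'.apply_symm_apply, hE]

/-- **Block D10c.** -/
theorem D10c {Y : Type} [TopologicalSpace Y] {S : Set Y} {Q : (Fin n → ℝ) → (Fin n → ℝ) → ℝ}
    {ι : Type} {U : ι → Set Y} {π : ι → Y → ((Fin n → ℝ) ≃L[ℝ] V)}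
    (hcov : ∀ y, y ∉ S ↔ ∃ a, y ∈ U a) (hU : ∀ a, IsOpen (U a)) (hS : IsPreconnected Sᶜ)
    (hpol : ∀ a, ∀ y ∈ U a, IsPolarized Q (π a y))
    (E : ι → Y → (V →L[ℝ] V →L[ℝ] ℝ)) (hE0 : ∀ a, ∀ y ∈ U a, ∀ v, E a y v v = 0)
    (hpos : ∀ a, ∀ y ∈ U a, ∀ w, 0 ≤ E a y (I • w) w)
    (hloc : ∀ a, ∀ y ∈ U a, ∀ᶠ y' in 𝓝 y, ∀ ξ η,
      E a y' (π a y' ξ) (π a y' η) = E a y (π a y ξ) (π a y η))
    (hch : ∀ a b, ∀ y ∈ U a ∩ U b, ∃ G, IsPeriodChange Q (π a y) (π b y) G ∧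
      ∀ v w, E b y (G v) (G w) = E a y v w) :
    ∃ τ : ℝ, 0 ≤ τ ∧ ∀ a, ∀ y ∈ U a, ∀ G : V ≃L[ℂ] V,
      (∀ x x', (inner ℂ (G (π a y x)) (G (π a y x'))).im = Q x x') →
      ∀ w, E a y (I • w) w ≤ τ * ‖G w‖ ^ 2 := by
  classical
  set P : Y → ℝ → Prop := fun y t => ∃ a, y ∈ U a ∧
    IsTr Q (fun x x' => E a y (π a y x) (π a y x')) t with hP
  have huniq : ∀ y t t', P y t → P y t' → t = t' := by
    rintro y t t' ⟨a, ha, h⟩ ⟨b, hb, h'⟩
    obtain ⟨G, hG, hGE⟩ := hch a b y ⟨ha, hb⟩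
    exact h.unique (hpol a y ha) (IsTr.change hG hGE h')
  have hex : ∀ y ∈ Sᶜ, ∃ t, P y t := by
    intro y hy
    obtain ⟨a, ha⟩ := (hcov y).1 hy
    obtain ⟨G, hG⟩ := hpol a y ha
    obtain ⟨A, hA⟩ := exists_op G (E a y)
    exact ⟨_, a, ha, IsTr.of_op hG hA⟩
  have hlocP : ∀ y t, P y t → ∀ᶠ y' in 𝓝 y, P y' t := by
    rintro y t ⟨a, ha, h⟩
    filter_upwards [hloc a y ha, (hU a).mem_nhds ha] with y' h1 h2
    refine ⟨a, h2, ?_⟩
    have : (fun x x' => E a y' (π a y' x) (π a y' x'))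
        = fun x x' => E a y (π a y x) (π a y x') := by
      funext x x'
      exact h1 x x'
    rw [this]
    exact h
  rcases (Sᶜ : Set Y).eq_empty_or_nonempty with hemp | ⟨y₀, hy₀⟩
  · refine ⟨0, le_rfl, fun a y hy => ?_⟩
    exact absurd ((hcov y).2 ⟨a, hy⟩) (by
      intro h
      have : y ∈ (Sᶜ : Set Y) := h
      rw [hemp] at this
      exact this)
  obtain ⟨t₀, ht₀⟩ := hex y₀ hy₀
  have hall : ∀ y ∈ Sᶜ, P y t₀ := by
    have h1 : Sᶜ ⊆ {y | P y t₀} := by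
      refine hS.subset_left_of_subset_union (u := {y | P y t₀}) (v := {y | ∃ t, t ≠ t₀ ∧ P y t})
        ?_ ?_ ?_ ?_ ⟨y₀, hy₀, ht₀⟩
      · rw [isOpen_iff_mem_nhds]
        intro y hy
        exact hlocP y t₀ hy
      · rw [isOpen_iff_mem_nhds]
        rintro y ⟨t, ht, hy⟩
        filter_upwards [hlocP y t hy] with y' hy'
        exact ⟨t, ht, hy'⟩
      · rw [Set.disjoint_left]
        rintro y hy ⟨t, ht, hy'⟩
        exact ht (huniq y _ _ hy' hy)
      · intro y hy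
        obtain ⟨t, ht⟩ := hex y hy
        by_cases h : t = t₀
        · left; rw [← h]; exact ht
        · right; exact ⟨t, h, ht⟩
    exact fun y hy => h1 hy
  refine ⟨max 0 (-t₀ / 2), le_max_left _ _, fun a y hy G hG w => ?_⟩
  obtain ⟨A, hA⟩ := exists_op G (E a y)
  have h1 := form_le G (hE0 a y hy) (hpos a y hy) hA w
  have h2 : LinearMap.trace ℝ V A = t₀ :=
    huniq y _ _ ⟨a, hy, IsTr.of_op hG hA⟩ (hall y ((hcov y).2 ⟨a, hy⟩))
  rw [h2] at h1
  refine h1.trans ?_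
  gcongr
  exact le_max_right _ _

end H383.TD
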