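import Vale.Agent.P281.H383.TD.D1

/-!
# Block D1 in the letters of helper125 (D2)
-/

open Set Filter Topology MeasureTheory Complex
open scoped ContDiff

namespace H383.TD

/-- the literal of D1 used by D2 (helper125), with `C^∞` in the conclusion -/
def D1Stmt : Prop := ∀ (p n : ℕ) (J : Type) [Fintype J] (T : Set (Fin p → ℂ))
  (a : (Fin p → ℂ) → J → Fin n → ℂ) (b : (Fin p → ℂ) → (Fin n → ℝ) → J → ℂ), IsOpen T →
  (∀ j m, DifferentiableOn ℂ (fun y => a y j m) T) →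
  (∀ y ∈ T, ∃ c > 0, ∀ᶠ y' in 𝓝 y, ∀ k : Fin n → ℤ,
    c * ‖fun m => (k m : ℝ)‖ ≤ ‖fun j => ∑ m, a y' j m * (k m : ℂ)‖) →
  (∀ j, ContDiffOn ℝ ∞ (fun q : (Fin p → ℂ) × (Fin n → ℝ) => b q.1 q.2 j) (T ×ˢ univ)) →
  (∀ j x, DifferentiableOn ℂ (fun y => b y x j) T) →
  (∀ y ∈ T, ∀ (x : Fin n → ℝ) (k : Fin n → ℤ), b y (x + fun m => (k m : ℝ)) = b y x) →
  (∀ y ∈ T, ∀ x i j, ∑ m, a y i m * fderiv ℝ (fun x => b y x j) x (Pi.single m 1)
    = ∑ m, a y j m * fderiv ℝ (fun x => b y x i) x (Pi.single m 1)) →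
  ∃ (g : (Fin p → ℂ) → (Fin n → ℝ) → ℂ) (κ : (Fin p → ℂ) → J → ℂ),
    ContDiffOn ℝ ∞ (fun q : (Fin p → ℂ) × (Fin n → ℝ) => g q.1 q.2) (T ×ˢ univ) ∧
    (∀ x, DifferentiableOn ℂ (fun y => g y x) T) ∧
    (∀ y ∈ T, ∀ (x : Fin n → ℝ) (k : Fin n → ℤ), g y (x + fun m => (k m : ℝ)) = g y x) ∧
    (∀ j, DifferentiableOn ℂ (fun y => κ y j) T) ∧
    ∀ y ∈ T, ∀ x j, ∑ m, a y j m * fderiv ℝ (g y) x (Pi.single m 1) = b y x j - κ y j

/-- the same for any finite dimensional space of parameters -/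
theorem d1_gen {E : Type*} [NormedAddCommGroup E] [NormedSpace ℂ E] [FiniteDimensional ℂ E]
    (n : ℕ) (J : Type*) [Fintype J] (T : Set E)
    (a : E → J → Fin n → ℂ) (b : E → (Fin n → ℝ) → J → ℂ) (hT : IsOpen T)
    (ha : ∀ j m, DifferentiableOn ℂ (fun y => a y j m) T)
    (hell : ∀ y ∈ T, ∃ c > 0, ∀ᶠ y' in 𝓝 y, ∀ k : Fin n → ℤ,
      c * ‖fun m => (k m : ℝ)‖ ≤ ‖fun j => ∑ m, a y' j m * (k m : ℂ)‖)
    (hb : ∀ j, ContDiffOn ℝ ∞ (fun q : E × (Fin n → ℝ) => b q.1 q.2 j) (T ×ˢ univ))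
    (hh : ∀ j x, DifferentiableOn ℂ (fun y => b y x j) T)
    (hper : ∀ y ∈ T, ∀ (x : Fin n → ℝ) (k : Fin n → ℤ), b y (x + fun m => (k m : ℝ)) = b y x)
    (hcomp : ∀ y ∈ T, ∀ x i j, ∑ m, a y i m * fderiv ℝ (fun x => b y x j) x (Pi.single m 1)
      = ∑ m, a y j m * fderiv ℝ (fun x => b y x i) x (Pi.single m 1)) :
    ∃ (g : E → (Fin n → ℝ) → ℂ) (κ : E → J → ℂ),
      ContDiffOn ℝ ∞ (fun q : E × (Fin n → ℝ) => g q.1 q.2) (T ×ˢ univ) ∧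
      (∀ x, DifferentiableOn ℂ (fun y => g y x) T) ∧
      (∀ y ∈ T, ∀ (x : Fin n → ℝ) (k : Fin n → ℤ), g y (x + fun m => (k m : ℝ)) = g y x) ∧
      (∀ j, DifferentiableOn ℂ (fun y => κ y j) T) ∧
      ∀ y ∈ T, ∀ x j, ∑ m, a y j m * fderiv ℝ (g y) x (Pi.single m 1) = b y x j - κ y j := by
  have hS : ∀ j, Sm T (fun y x => b y x j) := fun j =>
    ⟨fun y hy x k => congrFun (hper y hy x k) j, hb j⟩
  have hell' : ∀ y0 ∈ T, ∃ c : ℝ, 0 < c ∧ ∀ᶠ y in 𝓝 y0, ∀ k : Fin n → ℤ, k ≠ 0 →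
      ∃ j, c * ‖k‖ ≤ ‖∑ m, (fun j y => a y j) j y m * k m‖ := by
    intro y0 hy0
    obtain ⟨c, hc, hev⟩ := hell y0 hy0
    refine ⟨c, hc, hev.mono fun y hy k hk => ?_⟩
    have h1 := hy k
    have h2 : ‖fun m => (k m : ℝ)‖ = ‖k‖ := norm_zv k
    rw [h2] at h1
    have h3 := norm_one_le hk
    have hne : Nonempty J := by
      by_contra hJ
      rw [not_nonempty_iff] at hJ
      have h4 : ‖fun j : J => ∑ m, a y j m * (k m : ℂ)‖ = 0 := by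
        rw [norm_eq_zero]
        exact Subsingleton.elim _ _
      rw [h4] at h1
      nlinarith
    obtain ⟨j, _, hj⟩ := Finset.exists_max_image Finset.univ
      (fun j => ‖∑ m, a y j m * (k m : ℂ)‖) Finset.univ_nonempty
    refine ⟨j, h1.trans ?_⟩
    exact (pi_norm_le_iff_of_nonneg (norm_nonneg _)).mpr fun i => hj i (Finset.mem_univ _)
  obtain ⟨g, hg, hgh, hgL⟩ := D1 hT (fun j y => a y j) ha hell' (fun j y x => b y x j) hS hh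
    (fun i j y hy x => hcomp y hy x i j)
  refine ⟨g, fun y j => cf 0 (fun x => b y x j), hg.smooth, hgh, fun y hy x k => hg.per y hy x k,
    fun j => cf_hol hT (hS j) (hh j) 0, fun y hy x j => ?_⟩
  exact hgL j y hy x

theorem d1 : D1Stmt := by
  intro p n J _ T a b hT ha hell hb hh hper hcomp
  exact d1_gen n J T a b hT ha hell hb hh hper hcomp

end H383.TD
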