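import Vale.Agent.P281.H383.TD.PF4
import Vale.Agent.P281.H713.TZ.Core
import Vale.Agent.P281.H713.TZ.SFin

/-! P281, block X4 (helper383): `kodF f₁ Δ₁ ≤ kodF f Δ` for a step. -/

open scoped Manifold ContDiff Topology
open Set Filter

set_option linter.unusedSectionVars false

noncomputable section

namespace Vale.Agent.P281.H383.TD

open Vale.Agent.P281 Vale.Agent.P281.H713 Vale.Agent.P281.H64 Vale.Agent.P281.H64.Gen
open Vale.Agent.P281.ISO Vale.Agent.P281.H308.Bir Vale.Agent.P281.H713.SA Vale.Agent.P281.MF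
open Vale.Agent.P281.H713.TZ (KodFGE isSection_mono)

/-- if `f` is nowhere submersive, its minors vanish -/
theorem minors_zero {n p m : ℕ} {X Y : Type} [TopologicalSpace X] [ChartedSpace (Cm n) X]
    [TopologicalSpace Y] [ChartedSpace (Cm p) Y] {f : X → Y} (hm : 0 < m) {x z : X}
    (hz : ¬ Function.Surjective (dM (Cm n) (Cm p) f z)) (I : Fin m → Fin p → Fin n) :
    TL.minors (n := n) (p := p) m (id : X → X) f x z I = 0 := by
  unfold TL.minors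
  refine Finset.prod_eq_zero (Finset.mem_univ ⟨0, hm⟩) ?_
  by_contra hne
  apply hz
  set A : Matrix (Fin p) (Fin p) ℂ := Matrix.of fun a b : Fin p =>
    (mfderiv 𝓘(ℂ, Cm n) 𝓘(ℂ, Cm p) f z : Cm n →L[ℂ] Cm p)
      (Ring.inverse (M₀ := Cm n →L[ℂ] Cm n)
        (mfderiv 𝓘(ℂ, Cm n) 𝓘(ℂ, Cm n) (fun w => chartAt (Cm n) x (id w)) z)
        (Pi.single (I ⟨0, hm⟩ b) 1)) a with hA
  have hu : IsUnit A.det := isUnit_iff_ne_zero.2 hne
  intro η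
  refine ⟨∑ b, (A⁻¹.mulVec η) b • (Ring.inverse (M₀ := Cm n →L[ℂ] Cm n)
        (mfderiv 𝓘(ℂ, Cm n) 𝓘(ℂ, Cm n) (fun w => chartAt (Cm n) x (id w)) z)
        (Pi.single (I ⟨0, hm⟩ b) 1)), ?_⟩
  have h1 : A.mulVec (A⁻¹.mulVec η) = η := by
    rw [Matrix.mulVec_mulVec, Matrix.mul_nonsing_inv _ hu, Matrix.one_mulVec]
  funext a
  have h2 := congrFun h1 a
  rw [map_sum]
  simp only [map_smul]
  rw [Finset.sum_apply]
  rw [← h2]
  simp only [Matrix.mulVec, dotProduct]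
  refine Finset.sum_congr rfl fun b _ => ?_
  rw [Pi.smul_apply, smul_eq_mul, mul_comm]
  rfl

section Main

variable {n p : ℕ} {X X₁ Y Y₁ : Type} [TopologicalSpace X] [CompactSpace X] [ConnectedSpace X]
  [ChartedSpace (Cm n) X] [TopologicalSpace X₁] [ChartedSpace (Cm n) X₁]
  [TopologicalSpace Y] [CompactSpace Y] [ChartedSpace (Cm p) Y]
  [TopologicalSpace Y₁] [ChartedSpace (Cm p) Y₁]
variable {f : X → Y} {f₁ : X₁ → Y₁} {Δ : Set X → ℝ} {Δ₁ : Set X₁ → ℝ}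

/-- the push-forward of a pull-back section, in all cases -/
theorem exists_pull (har : HartogsStmt) (exc : ExcStmt) (push : PushStmt)
    {u : X₁ → X} {v : Y₁ → Y} [IsManifold 𝓘(ℂ, Cm n) ω X] [IsManifold 𝓘(ℂ, Cm n) ω X₁]
    [IsManifold 𝓘(ℂ, Cm p) ω Y] [IsManifold 𝓘(ℂ, Cm p) ω Y₁]
    (hu : TZ.S.IsModif (Cm n) u) (hv : TZ.S.IsModif (Cm p) v)
    (hf : ContMDiff 𝓘(ℂ, Cm n) 𝓘(ℂ, Cm p) ω f) (hf₁ : ContMDiff 𝓘(ℂ, Cm n) 𝓘(ℂ, Cm p) ω f₁)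
    (hcomm : ∀ x, f (u x) = v (f₁ x)) (hΔ : J.IsSNC (Cm n) Δ) (hΔ₁ : J.IsSNC (Cm n) Δ₁)
    (hpush : ∀ D, J.IsPrime (Cm n) D → J.IsPrime (Cm n) (u '' D) → Δ₁ D = Δ (u '' D))
    {𝒢₁ : Set (Set Y₁)}
    (h𝒢f : 𝒢₁.Finite) (h𝒢p : ∀ G ∈ 𝒢₁, J.IsPrime (Cm p) G) {m : ℕ} (hm : 0 < m)
    {K₁ : Set X₁ → ℕ}
    (hK₁ : ∀ D, (K₁ D : ℝ) ≤ m * Δ₁ D) {s : Y₁ → ℂ}
    (hs : TL.IsPullSection (n := n) (p := p) m K₁ 𝒢₁ (id : X₁ → X₁) f₁ s) :
    ∃ σ : Y → ℂ, TL.IsPullSection (n := n) (p := p) m (fun D => ⌊(m : ℝ) * Δ D⌋₊)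
      (pushG (p := p) v 𝒢₁) (id : X → X) f σ ∧
      ∀ z, v z ∉ v '' excSet (Cm p) v → (∀ G ∈ pushG (p := p) v 𝒢₁, v z ∉ G) →
        σ (v z) = s z / (dM (Cm p) (Cm p) v z).det ^ m := by
  classical
  by_cases hsub : ∃ x, Function.Surjective (dM (Cm n) (Cm p) f x)
  · exact pull_push har exc push hu hv hf hf₁ hcomm hΔ hΔ₁ hpush hsub h𝒢f h𝒢p hK₁ hs
  · have hsub' : ∀ x, ¬ Function.Surjective (dM (Cm n) (Cm p) f x) := fun x hx => hsub ⟨x, hx⟩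
    obtain ⟨k, hk, hks⟩ := hs.mero
    obtain ⟨σ, hσ, hσe⟩ := exists_push har exc push hv h𝒢f h𝒢p hk hks
    refine ⟨σ, ⟨⟨_, pushK_supp k, hσ⟩, fun x₀ => ?_⟩, hσe⟩
    have hsΔ := JB.snc hΔ
    set T : Finset (Set X) := hsΔ.finite.toFinset with hT
    have hTm : ∀ D, D ∈ T ↔ Δ D ≠ 0 := fun D => by
      rw [hT, Set.Finite.mem_toFinset]
      rfl
    have hch : ∀ D, ∃ g : X → ℂ, D ∈ T → IsLocalEq (Cm n) D g x₀ := by
      intro D
      by_cases hDT : D ∈ T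
      · obtain ⟨g, hg⟩ := (hsΔ.prime D ((hTm D).1 hDT)).2.1 x₀
        exact ⟨g, fun _ => hg⟩
      · exact ⟨0, fun h => absurd h hDT⟩
    choose g hg using hch
    refine ⟨T, g, fun D hD => (hTm D).2 fun h0 => hD ?_, hg, fun I => ⟨fun _ => 0,
      contMDiffAt_const, Eventually.of_forall fun y z _ _ _ => ?_⟩⟩
    · show ⌊(m : ℝ) * Δ D⌋₊ = 0
      rw [h0, mul_zero, Nat.floor_zero]
    · rw [minors_zero hm (hsub' z), mul_zero, zero_mul]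

/-- **X4**: the condition in the definition of `kodF` is inherited by the base of a step -/
theorem kodFGE_step (har : HartogsStmt) (exc : ExcStmt) (push : PushStmt)
    (hs : TZ.S.IsStep (Cm n) (Cm p) f₁ Δ₁ f Δ) {l : ℕ}
    (h : KodFGE n p Δ₁ (id : X₁ → X₁) f₁ l) : KodFGE n p Δ (id : X → X) f l := by
  classical
  obtain ⟨u, v, hu, hv, hcomm, hf, hf₁, hΔ, hΔ₁, hpush, -⟩ := hs
  haveI : IsManifold 𝓘(ℂ, Cm n) ω X := hu.1.2.2.1
  haveI : IsManifold 𝓘(ℂ, Cm n) ω X₁ := hu.1.2.2.2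
  haveI : IsManifold 𝓘(ℂ, Cm p) ω Y := hv.1.2.2.1
  haveI : IsManifold 𝓘(ℂ, Cm p) ω Y₁ := hv.1.2.2.2
  haveI : T2Space Y := hv.1.1
  obtain ⟨m, K₁, 𝒢₁, s, y₁, hm, hK₁, h𝒢f, h𝒢p, hpull, hy₁, ht0, hsurj⟩ := h
  have hMv := H349.NF.mod_modif exc hv
  choose σ hσ hσe using fun b => exists_pull har exc push hu hv hf hf₁ hcomm hΔ hΔ₁ hpush h𝒢f
    h𝒢p hm hK₁ (hpull b)
  have hΔ0 : ∀ D, 0 ≤ Δ D := fun D => (snc01 (JB.snc hΔ) D).1
  -- the sections on `Y₁`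
  choose kb hkb hkbs using fun b : Fin (l + 1) => (hpull b).mero
  set k : Set Y₁ → ℕ := fun G => ∑ b, kb b G with hkd
  have hkG : ∀ G, k G ≠ 0 → G ∈ 𝒢₁ := by
    intro G hG
    obtain ⟨b, -, hb⟩ := Finset.exists_ne_zero_of_sum_ne_zero hG
    exact hkb b G hb
  have hkfin : {G | k G ≠ 0}.Finite := h𝒢f.subset fun G hG => hkG G hG
  have h𝒢p' : ∀ G ∈ 𝒢₁, IsPrimeDivisor (Cm p) G := fun G hG => h𝒢p G hG
  set t : Fin (l + 1) → Y₁ → ℂ := fun b => s b with htd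
  have ht : ∀ b, IsSection (Cm p) (fun (D : Set Y₁) z g => IsLocalEq (Cm p) D g z) m k (t b) :=
    fun b => isSection_mono (fun D => Finset.single_le_sum (f := fun b => kb b D)
      (fun _ _ => Nat.zero_le _) (Finset.mem_univ b)) hkfin (fun G hG => h𝒢p' G (hkG G hG))
      (hkbs b)
  have hind : LinearIndependent ℂ (fun b : Fin l =>
      dif (Cm p) (fun w => t b.succ w / t 0 w) y₁) :=
    JB.linearIndependent_of_surjective hsurj
  have hoffY : ∀ y, (∀ G ∈ 𝒢₁, y ∉ G) → ∀ G, k G ≠ 0 →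
      ∃ g, IsLocalEq (Cm p) G g y ∧ g y ≠ 0 := by
    intro y hy G hG
    obtain ⟨g, hg⟩ := (h𝒢p' G (hkG G hG)).2.1 y
    exact ⟨g, hg, fun h0 => hy G (hkG G hG) ((show IsLocalEq (Cm p) G g y from hg).mem_iff.2 h0)⟩
  obtain ⟨y₂, hy₂⟩ := good_point ht (hoffY y₁ hy₁) ht0 hind
  obtain ⟨V, hV, hVo, hyV⟩ := eventually_nhds_iff.1 hy₂
  -- the good set below
  have hM := exc p Y Y₁ v hv
  have hthin := H64.Thin.isThinSet_sUnion (pushG_finite (v := v) h𝒢f) (pushG_prime push hv h𝒢p)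
  set S : Set Y := v '' excSet (Cm p) v ∪ ⋃₀ pushG (p := p) v 𝒢₁ with hS
  have hSs : IsSmallSet (Cm p) S := (small_of_small2 hM).union (IsSmallSet.of_thin hthin)
  have hSd : Dense Sᶜ := hSs.dense_compl
  obtain ⟨z, hzV, hzS⟩ := (hMv.dpre Sᶜ hSs.1.isOpen_compl hSd).inter_open_nonempty V hVo ⟨y₂, hyV⟩
  obtain ⟨hg1, hg2, hg3, hg4⟩ := hV z hzV
  have hzN : v z ∉ v '' excSet (Cm p) v := fun h => hzS (Or.inl h)
  have hzG : ∀ G ∈ pushG (p := p) v 𝒢₁, v z ∉ G := fun G hG h => hzS (Or.inr ⟨G, hG, h⟩)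
  have hdet : ∀ w, v w ∉ v '' excSet (Cm p) v → (dM (Cm p) (Cm p) v w).det ≠ 0 := fun w hw =>
    det_ne_of_bij (hMv.exc w hw)
  have hnear : ∀ᶠ w in 𝓝 z, v w ∉ S :=
    (hMv.hol z).continuousAt.eventually (hSs.1.isOpen_compl.mem_nhds hzS)
  have hratio : ∀ b : ℕ, ∀ᶠ w in 𝓝 z, σ b (v w) / σ 0 (v w) = s b w / s 0 w := by
    intro b
    filter_upwards [hnear] with w hw
    have h1 : v w ∉ v '' excSet (Cm p) v := fun h => hw (Or.inl h)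
    have h2 : ∀ G ∈ pushG (p := p) v 𝒢₁, v w ∉ G := fun G hG h => hw (Or.inr ⟨G, hG, h⟩)
    rw [hσe b w h1 h2, hσe 0 w h1 h2, div_div_div_cancel_right₀ (pow_ne_zero _ (hdet w h1))]
  refine ⟨m, fun D => ⌊(m : ℝ) * Δ D⌋₊, pushG (p := p) v 𝒢₁, σ, v z, hm,
    fun D => Nat.floor_le (mul_nonneg (Nat.cast_nonneg _) (hΔ0 D)), pushG_finite (v := v) h𝒢f,
    pushG_prime push hv h𝒢p, hσ, hzG, ?_, ?_⟩
  · rw [hσe 0 z hzN hzG]
    exact div_ne_zero hg1 (pow_ne_zero _ (hdet z hzN))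
  · have hhol : ∀ b : Fin l, HolV (Cm p) (fun y => σ (b + 1) y / σ 0 y) (v z) := by
      intro b
      refine holV_of_comp (hMv.hol z) (hMv.exc z hzN).1 ((hg3 b).congr ?_)
      filter_upwards [hratio (b + 1)] with w hw
      rw [hw]
      simp [htd]
    have hli : LinearIndependent ℂ fun b : Fin l =>
        dif (Cm p) (fun w => σ (b + 1) w / σ 0 w) (v z) := by
      rw [← linearIndependent_precomp (hMv.exc z hzN).2]
      have hcomp : (fun b : Fin l => (dif (Cm p) (fun w => σ (b + 1) w / σ 0 w) (v z)).comp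
          (dM (Cm p) (Cm p) v z)) =
          fun b : Fin l => dif (Cm p) (fun w => t b.succ w / t 0 w) z := by
        funext b
        rw [← dif_comp (hhol b) (hMv.hol z)]
        refine dV_congr ?_
        filter_upwards [hratio (b + 1)] with w hw
        rw [hw]
        simp [htd]
      rw [hcomp]
      exact hg4
    exact JB.surjective_of_linearIndependent hli

/-- **X4** -/
theorem kodF_step (har : HartogsStmt) (exc : ExcStmt) (push : PushStmt)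
    (hs : TZ.S.IsStep (Cm n) (Cm p) f₁ Δ₁ f Δ) :
    TZ.S.kodF n p Δ₁ (id : X₁ → X₁) f₁ ≤ TZ.S.kodF n p Δ (id : X → X) f := by
  rw [TZ.S.kodF_eq, TZ.S.kodF_eq]
  rcases TZ.kodF_attained (n := n) (p := p) Δ₁ (id : X₁ → X₁) f₁ with h1 | ⟨l, h1, e1⟩
  · rw [h1]
    exact bot_le
  · rw [e1]
    unfold TL.kodF
    exact le_iSup₂_of_le l (kodFGE_step har exc push hs h1) le_rfl

end Main

end Vale.Agent.P281.H383.TD
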