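import Vale.Agent.P281.H383.TD.PF3

/-! P281, block X4 (helper383): the push-forward of a section with its pole condition. -/

open scoped Manifold ContDiff Topology
open Set Filter

set_option linter.unusedSectionVars false

noncomputable section

namespace Vale.Agent.P281.H383.TD

open Vale.Agent.P281 Vale.Agent.P281.H713 Vale.Agent.P281.H64 Vale.Agent.P281.H64.Gen
open Vale.Agent.P281.ISO Vale.Agent.P281.H308.Bir Vale.Agent.P281.H713.SA Vale.Agent.P281.MF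
open Vale.Agent.P281.H498 (PoleAt)
open Vale.Agent.P281.H64.Thin (IsThinSet isThinSet_sUnion)

/-- the images of the divisors which are not exceptional -/
def pushG {p : ℕ} {Y Y₁ : Type} [TopologicalSpace Y] [ChartedSpace (Cm p) Y]
    [TopologicalSpace Y₁] [ChartedSpace (Cm p) Y₁] (v : Y₁ → Y) (𝒢₁ : Set (Set Y₁)) :
    Set (Set Y) := (fun G => v '' G) '' {G | G ∈ 𝒢₁ ∧ ¬ G ⊆ excSet (Cm p) v}

open Classical in
/-- the pole orders on the images -/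
def pushK {p : ℕ} {Y Y₁ : Type} [TopologicalSpace Y] [ChartedSpace (Cm p) Y]
    [TopologicalSpace Y₁] [ChartedSpace (Cm p) Y₁] (v : Y₁ → Y) (𝒢₁ : Set (Set Y₁))
    (k : Set Y₁ → ℕ) (G' : Set Y) : ℕ :=
  if h : ∃ G, (G ∈ 𝒢₁ ∧ ¬ G ⊆ excSet (Cm p) v) ∧ v '' G = G' then k h.choose else 0

section Base

variable {p : ℕ} {Y Y₁ : Type} [TopologicalSpace Y] [CompactSpace Y] [ChartedSpace (Cm p) Y]
  [TopologicalSpace Y₁] [ChartedSpace (Cm p) Y₁] [IsManifold 𝓘(ℂ, Cm p) ω Y]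
  [IsManifold 𝓘(ℂ, Cm p) ω Y₁] {v : Y₁ → Y} {𝒢₁ : Set (Set Y₁)}

theorem pushG_prime (push : PushStmt) (hv : TZ.S.IsModif (Cm p) v)
    (h𝒢p : ∀ G ∈ 𝒢₁, J.IsPrime (Cm p) G) : ∀ G ∈ pushG (p := p) v 𝒢₁, J.IsPrime (Cm p) G := by
  rintro _ ⟨G, ⟨hG, hne⟩, rfl⟩
  exact push p Y Y₁ v G hv (h𝒢p G hG) hne

theorem pushG_finite (h𝒢f : 𝒢₁.Finite) : (pushG (p := p) v 𝒢₁).Finite :=
  (h𝒢f.subset fun _ h => h.1).image _

theorem pushK_supp (k : Set Y₁ → ℕ) : ∀ G', pushK (p := p) v 𝒢₁ k G' ≠ 0 →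
    G' ∈ pushG (p := p) v 𝒢₁ := by
  intro G' h
  unfold pushK at h
  split_ifs at h with h1
  · exact ⟨h1.choose, h1.choose_spec.1, h1.choose_spec.2⟩
  · exact absurd rfl h

theorem pushK_eq (exc : ExcStmt) (hv : TZ.S.IsModif (Cm p) v)
    (h𝒢p : ∀ G ∈ 𝒢₁, J.IsPrime (Cm p) G) (k : Set Y₁ → ℕ) {G : Set Y₁} (hG : G ∈ 𝒢₁)
    (hne : ¬ G ⊆ excSet (Cm p) v) : pushK (p := p) v 𝒢₁ k (v '' G) = k G := by
  have h1 : ∃ G₁, (G₁ ∈ 𝒢₁ ∧ ¬ G₁ ⊆ excSet (Cm p) v) ∧ v '' G₁ = v '' G := ⟨G, ⟨hG, hne⟩, rfl⟩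
  unfold pushK
  rw [dif_pos h1]
  obtain ⟨⟨h2, h3⟩, h4⟩ := h1.choose_spec
  obtain ⟨z, hz, hzE⟩ := not_subset.1 hne
  have h5 := H349.NF.mod_modif exc hv
  exact (congrArg k (prime_inj h5 (h𝒢p G hG) (h𝒢p _ h2) (notMem_of_notExc hv hzE) hz
    h4.symm)).symm

/-- the push-forward of a section with poles along `𝒢₁` -/
theorem exists_push (har : HartogsStmt) (exc : ExcStmt) (push : PushStmt)
    (hv : TZ.S.IsModif (Cm p) v) (h𝒢f : 𝒢₁.Finite) (h𝒢p : ∀ G ∈ 𝒢₁, J.IsPrime (Cm p) G) {m : ℕ}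
    {k : Set Y₁ → ℕ} (hk : ∀ G, k G ≠ 0 → G ∈ 𝒢₁) {s : Y₁ → ℂ}
    (hs : IsSection (Cm p) (fun (D : Set Y₁) z g => IsLocalEq (Cm p) D g z) m k s) :
    ∃ σ : Y → ℂ, IsSection (Cm p) (fun (D : Set Y) z g => IsLocalEq (Cm p) D g z) m
      (pushK (p := p) v 𝒢₁ k) σ ∧
      ∀ z, v z ∉ v '' excSet (Cm p) v → (∀ G ∈ pushG (p := p) v 𝒢₁, v z ∉ G) →
        σ (v z) = s z / (dM (Cm p) (Cm p) v z).det ^ m := by
  have hM := H349.NF.mod_modif exc hv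
  haveI : T2Space Y := hv.1.1
  obtain ⟨σ, hσ, hσe⟩ := push_sec har (exc p Y Y₁ v hv) hM hs
    (K := pushK (p := p) v 𝒢₁ k)
    ((pushG_finite (v := v) h𝒢f).subset fun G hG => pushK_supp k G hG)
    (fun G hG => pushG_prime push hv h𝒢p G (pushK_supp k G hG))
    (fun G hG => by
      by_cases h1 : G ⊆ excSet (Cm p) v
      · exact Or.inl fun w hw => mem_image_of_mem v (h1 hw)
      · exact Or.inr (pushK_eq exc hv h𝒢p k (hk G hG) h1))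
    (fun z hz D D' h1 h2 h3 h4 h5 =>
      prime_inj hM (h𝒢p D (hk D h1)) (h𝒢p D' (hk D' h2)) hz h3 h5)
  refine ⟨σ, hσ, fun z hz hzG => ?_⟩
  rw [hσe (v z) hz fun G hG => hzG G (pushK_supp k G hG), inv_u hM hz]

end Base

section Main

variable {n p : ℕ} {X X₁ Y Y₁ : Type} [TopologicalSpace X] [CompactSpace X] [ConnectedSpace X]
  [ChartedSpace (Cm n) X] [TopologicalSpace X₁] [ChartedSpace (Cm n) X₁]
  [TopologicalSpace Y] [CompactSpace Y] [ChartedSpace (Cm p) Y]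
  [TopologicalSpace Y₁] [ChartedSpace (Cm p) Y₁]
  [IsManifold 𝓘(ℂ, Cm n) ω X] [IsManifold 𝓘(ℂ, Cm n) ω X₁]
  [IsManifold 𝓘(ℂ, Cm p) ω Y] [IsManifold 𝓘(ℂ, Cm p) ω Y₁]
variable {f : X → Y} {f₁ : X₁ → Y₁} {u : X₁ → X} {v : Y₁ → Y} {Δ : Set X → ℝ} {Δ₁ : Set X₁ → ℝ}
  {𝒢₁ : Set (Set Y₁)}

/-- the good set is dense -/
theorem dense_good (exc : ExcStmt) (push : PushStmt) (hu : TZ.S.IsModif (Cm n) u)
    (hv : TZ.S.IsModif (Cm p) v) (hf : ContMDiff 𝓘(ℂ, Cm n) 𝓘(ℂ, Cm p) ω f)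
    (hΔ : J.IsSNC (Cm n) Δ) (h𝒢f : 𝒢₁.Finite) (h𝒢p : ∀ G ∈ 𝒢₁, J.IsPrime (Cm p) G)
    (hsub : ∃ x, Function.Surjective (dM (Cm n) (Cm p) f x)) :
    Dense {y | y ∉ u '' excSet (Cm n) u ∧ f y ∉ v '' excSet (Cm p) v ∧
      (∀ G ∈ pushG (p := p) v 𝒢₁, f y ∉ G) ∧ ∀ D, Δ D ≠ 0 → y ∉ D} := by
  haveI : T2Space X := hu.1.1
  haveI : T2Space Y := hv.1.1
  have hs := JB.snc hΔ
  have hfh : ∀ x, HolM (Cm n) (Cm p) f x := fun x => hf x
  have hN := exc n X X₁ u hu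
  have hM := exc p Y Y₁ v hv
  set S : Set Y := v '' excSet (Cm p) v ∪ ⋃₀ pushG (p := p) v 𝒢₁ with hS
  have hSs : IsSmallSet (Cm p) S := (small_of_small2 hM).union
    (IsSmallSet.of_thin (isThinSet_sUnion (pushG_finite (v := v) h𝒢f)
      (pushG_prime push hv h𝒢p)))
  have hcov : H64.Gen.Cov n (f ⁻¹' S) := preimage_cov hfh hsub hSs.cov
  have hd1 : Dense (f ⁻¹' S)ᶜ := hcov.dense_compl
  have hd2 : Dense (u '' excSet (Cm n) u)ᶜ := H383.Gen.dense_compl_small (small_of_small2 hN)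
  obtain ⟨hRo, hRd⟩ := dense_compl_finite (X := X) (T := {D | Δ D ≠ 0}) hs.finite
    (fun D hD => (hs.prime D hD).1) (fun D hD => by
      rw [dense_iff_inter_open]
      intro U hU hUne
      obtain ⟨x, hxU, hxD⟩ := IsLocalEq.exists_notMem (hs.prime D hD).2.1 hU hUne
      exact ⟨x, hxU, hxD⟩)
  have h1 := (hd2.inter_of_isOpen_left hd1 hN.1.isOpen_compl).inter_of_isOpen_right hRd hRo
  refine h1.mono ?_
  rintro y ⟨⟨h2, h3⟩, h4⟩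
  refine ⟨h2, fun h => h3 (Or.inl h), fun G hG h => h3 (Or.inr ⟨G, hG, h⟩), h4⟩

/-- **the push-forward of a section, with its pole condition** -/
theorem pull_push (har : HartogsStmt) (exc : ExcStmt) (push : PushStmt)
    (hu : TZ.S.IsModif (Cm n) u) (hv : TZ.S.IsModif (Cm p) v)
    (hf : ContMDiff 𝓘(ℂ, Cm n) 𝓘(ℂ, Cm p) ω f) (hf₁ : ContMDiff 𝓘(ℂ, Cm n) 𝓘(ℂ, Cm p) ω f₁)
    (hcomm : ∀ x, f (u x) = v (f₁ x)) (hΔ : J.IsSNC (Cm n) Δ) (hΔ₁ : J.IsSNC (Cm n) Δ₁)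
    (hpush : ∀ D, J.IsPrime (Cm n) D → J.IsPrime (Cm n) (u '' D) → Δ₁ D = Δ (u '' D))
    (hsub : ∃ x, Function.Surjective (dM (Cm n) (Cm p) f x))
    (h𝒢f : 𝒢₁.Finite) (h𝒢p : ∀ G ∈ 𝒢₁, J.IsPrime (Cm p) G) {m : ℕ} {K₁ : Set X₁ → ℕ}
    (hK₁ : ∀ D, (K₁ D : ℝ) ≤ m * Δ₁ D) {s : Y₁ → ℂ}
    (hs : TL.IsPullSection (n := n) (p := p) m K₁ 𝒢₁ (id : X₁ → X₁) f₁ s) :
    ∃ σ : Y → ℂ, TL.IsPullSection (n := n) (p := p) m (fun D => ⌊(m : ℝ) * Δ D⌋₊)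
      (pushG (p := p) v 𝒢₁) (id : X → X) f σ ∧
      ∀ z, v z ∉ v '' excSet (Cm p) v → (∀ G ∈ pushG (p := p) v 𝒢₁, v z ∉ G) →
        σ (v z) = s z / (dM (Cm p) (Cm p) v z).det ^ m := by
  classical
  haveI : T2Space X := hu.1.1
  haveI : T2Space Y := hv.1.1
  have hMu := H349.NF.mod_modif exc hu
  have hMv := H349.NF.mod_modif exc hv
  have hN := exc n X X₁ u hu
  have hsΔ := JB.snc hΔ
  have hfh : ∀ x, HolM (Cm n) (Cm p) f x := fun x => hf x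
  have hf₁h : ∀ x, HolM (Cm n) (Cm p) f₁ x := fun x => hf₁ x
  obtain ⟨k, hk, hks⟩ := hs.mero
  obtain ⟨σ, hσ, hσe⟩ := exists_push har exc push hv h𝒢f h𝒢p hk hks
  refine ⟨σ, ⟨⟨_, pushK_supp k, hσ⟩, fun x₀ => ?_⟩, hσe⟩
  set K : Set X → ℕ := fun D => ⌊(m : ℝ) * Δ D⌋₊ with hK
  set k₁ : Set X₁ → ℕ := fun D => ⌊(m : ℝ) * Δ₁ D⌋₊ with hk₁
  set G : Set X := {y | y ∉ u '' excSet (Cm n) u ∧ f y ∉ v '' excSet (Cm p) v ∧
      (∀ G ∈ pushG (p := p) v 𝒢₁, f y ∉ G) ∧ ∀ D, Δ D ≠ 0 → y ∉ D} with hG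
  have hGd : Dense G := dense_good exc push hu hv hf hΔ h𝒢f h𝒢p hsub
  have hKΔ : ∀ D, K D ≠ 0 → Δ D ≠ 0 := by
    intro D hD h0
    apply hD
    rw [hK]
    show ⌊(m : ℝ) * Δ D⌋₊ = 0
    rw [h0, mul_zero, Nat.floor_zero]
  have hk₁Δ : ∀ D, k₁ D ≠ 0 → Δ₁ D ≠ 0 := by
    intro D hD h0
    apply hD
    rw [hk₁]
    show ⌊(m : ℝ) * Δ₁ D⌋₊ = 0
    rw [h0, mul_zero, Nat.floor_zero]
  have hK₁k₁ : ∀ D, K₁ D ≤ k₁ D := fun D => Nat.le_floor (hK₁ D)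
  have hK₁Δ : ∀ D, K₁ D ≠ 0 → Δ₁ D ≠ 0 := fun D hD => hk₁Δ D (by
    have := hK₁k₁ D
    omega)
  have hprime : ∀ D, Δ₁ D ≠ 0 → ¬ D ⊆ excSet (Cm n) u → J.IsPrime (Cm n) (u '' D) := fun D hD hne =>
    push n X X₁ u D hu (hΔ₁.2.1 D hD) hne
  -- the local equations
  set T : Finset (Set X) := hsΔ.finite.toFinset with hT
  have hTm : ∀ D, D ∈ T ↔ Δ D ≠ 0 := fun D => by
    rw [hT, Set.Finite.mem_toFinset]
    rfl
  have hch : ∀ D, ∃ g : X → ℂ, D ∈ T → IsLocalEq (Cm n) D g x₀ := by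
    intro D
    by_cases hDT : D ∈ T
    · obtain ⟨g, hg⟩ := (hsΔ.prime D ((hTm D).1 hDT)).2.1 x₀
      exact ⟨g, fun _ => hg⟩
    · exact ⟨0, fun h => absurd h hDT⟩
  choose g hg using hch
  have hgev : ∀ᶠ y in 𝓝 x₀, ∀ D ∈ T, IsLocalEq (Cm n) D (g D) y := by
    rw [Filter.eventually_all_finset]
    exact fun D hD => (hg D hD).eventually
  obtain ⟨U, hU, hUo, hxU⟩ := eventually_nhds_iff.1 (hgev.and
    ((chartAt (Cm n) x₀).open_source.mem_nhds (mem_chart_source (Cm n) x₀)))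
  refine ⟨T, g, fun D hD => (hTm D).2 (hKΔ D hD), hg, fun I => ?_⟩
  set I' : Fin (m * p) → Fin n := fun t => I (finProdFinEquiv.symm t).1 (finProdFinEquiv.symm t).2
    with hI'
  set c₀ : X → Cm n := fun w => (chartAt (Cm n) x₀ : X → Cm n) w with hc₀
  set F : X → ℂ := fun y => σ (f y) * tT f m c₀ I' y * ∏ D ∈ T, g D y ^ K D with hF
  obtain ⟨b, hb1, hb2⟩ := glueB (n := n) (N := u '' excSet (Cm n) u) hGd hUo hMu.nclosed
    (F := F) (J := fun _ => 1) (fun _ _ => one_ne_zero) (by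
      intro x hx hxN
      obtain ⟨z, rfl⟩ := hMu.surj x
      obtain ⟨B, hB, hBe⟩ := pull_at hfh hf₁h hMu (fun y => hMv.hol y) hcomm (s := s) (σ := σ)
        (𝒢₁ := 𝒢₁) (K₁ := K₁) (k := k₁) (K := K) (G := G) hxN (hU _ hx).2 (poleAt_of hs z)
        hK₁k₁ (fun D hD => (hTm D).2 (hKΔ D hD)) (hU _ hx).1
        (fun D hD hzD => by
          have h1 : ¬ D ⊆ excSet (Cm n) u := fun h => hxN (mem_image_of_mem u (h hzD))
          have h2 := hpush D (hΔ₁.2.1 D (hk₁Δ D hD)) (hprime D (hk₁Δ D hD) h1)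
          show ⌊(m : ℝ) * Δ (u '' D)⌋₊ = ⌊(m : ℝ) * Δ₁ D⌋₊
          rw [h2])
        (fun D D' h1 h2 h3 h4 h5 => prime_inj hMu (hΔ₁.2.1 D (hk₁Δ D h1))
          (hΔ₁.2.1 D' (hk₁Δ D' h2)) hxN h3 h5)
        (fun w hw => by
          have h1 : v (f₁ w) ∉ v '' excSet (Cm p) v := by
            rw [← hcomm]
            exact hw.2.1
          refine ⟨det_ne_of_bij (hMv.exc _ h1), hσe _ h1 ?_⟩
          rw [← hcomm]
          exact hw.2.2.1)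
        (fun w hw G' hG' hmem => by
          by_cases h1 : G' ⊆ excSet (Cm p) v
          · apply hw.2.1
            rw [hcomm]
            exact mem_image_of_mem v (h1 hmem)
          · refine hw.2.2.1 (v '' G') ⟨G', ⟨hG', h1⟩, rfl⟩ ?_
            rw [hcomm]
            exact mem_image_of_mem v hmem)
        (fun w hw D hD hmem => by
          by_cases h1 : D ⊆ excSet (Cm n) u
          · exact hw.1 (mem_image_of_mem u (h1 hmem))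
          · refine hw.2.2.2 (u '' D) ?_ (mem_image_of_mem u hmem)
            rw [← hpush D (hΔ₁.2.1 D (hK₁Δ D hD)) (hprime D (hK₁Δ D hD) h1)]
            exact hK₁Δ D hD) I'
      refine ⟨B, hB, ?_⟩
      filter_upwards [hBe] with y hy hyG
      rw [mul_one]
      exact hy hyG)
  obtain ⟨a, ha, hae⟩ := har n X _ U b hN hUo (fun x hx hxN => hb1 x hx hxN)
  refine ⟨a, ha x₀ hxU, ?_⟩
  filter_upwards [hUo.mem_nhds hxU] with y hy z hz hzG _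
  subst hz
  have hy' : z ∈ U := hy
  have hFh : HolV (Cm n) F z := by
    refine HolV.mul (holV_pull hfh hσ (fun D hD => ?_) (HolV.chart (hU z hy').2)
      (isUnit_dV_chart (E := Cm n) (hU z hy').2) I') (HolV.prod fun D hD =>
        (((hU z hy').1 D hD).holAt).pow _)
    obtain ⟨e, he⟩ := (pushG_prime push hv h𝒢p D (pushK_supp k D hD)).2.1 (f z)
    exact ⟨e, he, fun h0 => hzG D (pushK_supp k D hD)
      ((show IsLocalEq (Cm p) D e (f z) from he).mem_iff.2 h0)⟩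
  have haz : HolV (Cm n) a z := ha z hy'
  have h1 : F z = a z := by
    refine H383.Gen.eq_of_freq hFh.continuousAt haz.continuousAt ?_
    have h2 : ∃ᶠ t in 𝓝 z, t ∈ G := mem_closure_iff_frequently.1 (hGd z)
    refine (h2.and_eventually (hUo.mem_nhds hy')).mono ?_
    rintro t ⟨ht, htU⟩
    rw [hb2 t htU ht.1 ht, mul_one]
    exact (hae t htU ht.1).symm
  rw [minors_eq_tT]
  exact h1

end Main

end Vale.Agent.P281.H383.TD
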