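import Vale.Agent.P281.H383.TD.PF1
import Vale.Agent.P281.H64.Gen.Core
import Vale.Agent.P281.H498.TL.Pull

/-! P281, block X4 (helper383): pull-backs of pluricanonical sections and modifications. -/

open scoped Manifold ContDiff Topology
open Set Filter

set_option linter.unusedSectionVars false

noncomputable section

namespace Vale.Agent.P281.H383.TD

open Vale.Agent.P281 Vale.Agent.P281.H713 Vale.Agent.P281.H64 Vale.Agent.P281.H64.Gen
open Vale.Agent.P281.ISO Vale.Agent.P281.H308.Bir Vale.Agent.P281.H713.SA Vale.Agent.P281.MF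

section

variable {n p : ℕ} {X X₁ Y Y₁ : Type} [TopologicalSpace X] [ChartedSpace (Cm n) X]
  [TopologicalSpace X₁] [ChartedSpace (Cm n) X₁]
  [IsManifold 𝓘(ℂ, Cm n) ω X] [IsManifold 𝓘(ℂ, Cm n) ω X₁]
  [TopologicalSpace Y] [ChartedSpace (Cm p) Y] [TopologicalSpace Y₁] [ChartedSpace (Cm p) Y₁]
  [IsManifold 𝓘(ℂ, Cm p) ω Y] [IsManifold 𝓘(ℂ, Cm p) ω Y₁]

/-- the pull-back of a section is holomorphic off the poles -/
theorem holV_pull {f : X → Y} (hf : ∀ x, HolM (Cm n) (Cm p) f x) {m : ℕ} {k : Set Y → ℕ}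
    {σ : Y → ℂ} (hσ : IsSection (Cm p) (fun (D : Set Y) z g => IsLocalEq (Cm p) D g z) m k σ)
    {y : X} (hy : ∀ D, k D ≠ 0 → ∃ g, IsLocalEq (Cm p) D g (f y) ∧ g (f y) ≠ 0)
    {c : X → Cm n} (hc : HolV (Cm n) c y) (hcu : IsUnit (dV (Cm n) c y))
    (I : Fin (m * p) → Fin n) : HolV (Cm n) (fun z => σ (f z) * tT f m c I z) y := by
  obtain ⟨A, hA, hAe⟩ := section_local hσ hy
  set ψ := chartAt (Cm p) (f y) with hψ
  have hys : f y ∈ ψ.source := mem_chart_source _ _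
  have h1 : HolV (Cm n) (fun z => A (f z) * tq m ((dV (Cm n) (fun z => (ψ : Y → Cm p) (f z))
      z).comp (Ring.inverse (dV (Cm n) c z))) I) y :=
    (HolV.comp (E' := Cm p) hA (hf y)).mul
      (holV_tq m (holV_quot (HolV.comp (h := (ψ : Y → Cm p)) (HolV.chart hys) (hf y)) hc hcu) I)
  refine h1.congr ?_
  filter_upwards [(hf y).continuousAt.eventually hAe,
    (hf y).continuousAt.eventually (ψ.open_source.mem_nhds hys)] with z h2 h3
  have h8 := jac_tq (hf z) h3 m (Ring.inverse (dV (Cm n) c z)) I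
  rw [h2, ← h8]
  simp only [tT]
  ring

/-- the chain rule for a commutative square -/
theorem dM_square {f : X → Y} {f₁ : X₁ → Y₁} {u : X₁ → X} {v : Y₁ → Y}
    (hf : ∀ x, HolM (Cm n) (Cm p) f x) (hf₁ : ∀ x, HolM (Cm n) (Cm p) f₁ x)
    (hu : ∀ x, HolM (Cm n) (Cm n) u x) (hv : ∀ x, HolM (Cm p) (Cm p) v x)
    (hcomm : ∀ x, f (u x) = v (f₁ x)) (w : X₁) :
    (dM (Cm n) (Cm p) f (u w)).comp (dM (Cm n) (Cm n) u w) =
      (dM (Cm p) (Cm p) v (f₁ w)).comp (dM (Cm n) (Cm p) f₁ w) := by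
  have h1 := mfderiv_comp w ((hf (u w)).mdifferentiableAt (by simp))
    ((hu w).mdifferentiableAt (by simp))
  have h2 := mfderiv_comp w ((hv (f₁ w)).mdifferentiableAt (by simp))
    ((hf₁ w).mdifferentiableAt (by simp))
  have h3 : f ∘ u = v ∘ f₁ := funext hcomm
  rw [h3] at h1
  exact h1.symm.trans h2

/-- the tensor of `f` at `u w`, in terms of the tensor of `f₁` at `w` -/
theorem tT_square {f : X → Y} {f₁ : X₁ → Y₁} {u : X₁ → X} {v : Y₁ → Y}
    (hf : ∀ x, HolM (Cm n) (Cm p) f x) (hf₁ : ∀ x, HolM (Cm n) (Cm p) f₁ x)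
    (hu : ∀ x, HolM (Cm n) (Cm n) u x) (hv : ∀ x, HolM (Cm p) (Cm p) v x)
    (hcomm : ∀ x, f (u x) = v (f₁ x)) {w : X₁}
    (hw : Function.Bijective (dM (Cm n) (Cm n) u w)) {c : X → Cm n} (hc : HolV (Cm n) c (u w))
    (hcu : IsUnit (dV (Cm n) c (u w))) (m : ℕ) (I : Fin (m * p) → Fin n) :
    tT f m c I (u w) = (dM (Cm p) (Cm p) v (f₁ w)).det ^ m *
      tT f₁ m (fun x => c (u x)) I w := by
  have hd : IsUnit (dM (Cm n) (Cm n) u w) := by
    have h1 : (dM (Cm n) (Cm n) u w).det ≠ 0 := det_ne_of_bij hw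
    obtain ⟨L, hL⟩ : ∃ L : Cm n ≃L[ℂ] Cm n, (L : Cm n →L[ℂ] Cm n) = dM (Cm n) (Cm n) u w := by
      refine ⟨(LinearMap.equivOfDetNeZero
        ((dM (Cm n) (Cm n) u w : Cm n →L[ℂ] Cm n) : Cm n →ₗ[ℂ] Cm n)
        h1).toContinuousLinearEquiv, ?_⟩
      ext v
      rfl
    rw [← hL]
    exact ⟨ContinuousLinearEquiv.toUnit L, rfl⟩
  have h2 : dV (Cm n) (fun x => c (u x)) w = dV (Cm n) c (u w) * dM (Cm n) (Cm n) u w :=
    dV_comp hc (hu w)
  have h3 : Ring.inverse (dV (Cm n) (fun x => c (u x)) w) =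
      Ring.inverse (dM (Cm n) (Cm n) u w) * Ring.inverse (dV (Cm n) c (u w)) := by
    rw [h2]
    obtain ⟨a, ha⟩ := hcu
    obtain ⟨b, hb⟩ := hd
    rw [← ha, ← hb, ← Units.val_mul, Ring.inverse_unit, Ring.inverse_unit, Ring.inverse_unit,
      mul_inv_rev, Units.val_mul]
  have h4 := dM_square hf hf₁ hu hv hcomm w
  have h5 : (dM (Cm n) (Cm p) f (u w)).comp (Ring.inverse (dV (Cm n) c (u w))) =
      (dM (Cm p) (Cm p) v (f₁ w)).comp ((dM (Cm n) (Cm p) f₁ w).comp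
        (Ring.inverse (dV (Cm n) (fun x => c (u x)) w))) := by
    rw [h3, ← ContinuousLinearMap.comp_assoc, ← h4]
    have h6 : dM (Cm n) (Cm n) u w * (Ring.inverse (dM (Cm n) (Cm n) u w)) = 1 :=
      Ring.mul_inverse_cancel _ hd
    have h7 : (dM (Cm n) (Cm n) u w).comp (Ring.inverse (dM (Cm n) (Cm n) u w) *
        Ring.inverse (dV (Cm n) c (u w))) = Ring.inverse (dV (Cm n) c (u w)) := by
      show dM (Cm n) (Cm n) u w * (Ring.inverse (dM (Cm n) (Cm n) u w) *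
        Ring.inverse (dV (Cm n) c (u w))) = _
      rw [← mul_assoc, h6, one_mul]
    rw [ContinuousLinearMap.comp_assoc, h7]
  unfold tT
  rw [h5, tq_comp_left]

end

end Vale.Agent.P281.H383.TD
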