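import Vale.Agent.P281.H383.TD.Ser
import Vale.Agent.P281.H713.TsumHol

/-!
# The `∂̄`-equation on a family of tori (block D1)
-/

open Set Filter Topology MeasureTheory Complex
open scoped ContDiff
open Vale.Agent.P281

set_option linter.unusedSectionVars false

namespace H383.TD

variable {n : ℕ} {E : Type*} [NormedAddCommGroup E] [NormedSpace ℂ E] [FiniteDimensional ℂ E]

/-- derivative along a complex vector -/
noncomputable def LD (v : Fin n → ℂ) (g : (Fin n → ℝ) → ℂ) (x : Fin n → ℝ) : ℂ :=
  ∑ m, v m * fderiv ℝ g x (Pi.single m 1)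

lemma ser_fderiv {T : Set E} (hT : IsOpen T) {c : (Fin n → ℤ) → E → ℂ} (h : Coef T c)
    {y : E} (hy : y ∈ T) (x : Fin n → ℝ) (v : E) (w : Fin n → ℝ) :
    fderiv ℝ (fun q : E × (Fin n → ℝ) => ser c q.1 q.2) (y, x) (v, w)
      = ser (dy v c) y x + ∑ m, (w m : ℂ) * ser (dx m c) y x := by
  obtain ⟨hs, hd⟩ := ser_hasFDerivAt hT h hy x
  rw [hd.fderiv]
  have h1 : (∑' k, tder c k (y, x)) (v, w) = ∑' k, tder c k (y, x) (v, w) :=
    (ContinuousLinearMap.apply ℝ ℂ ((v, w) : E × (Fin n → ℝ))).map_tsum hs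
  rw [h1]
  simp only [tder_apply]
  have hsy := (h.dy hT v).summ hy x
  have hsx := fun m => ((h.dx m).summ hy x).mul_left (w m : ℂ)
  rw [hsy.tsum_add (summable_sum fun m _ => hsx m)]
  congr 1
  rw [Summable.tsum_finsetSum fun m _ => hsx m]
  refine Finset.sum_congr rfl fun m _ => ?_
  rw [tsum_mul_left]
  rfl

/-- the series is smooth -/
lemma ser_contDiffOn {T : Set E} (hT : IsOpen T) (N : ℕ) :
    ∀ {c : (Fin n → ℤ) → E → ℂ}, Coef T c →
    ContDiffOn ℝ N (fun q : E × (Fin n → ℝ) => ser c q.1 q.2) (T ×ˢ univ) := by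
  have ho : IsOpen (T ×ˢ (univ : Set (Fin n → ℝ))) := hT.prod isOpen_univ
  have hdiff : ∀ {c : (Fin n → ℤ) → E → ℂ}, Coef T c →
      DifferentiableOn ℝ (fun q : E × (Fin n → ℝ) => ser c q.1 q.2) (T ×ˢ univ) := by
    intro c h q hq
    exact (ser_hasFDerivAt hT h hq.1 q.2).2.differentiableAt.differentiableWithinAt
  induction N with
  | zero =>
    intro c h
    exact contDiffOn_zero.2 (hdiff h).continuousOn
  | succ N ih =>
    intro c h
    have : ((N + 1 : ℕ) : WithTop ℕ∞) = (N : WithTop ℕ∞) + 1 := by norm_cast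
    rw [this, contDiffOn_succ_iff_fderiv_of_isOpen ho]
    refine ⟨hdiff h, fun h => absurd h (by simp), ?_⟩
    have : FiniteDimensional ℝ E := FiniteDimensional.complexToReal E
    let β := Module.finBasis ℝ E
    have hform : ∀ q ∈ T ×ˢ (univ : Set (Fin n → ℝ)),
        fderiv ℝ (fun q : E × (Fin n → ℝ) => ser c q.1 q.2) q
        = (∑ i, ser (dy (β i) c) q.1 q.2 • (Complex.ofRealCLM.comp
            ((LinearMap.toContinuousLinearMap (β.coord i)).comp
              (ContinuousLinearMap.fst ℝ E (Fin n → ℝ)))))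
          + ∑ m, ser (dx m c) q.1 q.2 • (Complex.ofRealCLM.comp
            ((ContinuousLinearMap.proj m).comp
              (ContinuousLinearMap.snd ℝ E (Fin n → ℝ)))) := by
      rintro ⟨y, x⟩ hq
      refine ContinuousLinearMap.ext fun p => ?_
      obtain ⟨v, w⟩ := p
      have hv : v = ∑ i, (β.coord i v) • β i := by
        simp
      have h1 : fderiv ℝ (fun q : E × (Fin n → ℝ) => ser c q.1 q.2) (y, x) (v, w)
          = ∑ i, ((β.coord i v : ℝ) : ℂ) * ser (dy (β i) c) y x
            + ∑ m, (w m : ℂ) * ser (dx m c) y x := by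
        have h2 : ((v, w) : E × (Fin n → ℝ)) = (v, 0) + (0, w) := by simp
        have h3 : ((v, 0) : E × (Fin n → ℝ))
            = ∑ i, (β.coord i v) • ((β i, 0) : E × (Fin n → ℝ)) := by
          have : ((v, 0) : E × (Fin n → ℝ)) = ContinuousLinearMap.inl ℝ E (Fin n → ℝ) v := rfl
          rw [this]
          conv_lhs => rw [hv]
          rw [map_sum]
          refine Finset.sum_congr rfl fun i _ => ?_
          rw [map_smul]; rfl
        rw [h2, map_add]
        congr 1
        · rw [h3, map_sum]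
          refine Finset.sum_congr rfl fun i _ => ?_
          rw [map_smul, ser_fderiv hT h hq.1]
          simp
        · rw [ser_fderiv hT h hq.1]
          have h4 : ser (dy (0 : E) c) y x = 0 := by
            simp [ser, H383.TD.dy]
          rw [h4, zero_add]
      rw [h1]
      simp only [add_apply, sum_apply, smul_apply,
        ContinuousLinearMap.comp_apply, ContinuousLinearMap.coe_fst', ContinuousLinearMap.coe_snd',
        LinearMap.coe_toContinuousLinearMap', Complex.ofRealCLM_apply,
        ContinuousLinearMap.proj_apply, smul_eq_mul]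
      congr 1
      · refine Finset.sum_congr rfl fun i _ => ?_
        ring
      · refine Finset.sum_congr rfl fun i _ => ?_
        ring
    refine ContDiffOn.congr ?_ hform
    refine ContDiffOn.add ?_ ?_
    · exact ContDiffOn.sum fun i _ => (ih (h.dy hT (β i))).smul contDiffOn_const
    · exact ContDiffOn.sum fun m _ => (ih (h.dx m)).smul contDiffOn_const

lemma ser_per (c : (Fin n → ℤ) → E → ℂ) (y : E) : Per (ser c y) := by
  intro x l
  unfold ser
  simp only [ek_per _ x l]

lemma ser_Sm {T : Set E} (hT : IsOpen T) {c : (Fin n → ℤ) → E → ℂ} (h : Coef T c) :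
    Sm T (ser c) := by
  refine ⟨fun y _ => ser_per c y, ?_⟩
  rw [contDiffOn_infty]
  exact fun N => ser_contDiffOn hT N h

lemma ser_hol {T : Set E} (hT : IsOpen T) {c : (Fin n → ℤ) → E → ℂ} (h : Coef T c)
    (x : Fin n → ℝ) : DifferentiableOn ℂ (fun y => ser c y x) T := by
  intro y hy
  obtain ⟨r, hr, hrT, C, hC0, hC, _⟩ := h.ball hT hy (n + 1)
  have h1 := H713.differentiableOn_tsum (f := fun k y => c k y * ek k x) (z₀ := y) (r := 2 * r)
    (by positivity) (fun k => ((h.hol k).mono hrT).mul_const _)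
    ((summable_zn n).mul_left C) (fun k z hz => by
      rw [norm_mul, ek_norm, mul_one]; exact hC z hz k)
  have h2 : y ∈ Metric.ball y (2 * r / 2) := Metric.mem_ball_self (by positivity)
  exact ((h1 y h2).differentiableAt (Metric.isOpen_ball.mem_nhds h2)).differentiableWithinAt

lemma fderiv_ser {T : Set E} (hT : IsOpen T) {c : (Fin n → ℤ) → E → ℂ} (h : Coef T c)
    {y : E} (hy : y ∈ T) (x : Fin n → ℝ) (m : Fin n) :
    fderiv ℝ (ser c y) x (Pi.single m 1) = ser (dx m c) y x := by
  rw [(ser_Sm hT h).fderiv_slice hT hy x]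
  rw [ContinuousLinearMap.comp_apply, ContinuousLinearMap.inr_apply, ser_fderiv hT h hy]
  have h4 : ser (dy (0 : E) c) y x = 0 := by
    simp [ser, H383.TD.dy]
  rw [h4, zero_add, Finset.sum_eq_single m]
  · simp
  · intro i _ hi
    simp [Pi.single_eq_of_ne hi]
  · intro hm; exact absurd (Finset.mem_univ m) hm

lemma LD_ser {T : Set E} (hT : IsOpen T) {c : (Fin n → ℤ) → E → ℂ} (h : Coef T c)
    {y : E} (hy : y ∈ T) (v : Fin n → ℂ) (x : Fin n → ℝ) :
    HasSum (fun k => (2 * Real.pi * I * ∑ m, v m * k m) * c k y * ek k x)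
      (LD v (ser c y) x) := by
  unfold LD
  simp only [fderiv_ser hT h hy]
  have h1 : ∀ m, HasSum (fun k => v m * (dx m c k y * ek k x)) (v m * ser (dx m c) y x) :=
    fun m => ((h.dx m).summ hy x).hasSum.mul_left (v m)
  have h2 := hasSum_sum (s := Finset.univ) fun m _ => h1 m
  refine h2.congr_fun fun k => ?_
  unfold H383.TD.dx
  rw [Finset.mul_sum, Finset.sum_mul, Finset.sum_mul]
  refine Finset.sum_congr rfl fun m _ => ?_
  ring

/-- Fourier coefficients of a holomorphic family are holomorphic -/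
lemma cf_hol {T : Set E} (hT : IsOpen T) {f : E → (Fin n → ℝ) → ℂ} (hf : Sm T f)
    (hh : ∀ x, DifferentiableOn ℂ (fun y => f y x) T) (k : Fin n → ℤ) :
    DifferentiableOn ℂ (fun y => cf k (f y)) T := by
  intro y0 hy0
  obtain ⟨C, hC0, hC⟩ := hf.locbd hT hy0
  obtain ⟨R, hR, hRs⟩ := Metric.mem_nhds_iff.1 (Filter.inter_mem hC (hT.mem_nhds hy0))
  have hr : 0 < R / 2 := by positivity
  have hbd : ∀ y ∈ Metric.ball y0 (R / 2), ∀ x, ‖fderiv ℂ (fun y => f y x) y‖ ≤ C / (R / 2) := by
    intro y hy x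
    have hsub : Metric.ball y (R / 2) ⊆ Metric.ball y0 R := by
      refine Metric.ball_subset_ball' ?_
      rw [Metric.mem_ball] at hy
      linarith
    refine MF.norm_fderiv_le_of_ball hr ((hh x).mono fun z hz => (hRs (hsub hz)).2) ?_
    intro z hz
    exact (hRs (hsub hz)).1 x
  have hsubT : Metric.ball y0 (R / 2) ⊆ T := fun z hz =>
    (hRs (Metric.ball_subset_ball (by linarith) hz)).2
  have ho : IsOpen (T ×ˢ (univ : Set (Fin n → ℝ))) := hT.prod isOpen_univ
  have hmeas : Continuous fun x => fderiv ℂ (fun y => f y x) y0 := by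
    rw [continuous_clm_apply]
    intro v
    have h1 : ∀ x, fderiv ℂ (fun y => f y x) y0 v
        = fderiv ℝ (fun q : E × (Fin n → ℝ) => f q.1 q.2) (y0, x) (v, 0) := by
      intro x
      have hd : DifferentiableAt ℝ (fun q : E × (Fin n → ℝ) => f q.1 q.2) (y0, x) :=
        (hf.smooth.differentiableOn (by simp)).differentiableAt (ho.mem_nhds ⟨hy0, mem_univ _⟩)
      have h2 : HasFDerivAt (fun y : E => ((y, x) : E × (Fin n → ℝ)))
          (ContinuousLinearMap.inl ℝ E (Fin n → ℝ)) y0 := hasFDerivAt_prodMk_left y0 x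
      have h3 := hd.hasFDerivAt.comp y0 h2
      have h4 : HasFDerivAt (fun y => f y x) ((fderiv ℂ (fun y => f y x) y0).restrictScalars ℝ) y0 :=
        (((hh x).differentiableAt (hT.mem_nhds hy0)).hasFDerivAt).restrictScalars ℝ
      have h5 := h4.unique h3
      have h6 := congrArg (fun L : E →L[ℝ] ℂ => L v) h5
      simpa using h6
    simp only [h1]
    have h2 : ContinuousOn (fderiv ℝ (fun q : E × (Fin n → ℝ) => f q.1 q.2)) (T ×ˢ univ) :=
      hf.smooth.continuousOn_fderiv_of_isOpen ho (by simp)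
    have h3 : ContinuousOn (fun x : Fin n → ℝ =>
        fderiv ℝ (fun q : E × (Fin n → ℝ) => f q.1 q.2) (y0, x)) univ :=
      h2.comp (by fun_prop) (fun x _ => ⟨hy0, mem_univ _⟩)
    exact (continuousOn_univ.1 h3).clm_apply continuous_const
  refine (DifferentiableAt.differentiableWithinAt ?_)
  unfold cf
  refine (hasFDerivAt_integral_of_dominated_of_fderiv_le
    (μ := volume.restrict (box (0 : Fin n → ℝ))) (x₀ := y0) (s := Metric.ball y0 (R / 2))
    (F := fun y x => ek (-k) x * f y x)
    (F' := fun y x => ek (-k) x • fderiv ℂ (fun y => f y x) y)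
    (bound := fun _ => C / (R / 2)) (Metric.ball_mem_nhds y0 hr) ?_ ?_ ?_ ?_ ?_
      ?_).differentiableAt
  · filter_upwards [hT.mem_nhds hy0] with y hy
    exact ((ek_cont _).mul (hf.slice hy).continuous).aestronglyMeasurable
  · exact cf_int (hf.slice hy0).continuous 0 (-k)
  · exact ((ek_cont _).smul hmeas).aestronglyMeasurable
  · refine Eventually.of_forall fun x y hy => ?_
    rw [norm_smul, ek_norm, one_mul]
    exact hbd y hy x
  · exact integrable_const _
  · refine Eventually.of_forall fun x y hy => ?_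
    exact (((hh x).differentiableAt (hT.mem_nhds (hsubT hy))).hasFDerivAt).const_mul _

/-- Fourier coefficient of `L_v f` -/
lemma cf_LD {f : (Fin n → ℝ) → ℂ} (hf : Per f) (hc : ContDiff ℝ 1 f) (k : Fin n → ℤ)
    (v : Fin n → ℂ) :
    cf k (LD v f) = 2 * Real.pi * I * (∑ m, v m * k m) * cf k f := by
  have h1 : cf k (LD v f) = ∑ m, v m * cf k (fun x => fderiv ℝ f x (Pi.single m 1)) := by
    unfold cf LD
    simp only [Finset.mul_sum]
    rw [integral_finsetSum]
    · refine Finset.sum_congr rfl fun m _ => ?_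
      rw [← integral_const_mul]
      refine integral_congr_ae (Eventually.of_forall fun x => ?_)
      show _ = _
      ring
    · intro m _
      have hfd : Continuous (fun x => v m * fderiv ℝ f x (Pi.single m 1)) :=
        continuous_const.mul ((hc.continuous_fderiv (by norm_num)).clm_apply continuous_const)
      exact cf_int hfd 0 (-k)
  rw [h1]
  simp only [cf_pd hf hc]
  rw [Finset.mul_sum, Finset.sum_mul]
  refine Finset.sum_congr rfl fun m _ => ?_
  ring

variable {J : Type*} [Finite J]

open Classical in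
/-- the coefficients of the solution -/
noncomputable def solc (a : J → E → Fin n → ℂ) (b : J → E → (Fin n → ℝ) → ℂ) :
    (Fin n → ℤ) → E → ℂ := fun k y =>
  if h : ∃ j, k ≠ 0 ∧ ∑ m, a j y m * k m ≠ 0 then
    cf k (b h.choose y) / (2 * Real.pi * I * ∑ m, a h.choose y m * k m) else 0

lemma two_pi_I_ne : (2 * Real.pi * I : ℂ) ≠ 0 := by
  have := Real.pi_ne_zero
  simp [Complex.I_ne_zero, this]

/-- **Block D1.** The `∂̄`-equation on a family of tori: `L_j g = b_j - mean`. -/
theorem D1 {T : Set E} (hT : IsOpen T) (a : J → E → Fin n → ℂ)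
    (ha : ∀ j m, DifferentiableOn ℂ (fun y => a j y m) T)
    (hell : ∀ y0 ∈ T, ∃ c : ℝ, 0 < c ∧ ∀ᶠ y in 𝓝 y0, ∀ k : Fin n → ℤ, k ≠ 0 →
      ∃ j, c * ‖k‖ ≤ ‖∑ m, a j y m * k m‖)
    (b : J → E → (Fin n → ℝ) → ℂ) (hb : ∀ j, Sm T (b j))
    (hh : ∀ j x, DifferentiableOn ℂ (fun y => b j y x) T)
    (hcomp : ∀ i j, ∀ y ∈ T, ∀ x, LD (a i y) (b j y) x = LD (a j y) (b i y) x) :
    ∃ g : E → (Fin n → ℝ) → ℂ, Sm T g ∧ (∀ x, DifferentiableOn ℂ (fun y => g y x) T) ∧
      (∀ j, ∀ y ∈ T, ∀ x, LD (a j y) (g y) x = b j y x - cf 0 (b j y)) := by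
  classical
  -- compatibility of the coefficients
  have hc : ∀ i j, ∀ y ∈ T, ∀ k, (∑ m, a i y m * k m) * cf k (b j y)
      = (∑ m, a j y m * k m) * cf k (b i y) := by
    intro i j y hy k
    have h1 := cf_LD ((hb j).per y hy) (((hb j).slice hy).of_le (by simp)) k (a i y)
    have h2 := cf_LD ((hb i).per y hy) (((hb i).slice hy).of_le (by simp)) k (a j y)
    have h3 : LD (a i y) (b j y) = LD (a j y) (b i y) := funext (hcomp i j y hy)
    rw [h3, h2] at h1
    have h4 : (2 * Real.pi * I : ℂ) * ((∑ m, a j y m * k m) * cf k (b i y)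
        - (∑ m, a i y m * k m) * cf k (b j y)) = 0 := by
      linear_combination h1
    have h5 := (mul_eq_zero.1 h4).resolve_left two_pi_I_ne
    linear_combination -h5
  set c := solc a b with hcdef
  -- the defining property
  have hmul : ∀ k ≠ 0, ∀ y ∈ T, ∀ j, (2 * Real.pi * I * ∑ m, a j y m * k m) * c k y
      = cf k (b j y) := by
    intro k hk y hy j
    have hex : ∃ j, k ≠ 0 ∧ ∑ m, a j y m * k m ≠ 0 := by
      obtain ⟨cc, hcc, hev⟩ := hell y hy
      obtain ⟨j, hj⟩ := hev.self_of_nhds k hk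
      refine ⟨j, hk, fun h0 => ?_⟩
      rw [h0, norm_zero] at hj
      have := norm_one_le hk
      nlinarith
    have h1 : c k y = cf k (b hex.choose y) / (2 * Real.pi * I * ∑ m, a hex.choose y m * k m) := by
      rw [hcdef]; unfold solc; rw [dif_pos hex]
    have h2 := hex.choose_spec.2
    have h3 := hc hex.choose j y hy k
    rw [h1]
    have := two_pi_I_ne
    field_simp
    linear_combination -h3
  have hform : ∀ k ≠ 0, ∀ y ∈ T, ∀ j, ∑ m, a j y m * k m ≠ 0 →
      c k y = cf k (b j y) / (2 * Real.pi * I * ∑ m, a j y m * k m) := by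
    intro k hk y hy j hj
    rw [eq_div_iff (mul_ne_zero two_pi_I_ne hj), mul_comm]
    exact hmul k hk y hy j
  have hc0 : ∀ y, c 0 y = 0 := by
    intro y
    rw [hcdef]; unfold solc
    rw [dif_neg]
    rintro ⟨j, h, _⟩
    exact h rfl
  have hsumd : ∀ j (k : Fin n → ℤ), DifferentiableOn ℂ (fun y => ∑ m, a j y m * (k m : ℂ)) T := by
    intro j k
    exact DifferentiableOn.fun_sum fun m _ => (ha j m).mul_const _
  have hC : Coef T c := by
    constructor
    · intro k
      by_cases hk : k = 0
      · subst hk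
        have : c 0 = fun _ => 0 := funext hc0
        rw [this]
        exact differentiableOn_const _
      · intro y0 hy0
        obtain ⟨cc, hcc, hev⟩ := hell y0 hy0
        obtain ⟨j, hj⟩ := hev.self_of_nhds k hk
        have hne : ∑ m, a j y0 m * (k m : ℂ) ≠ 0 := by
          intro h0
          rw [h0, norm_zero] at hj
          have := norm_one_le hk
          nlinarith
        have hcont : ContinuousAt (fun y => ∑ m, a j y m * (k m : ℂ)) y0 :=
          ((hsumd j k).differentiableAt (hT.mem_nhds hy0)).continuousAt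
        have hev2 : ∀ᶠ y in 𝓝 y0, ∑ m, a j y m * (k m : ℂ) ≠ 0 :=
          hcont.eventually_ne hne
        have h1 : DifferentiableAt ℂ (fun y => cf k (b j y) /
            (2 * Real.pi * I * ∑ m, a j y m * (k m : ℂ))) y0 := by
          have e1 : DifferentiableAt ℂ (fun y => cf k (b j y)) y0 :=
            (cf_hol hT (hb j) (hh j) k).differentiableAt (hT.mem_nhds hy0)
          have e2 : DifferentiableAt ℂ (fun y => 2 * Real.pi * I * ∑ m, a j y m * (k m : ℂ)) y0 :=
            ((hsumd j k).differentiableAt (hT.mem_nhds hy0)).const_mul _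
          simp only [div_eq_mul_inv]
          exact e1.mul (e2.inv (mul_ne_zero two_pi_I_ne hne))
        refine (h1.congr_of_eventuallyEq ?_).differentiableWithinAt
        filter_upwards [hev2, hT.mem_nhds hy0] with y hy1 hy2
        exact hform k hk y hy2 j hy1
    · intro y0 hy0 N
      obtain ⟨cc, hcc, hev⟩ := hell y0 hy0
      choose C hC0 hC using fun j => (hb j).decay hT hy0 N
      have : Fintype J := Fintype.ofFinite J
      have hS : 0 ≤ ∑ j, C j := Finset.sum_nonneg fun i _ => hC0 i
      refine ⟨(∑ j, C j) / cc, by positivity, ?_⟩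
      filter_upwards [hev, eventually_all.mpr hC, hT.mem_nhds hy0] with y hy1 hy2 hyT k
      by_cases hk : k = 0
      · subst hk
        rw [hc0, norm_zero]
        positivity
      · obtain ⟨j, hj⟩ := hy1 k hk
        have h1 := norm_one_le hk
        have hne : ∑ m, a j y m * (k m : ℂ) ≠ 0 := by
          intro h0
          rw [h0, norm_zero] at hj
          nlinarith
        rw [hform k hk y hyT j hne, norm_div]
        have h2 : cc ≤ ‖(2 * Real.pi * I * ∑ m, a j y m * (k m : ℂ) : ℂ)‖ := by
          rw [norm_mul, norm_mul, norm_mul, Complex.norm_I, mul_one, Complex.norm_real,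
            Real.norm_of_nonneg Real.pi_pos.le]
          have h4 : ‖(2 : ℂ)‖ = 2 := by simp
          rw [h4]
          have h5 : cc ≤ ‖∑ m, a j y m * (k m : ℂ)‖ := by nlinarith
          nlinarith [Real.pi_gt_three]
        have h3 : ‖cf k (b j y)‖ ≤ (∑ j, C j) * (1 + ‖k‖ ^ N)⁻¹ := by
          refine (hy2 j k).trans ?_
          gcongr
          exact Finset.single_le_sum (f := C) (fun i _ => hC0 i) (Finset.mem_univ j)
        calc ‖cf k (b j y)‖ / ‖(2 * Real.pi * I * ∑ m, a j y m * (k m : ℂ) : ℂ)‖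
            ≤ ((∑ j, C j) * (1 + ‖k‖ ^ N)⁻¹) / cc := by
              exact div_le_div₀ (by positivity) h3 hcc h2
          _ = _ := by ring
  refine ⟨ser c, ser_Sm hT hC, ser_hol hT hC, fun j y hy x => ?_⟩
  -- the equation
  have h1 := LD_ser hT hC hy (a j y) x
  have hsum : Summable fun k => cf k (b j y) := by
    obtain ⟨C, hC0, hC⟩ := (hb j).decay hT hy (n + 1)
    exact Summable.of_norm_bounded ((summable_zn n).mul_left C) hC.self_of_nhds
  have h2 := inversion ((hb j).per y hy) ((hb j).slice hy).continuous hsum x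
  have h3 : HasSum (fun k : Fin n → ℤ => if k = 0 then cf 0 (b j y) else 0) (cf 0 (b j y)) :=
    hasSum_ite_eq 0 (cf 0 (b j y))
  have h4 := h2.sub h3
  refine h1.unique (h4.congr_fun fun k => ?_)
  by_cases hk : k = 0
  · subst hk
    rw [hc0, if_pos rfl, ek_zero_left]
    ring
  · rw [if_neg hk, sub_zero, hmul k hk y hy j]

end H383.TD
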