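import Vale.Agent.P281.H383.TD.Met

/-!
# P281, T-Delta, block D2b: the theta datum of a periodic divisor
-/

open Set Filter Topology Complex Metric
open scoped ContDiff
open Vale.Agent.P281 Vale.Agent.P281.H125.D

set_option linter.unusedSectionVars false

namespace H383.TD

variable {n : ℕ} {V : Type*} [NormedAddCommGroup V] [NormedSpace ℂ V]

/-- translation of directional derivatives -/
lemma dv_trans {B : Type*} [NormedAddCommGroup B] [NormedSpace ℝ B] (F : V → B) (γ v z : V) :
    dv v (fun w => F (w - γ)) z = dv v F (z - γ) := by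
  unfold dv
  have h := fderiv_comp_add_right (𝕜 := ℝ) (f := F) (x := z) (-γ)
  simp only [← sub_eq_add_neg] at h
  rw [h]

lemma mm_trans (F : V → ℝ) (γ v w z : V) :
    mm v w (fun w => F (w - γ)) z = mm v w F (z - γ) := by
  unfold mm
  have h : ∀ w : V, dv w (fun w => F (w - γ)) = fun z => dv w F (z - γ) := fun w =>
    funext fun z => dv_trans F γ w z
  rw [h w, h (I • w), dv_trans, dv_trans]

lemma SmAt.trans {B : Type*} [NormedAddCommGroup B] [NormedSpace ℝ B] {F : V → B} {z γ : V}
    (h : SmAt F (z - γ)) : SmAt (fun w => F (w - γ)) z := by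
  have h1 : ContinuousAt (fun w : V => w - γ) z := by fun_prop
  filter_upwards [h1.eventually h] with w hw
  exact hw.comp w (contDiffAt_id.sub contDiffAt_const)

variable {e : (Fin n → ℝ) ≃L[ℝ] V} {Z : Set V} {Le : V → (V → ℂ) → Prop} {L : V → ℝ}

lemma Val.trans (hD : DivOne e Z Le) (hL : ∀ z (k : Fin n → ℤ), L (z + e (zr k)) = L z) {z : V}
    {h : V → ℂ} {ϕ : V → ℝ} (hv : Val L Z Le z h ϕ) (k : Fin n → ℤ)
    (hZ : ∀ w, (w - e (zr k)) ∈ Z → w ∈ Z) :
    Val L Z Le (z + e (zr k)) (fun w => h (w - e (zr k))) (fun w => ϕ (w - e (zr k))) := by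
  refine ⟨hD.per _ _ hv.1 k, ?_, ?_⟩
  · refine SmAt.trans ?_
    rw [add_sub_cancel_right]
    exact hv.2.1
  · have h1 : ContinuousAt (fun w : V => w - e (zr k)) (z + e (zr k)) := by fun_prop
    have h2 := hv.2.2
    have h3 : Tendsto (fun w : V => w - e (zr k)) (𝓝 (z + e (zr k))) (𝓝 z) := by
      have := h1.tendsto
      rwa [add_sub_cancel_right] at this
    filter_upwards [h3.eventually h2] with w hw hwZ
    have h4 : w - e (zr k) ∉ Z := fun h => hwZ (hZ w h)
    have h5 := hw h4
    have h6 := hL (w - e (zr k)) k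
    rw [sub_add_cancel] at h6
    rw [h6, h5]

/-- the support is periodic -/
lemma DivOne.Zper (hD : DivOne e Z Le) {z : V} (k : Fin n → ℤ) :
    z ∈ Z → z + e (zr k) ∈ Z := by
  intro hz
  obtain ⟨h, hh⟩ := hD.ex z
  have h1 := (hD.zero _ _ hh).self_of_nhds
  have h2 := (hD.zero _ _ (hD.per _ _ hh k)).self_of_nhds
  simp only [add_sub_cancel_right] at h2
  exact h2.1 (h1.2 hz)

lemma DivOne.Zper' (hD : DivOne e Z Le) {z : V} (k : Fin n → ℤ) :
    z - e (zr k) ∈ Z → z ∈ Z := by
  intro hz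
  have := hD.Zper k hz
  rwa [sub_add_cancel] at this

/-- **The metric with constant curvature.** -/
theorem levi_const [FiniteDimensional ℂ V] (hD : DivOne e Z Le) :
    ∃ (L : V → ℝ) (E : V →L[ℝ] V →L[ℝ] ℝ), (∀ z (k : Fin n → ℤ), L (z + e (zr k)) = L z) ∧
      (∀ v, E v v = 0) ∧ (∀ v w, E (I • v) (I • w) = E v w) ∧
      ∀ z h, Le z h → ∃ ψ, Val L Z Le z h ψ ∧ ∀ᶠ w in 𝓝 z, ∀ a b,
        mm a b (fun z => ψ z + E (I • z) z) w = 0 := by
  classical
  have : CompleteSpace V := FiniteDimensional.complete ℂ V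
  obtain ⟨L, hLp, hL⟩ := exists_metric hD
  choose hz hzLe using hD.ex
  choose ϕz hϕz using fun z => hL z (hz z) (hzLe z)
  set mf : V → V → V → ℝ := fun v w z => mm v w (ϕz z) z with hmf
  have hev : ∀ z h ϕ, Val L Z Le z h ϕ → ∀ v w, mf v w =ᶠ[𝓝 z] mm v w ϕ := by
    intro z h ϕ hv v w
    filter_upwards [hv.ev hD] with z' hz'
    exact (hϕz z').mm_eq hD hz' v w
  have hsm : ∀ v w z, SmAt (mf v w) z := by
    intro v w z
    exact ((hϕz z).2.1.mm v w).congr (hev z _ _ (hϕz z) v w)
  have hcd : ∀ v w, ContDiff ℝ ∞ (mf v w) := fun v w =>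
    contDiff_iff_contDiffAt.2 fun z => (hsm v w z).cd
  have hper : ∀ v w, PerV e (mf v w) := by
    intro v w z k
    have h1 := (hϕz z).trans hD hLp k (fun w => hD.Zper' k)
    have h2 := (hev _ _ _ h1 v w).self_of_nhds
    have h3 : mm v w (fun w => ϕz z (w - e (zr k))) (z + e (zr k)) = mm v w (ϕz z) z := by
      rw [mm_trans, add_sub_cancel_right]
    exact h2.trans h3
  -- the Poisson equation
  set ρ : V → ℝ := fun z => ∑ j : Fin n, mf (e (Pi.single j 1)) (e (Pi.single j 1)) z with hρ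
  have hρcd : ContDiff ℝ ∞ ρ := ContDiff.sum fun j _ => hcd _ _
  have hρper : PerV e ρ := fun z k => Finset.sum_congr rfl fun j _ => hper _ _ z k
  obtain ⟨U, κ, hU, hUper, hUL⟩ := poissonV hρcd hρper
  -- the constants
  have hlap : ∀ v w z, Lap e (fun z => mf v w z - mm v w U z) z = 0 := by
    intro v w z
    have hv := (hϕz z).2.1
    have hUs : SmAt U z := SmAt.of_contDiff hU z
    have h1 : ∀ j : Fin n, mm (e (Pi.single j 1)) (e (Pi.single j 1))
        (fun z => mf v w z - mm v w U z) z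
        = mm v w (mf (e (Pi.single j 1)) (e (Pi.single j 1))) z
          - mm v w (mm (e (Pi.single j 1)) (e (Pi.single j 1)) U) z := by
      intro j
      rw [mm_sub (hsm v w z) (hUs.mm v w), mm_mm hUs,
        (mm_congr (hev z _ _ (hϕz z) v w) _ _).self_of_nhds, mm_mm hv,
        (mm_congr (hev z _ _ (hϕz z) _ _) v w).self_of_nhds]
    unfold Lap
    rw [Finset.sum_congr rfl fun j _ => h1 j, Finset.sum_sub_distrib]
    have hsumf : ∀ (F : Fin n → V → ℝ), (∀ j, SmAt (F j) z) →
        mm v w (fun z => ∑ j, F j z) z = ∑ j, mm v w (F j) z := by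
      intro F hF
      have key : ∀ w : V, dv w (fun z => ∑ j, F j z) =ᶠ[𝓝 z] fun z => ∑ j, dv w (F j) z := by
        intro w
        filter_upwards [eventually_all.2 fun j => (hF j).ev] with z' h1
        exact dv_sum (fun i _ => (h1 i).da) w
      have key2 : ∀ v w : V, dv v (dv w (fun z => ∑ j, F j z)) z = ∑ j, dv v (dv w (F j)) z := by
        intro v w
        rw [(dv_congr (key w) v).self_of_nhds]
        exact dv_sum (fun i _ => ((hF i).dv w).da) v
      unfold mm
      rw [key2, key2, ← Finset.sum_add_distrib]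
    rw [← hsumf _ fun j => hsm _ _ z, ← hsumf _ fun j => hUs.mm _ _]
    have h2 : (fun z => ∑ j : Fin n, mm (e (Pi.single j 1)) (e (Pi.single j 1)) U z)
        = fun z => ρ z - κ := funext hUL
    rw [h2, mm_sub (SmAt.of_contDiff hρcd z) (SmAt.of_contDiff contDiff_const z)]
    have h3 : mm v w (fun _ : V => κ) z = 0 := by
      unfold mm
      simp only [dv_const]
      simp
    rw [h3]
    simp [hρ]
  have hconst : ∀ v w z, mf v w z - mm v w U z = mf v w 0 - mm v w U 0 := by
    intro v w z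
    have hUm : ContDiff ℝ ∞ (mm v w U) :=
      contDiff_iff_contDiffAt.2 fun z => ((SmAt.of_contDiff hU z).mm v w).cd
    have hUp : PerV e (mm v w U) := by
      intro z k
      have h1 : U = fun w => U (w - e (zr k)) := by
        funext w
        have := hUper (w - e (zr k)) k
        have h2 : w - e (zr k) + e (zv k) = w := sub_add_cancel w _
        rw [h2] at this
        exact this
      have h2 : mm v w U (z + e (zv k)) = mm v w (fun w => U (w - e (zr k))) (z + e (zr k)) := by
        rw [← h1]; rfl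
      rw [h2, mm_trans, add_sub_cancel_right]
    refine liou (e := e) ((hcd v w).sub hUm) ?_ (κ := 0) (hlap v w) z 0
    intro z k
    simp only [hper v w z k, hUp z k]
  -- the form
  have hFs : SmAt (fun z => ϕz 0 z - U z) 0 := (hϕz 0).2.1.sub (SmAt.of_contDiff hU 0)
  set B : V →L[ℝ] V →L[ℝ] ℝ := fderiv ℝ (fderiv ℝ (fun z => ϕz 0 z - U z)) 0 with hB
  have hBs : ∀ v w, B v w = B w v := by
    intro v w
    rw [hB, ← dv_dv hFs, ← dv_dv hFs]
    exact dv_comm hFs v w
  have hc : ∀ v w, mf v w 0 - mm v w U 0 = B v w + B (I • v) (I • w) := by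
    intro v w
    have h1 : mf v w 0 = mm v w (ϕz 0) 0 := rfl
    rw [h1, ← mm_sub (hϕz 0).2.1 (SmAt.of_contDiff hU 0)]
    unfold mm
    rw [dv_dv hFs, dv_dv hFs]
  let Jr : V →L[ℝ] V := (ContinuousLinearMap.restrictScalars ℝ (I • ContinuousLinearMap.id ℂ V))
  have hJr : ∀ v, Jr v = I • v := fun v => rfl
  let E : V →L[ℝ] V →L[ℝ] ℝ := (1 / 4 : ℝ) • (B.comp Jr - (B.flip.comp Jr).flip)
  have hE : ∀ v w, E v w = (1 / 4) * (B (I • v) w - B v (I • w)) := by
    intro v w
    rfl
  have hII : ∀ v : V, I • I • v = -v := by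
    intro v
    rw [smul_smul, I_mul_I, neg_one_smul]
  have hEinv : ∀ v w, E (I • v) (I • w) = E v w := by
    intro v w
    rw [hE, hE, hII, hII, map_neg, map_neg, neg_apply]
    ring
  refine ⟨fun z => L z - U z, E, fun z k => ?_, fun v => ?_, hEinv, fun z h hh => ?_⟩
  · have h1 := hUper z k
    have h2 : U (z + e (zr k)) = U z := h1
    simp only [hLp z k, h2]
  · rw [hE, hBs v (I • v)]
    ring
  · obtain ⟨ϕ, hϕ⟩ := hL z h hh
    have hUs : ∀ z, SmAt U z := fun z => SmAt.of_contDiff hU z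
    refine ⟨fun z => ϕ z - U z, ⟨hh, hϕ.2.1.sub (hUs z), ?_⟩, ?_⟩
    · filter_upwards [hϕ.2.2] with w hw hwZ
      rw [hw hwZ]
      ring
    · filter_upwards [hϕ.ev hD] with w hw a b
      -- the quadratic form
      have hQ1 : ∀ v : V, dv v (fun z => E (I • z) z) = fun z => E (I • v) z + E (I • z) v := by
        intro v
        funext z
        have h1 : HasFDerivAt (fun z : V => E (I • z)) (E.comp Jr) z := (E.comp Jr).hasFDerivAt
        have h2 := h1.clm_apply (hasFDerivAt_id z)
        have h3 : HasFDerivAt (fun z => E (I • z) z) _ z := h2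
        unfold dv
        rw [h3.fderiv]
        simp only [add_apply, ContinuousLinearMap.comp_apply, ContinuousLinearMap.flip_apply, hJr]
        rw [add_comm]
        rfl
      have hQ2 : ∀ a b : V, ∀ z, dv a (dv b (fun z => E (I • z) z)) z
          = E (I • b) a + E (I • a) b := by
        intro a b z
        rw [hQ1 b]
        have h1 : HasFDerivAt (fun z : V => E (I • z)) (E.comp Jr) z := (E.comp Jr).hasFDerivAt
        have h2 : HasFDerivAt (fun z : V => E (I • b) z + E (I • z) b)
            (E (I • b) + (ContinuousLinearMap.apply ℝ ℝ b).comp (E.comp Jr)) z :=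
          (E (I • b)).hasFDerivAt.add
            (((ContinuousLinearMap.apply ℝ ℝ b).comp (E.comp Jr)).hasFDerivAt)
        unfold dv
        rw [h2.fderiv]
        rfl
      have hQs : SmAt (fun z => E (I • z) z) w := by
        refine SmAt.of_contDiff ?_ w
        have h1 : ContDiff ℝ ∞ (fun z : V => (E.comp Jr) z) := (E.comp Jr).contDiff
        exact h1.clm_apply contDiff_id
      have hmmQ : mm a b (fun z => E (I • z) z) w = -(B a b + B (I • a) (I • b)) := by
        unfold mm
        rw [hQ2, hQ2, hII, hII, hE, hE, hE, hE, hII, hII]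
        simp only [smul_neg, map_neg, neg_apply]
        rw [hBs b a, hBs (I • b) (I • a)]
        ring
      rw [mm_add (hw.2.1.sub (hUs w)) hQs, mm_sub hw.2.1 (hUs w), hmmQ, ← hc a b, ← hconst a b w]
      have h5 : mf a b w = mm a b ϕ w := (hϕz w).mm_eq hD hw a b
      rw [h5]
      ring

/-- **Block D2b**: the theta datum of a periodic divisor (one fibre). -/
theorem D2b [FiniteDimensional ℂ V] (hD : DivOne e Z Le) :
    ∃ (E : V →L[ℝ] V →L[ℝ] ℝ) (lam : V → ℝ),
      (∀ v, E v v = 0) ∧ (∀ v w, E (I • v) (I • w) = E v w) ∧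
      Continuous lam ∧ (∀ z, 0 ≤ lam z) ∧ (∀ z (k : Fin n → ℤ), lam (z + e (zr k)) = lam z) ∧
      (∀ z, lam z = 0 ↔ z ∈ Z) ∧
      ∀ z h, Le z h → ∃ s : V → ℂ, AnalyticAt ℂ s z ∧ ∀ᶠ w in 𝓝 z,
        lam w = ‖Complex.exp (s w) * h w‖ ^ 2 * Real.exp (-(E (I • w) w)) := by
  classical
  obtain ⟨L, E, hLp, hE0, hEI, hloc⟩ := levi_const hD
  set lam : V → ℝ := fun z => if z ∈ Z then 0 else Real.exp (L z) with hlam
  have hkey : ∀ z h, Le z h → ∃ s : V → ℂ, AnalyticAt ℂ s z ∧ ∀ᶠ w in 𝓝 z,
        lam w = ‖Complex.exp (s w) * h w‖ ^ 2 * Real.exp (-(E (I • w) w)) := by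
    intro z h hh
    obtain ⟨ψ, hψ, hmm⟩ := hloc z h hh
    have hQs : SmAt (fun z => E (I • z) z) z := by
      refine SmAt.of_contDiff ?_ z
      let Jr : V →L[ℝ] V := (ContinuousLinearMap.restrictScalars ℝ (I • ContinuousLinearMap.id ℂ V))
      have h1 : ContDiff ℝ ∞ (fun z : V => (E.comp Jr) z) := (E.comp Jr).contDiff
      exact h1.clm_apply contDiff_id
    have hG : SmAt (fun z => ψ z + E (I • z) z) z := hψ.2.1.add hQs
    obtain ⟨s, hs, hsG⟩ := pluriharmonic (G := fun z => ψ z + E (I • z) z) (z₀ := z)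
      (hG.cd.of_le (by norm_cast)) (by
        filter_upwards [hmm, hG.ev] with w h1 h2 v v'
        have h3 := h1 v v'
        unfold mm at h3
        rwa [dv_dv h2, dv_dv h2] at h3)
    refine ⟨s, hs, ?_⟩
    filter_upwards [hsG, hψ.2.2, hD.zero _ _ hh] with w h1 h2 h3
    by_cases hw : w ∈ Z
    · have h4 : h w = 0 := h3.2 hw
      simp only [hlam, if_pos hw, h4, mul_zero, norm_zero]
      ring
    · have h4 : h w ≠ 0 := fun h0 => hw (h3.1 h0)
      simp only [hlam, if_neg hw]
      rw [h2 hw, Real.exp_add, Real.exp_log (by positivity), norm_mul, Complex.norm_exp, mul_pow]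
      have h5 : ψ w = 2 * (s w).re - E (I • w) w := by linarith
      rw [h5, Real.exp_sub, Real.exp_neg, two_mul, Real.exp_add]
      field_simp
  refine ⟨E, lam, hE0, hEI, ?_, ?_, ?_, ?_, hkey⟩
  · rw [continuous_iff_continuousAt]
    intro z
    obtain ⟨h, hh⟩ := hD.ex z
    obtain ⟨s, hs, hsl⟩ := hkey z h hh
    have h1 : ContinuousAt (fun w => ‖Complex.exp (s w) * h w‖ ^ 2 *
        Real.exp (-(E (I • w) w))) z := by
      have h2 := (hs.cexp.mul (hD.an _ _ hh)).continuousAt.norm.pow 2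
      have h3 : Continuous (fun w : V => Real.exp (-(E (I • w) w))) := by fun_prop
      exact h2.mul h3.continuousAt
    exact h1.congr (hsl.mono fun w hw => hw.symm)
  · intro z
    simp only [hlam]
    split_ifs
    · exact le_rfl
    · exact (Real.exp_pos _).le
  · intro z k
    have h1 : (z + e (zr k) ∈ Z) ↔ z ∈ Z := by
      refine ⟨fun h => ?_, hD.Zper k⟩
      have := hD.Zper (-k) h
      rwa [zr_neg, map_neg, add_neg_cancel_right] at this
    simp only [hlam, h1, hLp z k]
  · intro z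
    simp only [hlam]
    split_ifs with h
    · simp [h]
    · simp [h, (Real.exp_pos (L z)).ne']

end H383.TD
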