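import Vale.Agent.P281.MF.Hol

/-!
# Pluriharmonic functions are locally real parts of holomorphic functions
-/

open Set Filter Topology Complex Metric
open scoped ContDiff
open Vale.Agent.P281

set_option linter.unusedSectionVars false

namespace H383.TD

variable {V : Type*} [NormedAddCommGroup V] [NormedSpace ℂ V] [FiniteDimensional ℂ V]

/-- the complex linear form `A v - i A (i v)` -/
noncomputable def cl (A : V →L[ℝ] ℝ) : V →L[ℂ] ℂ :=
  { toFun := fun v => (A v : ℂ) - I * (A (I • v) : ℂ)
    map_add' := fun v w => by simp only [smul_add, map_add]; push_cast; ring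
    map_smul' := fun c v => by
      have h : ∀ (c : ℂ) (v : V), A (c • v) = c.re * A v + c.im * A (I • v) := by
        intro c v
        have h1 : c • v = (c.re : ℝ) • v + (c.im : ℝ) • (I • v) := by
          rw [← Complex.coe_smul c.re, ← Complex.coe_smul c.im, smul_smul, ← add_smul]
          congr 1
          exact (Complex.re_add_im c).symm
        rw [h1, map_add, map_smul, map_smul, smul_eq_mul, smul_eq_mul]
      have h2 : A (I • c • v) = c.re * A (I • v) - c.im * A v := by
        rw [smul_smul, h (I * c) v]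
        simp
        ring
      rw [h2, h c v]
      simp only [RingHom.id_apply, smul_eq_mul]
      push_cast
      apply Complex.ext <;> simp <;> ring
    cont := by
      have h1 : Continuous fun v : V => A (I • v) := A.continuous.comp (continuous_const_smul I)
      exact (Complex.continuous_ofReal.comp A.continuous).sub
        (continuous_const.mul (Complex.continuous_ofReal.comp h1)) }

@[simp] lemma cl_apply (A : V →L[ℝ] ℝ) (v : V) : cl A v = (A v : ℂ) - I * (A (I • v) : ℂ) := rfl

lemma cl_re (A : V →L[ℝ] ℝ) (v : V) : (cl A v).re = A v := by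
  simp

/-- `cl` as a real linear map -/
noncomputable def clL : (V →L[ℝ] ℝ) →L[ℝ] (V →L[ℂ] ℂ) :=
  LinearMap.mkContinuous
    { toFun := cl
      map_add' := fun A B => by
        ext v
        simp only [cl_apply, add_apply]
        push_cast; ring
      map_smul' := fun c A => by
        ext v
        simp only [cl_apply, smul_apply, smul_eq_mul, RingHom.id_apply, Complex.real_smul]
        push_cast; ring } 2 (by
      intro A
      refine ContinuousLinearMap.opNorm_le_bound _ (by positivity) fun v => ?_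
      show ‖cl A v‖ ≤ _
      rw [cl_apply]
      calc ‖(A v : ℂ) - I * (A (I • v) : ℂ)‖ ≤ ‖(A v : ℂ)‖ + ‖I * (A (I • v) : ℂ)‖ :=
            norm_sub_le _ _
        _ ≤ ‖A‖ * ‖v‖ + ‖A‖ * ‖v‖ := by
            refine add_le_add ?_ ?_
            · rw [Complex.norm_real]; exact A.le_opNorm v
            · rw [norm_mul, Complex.norm_I, one_mul, Complex.norm_real]
              refine (A.le_opNorm _).trans ?_
              rw [norm_smul, Complex.norm_I, one_mul]
        _ = 2 * ‖A‖ * ‖v‖ := by ring)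

@[simp] lemma clL_apply (A : V →L[ℝ] ℝ) : clL A = cl A := rfl

theorem pluriharmonic {G : V → ℝ} {z₀ : V} (hG : ContDiffAt ℝ 2 G z₀)
    (hM : ∀ᶠ z in 𝓝 z₀, ∀ v w, fderiv ℝ (fderiv ℝ G) z v w
      + fderiv ℝ (fderiv ℝ G) z (I • v) (I • w) = 0) :
    ∃ s : V → ℂ, AnalyticAt ℂ s z₀ ∧ ∀ᶠ z in 𝓝 z₀, G z = 2 * (s z).re := by
  have : CompleteSpace V := FiniteDimensional.complete ℂ V
  have h1 : ∀ᶠ z in 𝓝 z₀, ContDiffAt ℝ 2 G z := hG.eventually (by simp)
  obtain ⟨r, hr, hball⟩ := Metric.eventually_nhds_iff_ball.1 (h1.and hM)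
  set om : V → (V →L[ℂ] ℂ) := fun z => cl (fderiv ℝ G z) with hom
  have hd : ∀ z ∈ ball z₀ r, HasFDerivAt om (clL.comp (fderiv ℝ (fderiv ℝ G) z)) z := by
    intro z hz
    have h2 : DifferentiableAt ℝ (fderiv ℝ G) z :=
      ((hball z hz).1.fderiv_right (m := 1) (by norm_num)).differentiableAt (by simp)
    exact clL.hasFDerivAt.comp z h2.hasFDerivAt
  have hsymm : ∀ z ∈ ball z₀ r, ∀ v w, fderiv ℝ (fderiv ℝ G) z v w
      = fderiv ℝ (fderiv ℝ G) z w v := by
    intro z hz v w
    exact ((hball z hz).1.isSymmSndFDerivAt (by simp)).eq v w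
  have hkey : ∀ z ∈ ball z₀ r, ∀ v w, fderiv ℝ (fderiv ℝ G) z v (I • w)
      = fderiv ℝ (fderiv ℝ G) z (I • v) w := by
    intro z hz v w
    have h3 := (hball z hz).2 v (I • w)
    have h4 : I • I • w = -w := by rw [smul_smul, I_mul_I, neg_one_smul]
    rw [h4, map_neg] at h3
    linarith
  obtain ⟨s, hs⟩ := (convex_ball z₀ r).exists_forall_hasFDerivWithinAt_of_hasFDerivWithinAt_symmetric
    (𝕜 := ℂ)
    (fun z hz => (hd z hz).hasFDerivWithinAt) (by
      intro z hz v _ w _
      have e1 : (clL.comp (fderiv ℝ (fderiv ℝ G) z)) v w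
          = ((fderiv ℝ (fderiv ℝ G) z v w : ℝ) : ℂ)
            - I * ((fderiv ℝ (fderiv ℝ G) z v (I • w) : ℝ) : ℂ) := rfl
      have e2 : (clL.comp (fderiv ℝ (fderiv ℝ G) z)) w v
          = ((fderiv ℝ (fderiv ℝ G) z w v : ℝ) : ℂ)
            - I * ((fderiv ℝ (fderiv ℝ G) z w (I • v) : ℝ) : ℂ) := rfl
      rw [e1, e2, hsymm z hz v w, hkey z hz v w, hsymm z hz (I • v) w])
  have hs' : ∀ z ∈ ball z₀ r, HasFDerivAt s (cl (fderiv ℝ G z)) z := fun z hz =>
    (hs z hz).hasFDerivAt (isOpen_ball.mem_nhds hz)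
  have hsd : DifferentiableOn ℂ s (ball z₀ r) := fun z hz =>
    (hs' z hz).differentiableAt.differentiableWithinAt
  have hz₀ : z₀ ∈ ball z₀ r := mem_ball_self hr
  have hder : ∀ z ∈ ball z₀ r, HasFDerivAt (fun z => G z - (s z).re) (0 : V →L[ℝ] ℝ) z := by
    intro z hz
    have h2 : HasFDerivAt G (fderiv ℝ G z) z :=
      ((hball z hz).1.differentiableAt (by simp)).hasFDerivAt
    have h3 : HasFDerivAt (fun z => (s z).re)
        (Complex.reCLM.comp ((cl (fderiv ℝ G z)).restrictScalars ℝ)) z :=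
      Complex.reCLM.hasFDerivAt.comp z ((hs' z hz).restrictScalars ℝ)
    have h4 := h2.sub h3
    have h5 : fderiv ℝ G z - Complex.reCLM.comp ((cl (fderiv ℝ G z)).restrictScalars ℝ) = 0 := by
      ext v
      simp
    rw [h5] at h4
    exact h4
  have hconst : ∀ z ∈ ball z₀ r, G z - (s z).re = G z₀ - (s z₀).re := by
    intro z hz
    exact (convex_ball z₀ r).is_const_of_fderivWithin_eq_zero (𝕜 := ℝ)
      (fun z hz => (hder z hz).differentiableAt.differentiableWithinAt)
      (fun z hz => by
        rw [fderivWithin_of_isOpen isOpen_ball hz]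
        exact (hder z hz).fderiv) hz hz₀
  refine ⟨fun z => (s z + ((G z₀ - (s z₀).re : ℝ) : ℂ)) / 2, ?_, ?_⟩
  · exact ((MF.analyticAt_of_differentiableOn isOpen_ball hsd hz₀).add analyticAt_const).div
      analyticAt_const (by norm_num)
  · filter_upwards [isOpen_ball.mem_nhds hz₀] with z hz
    have h2 := hconst z hz
    have h3 : ((s z + ((G z₀ - (s z₀).re : ℝ) : ℂ)) / 2).re
        = ((s z).re + (G z₀ - (s z₀).re)) / 2 := by
      simp
    rw [h3]
    linarith

end H383.TD
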