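import Vale.Agent.P281.H383.TD.Poi
import Vale.Agent.P281.H383.TD.PH

/-!
# Directional derivatives, the operators `M_{vw}`, and the Poisson equation on `V / Λ`
-/

open Set Filter Topology Complex Metric
open scoped ContDiff

set_option linter.unusedSectionVars false

namespace H383.TD

section Gen

variable {A B : Type*} [NormedAddCommGroup A] [NormedSpace ℝ A] [NormedAddCommGroup B]
  [NormedSpace ℝ B]

/-- directional derivative -/
noncomputable def dv (v : A) (F : A → B) : A → B := fun z => fderiv ℝ F z v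

lemma dv_congr {F G : A → B} {z : A} (h : F =ᶠ[𝓝 z] G) (v : A) : dv v F =ᶠ[𝓝 z] dv v G := by
  filter_upwards [eventually_eventually_nhds.2 h] with z' hz'
  have h1 : F =ᶠ[𝓝 z'] G := hz'
  unfold dv
  rw [h1.fderiv_eq]

/-- smooth near the point `z` -/
def SmAt (F : A → B) (z : A) : Prop := ∀ᶠ z' in 𝓝 z, ContDiffAt ℝ ∞ F z'

lemma SmAt.cd {F : A → B} {z : A} (h : SmAt F z) : ContDiffAt ℝ ∞ F z := h.self_of_nhds

lemma SmAt.da {F : A → B} {z : A} (h : SmAt F z) : DifferentiableAt ℝ F z :=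
  h.cd.differentiableAt (by simp)

lemma SmAt.ev {F : A → B} {z : A} (h : SmAt F z) : ∀ᶠ z' in 𝓝 z, SmAt F z' :=
  eventually_eventually_nhds.2 h

lemma SmAt.congr {F G : A → B} {z : A} (h : SmAt F z) (hG : G =ᶠ[𝓝 z] F) : SmAt G z := by
  filter_upwards [h, eventually_eventually_nhds.2 hG] with z' h1 h2
  exact h1.congr_of_eventuallyEq h2

lemma SmAt.of_contDiff {F : A → B} (h : ContDiff ℝ ∞ F) (z : A) : SmAt F z :=
  Eventually.of_forall fun _ => h.contDiffAt

lemma SmAt.dv {F : A → B} {z : A} (h : SmAt F z) (v : A) : SmAt (dv v F) z := by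
  filter_upwards [h] with z' hz'
  exact (hz'.fderiv_right (m := ∞) (by simp)).clm_apply contDiffAt_const

lemma SmAt.add {F G : A → B} {z : A} (hF : SmAt F z) (hG : SmAt G z) :
    SmAt (fun z => F z + G z) z := by
  filter_upwards [hF, hG] with z' h1 h2 using h1.add h2

lemma SmAt.sub {F G : A → B} {z : A} (hF : SmAt F z) (hG : SmAt G z) :
    SmAt (fun z => F z - G z) z := by
  filter_upwards [hF, hG] with z' h1 h2 using h1.sub h2

lemma SmAt.sum {ι : Type*} {s : Finset ι} {F : ι → A → B} {z : A}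
    (hF : ∀ i ∈ s, SmAt (F i) z) : SmAt (fun z => ∑ i ∈ s, F i z) z := by
  have := (Filter.eventually_all_finset s).2 hF
  filter_upwards [this] with z' h1 using ContDiffAt.sum h1

lemma dv_contDiff {F : A → B} (h : ContDiff ℝ ∞ F) (v : A) : ContDiff ℝ ∞ (dv v F) :=
  contDiff_iff_contDiffAt.2 fun z => ((SmAt.of_contDiff h z).dv v).cd

lemma dv_dv {F : A → B} {z : A} (h : SmAt F z) (v w : A) :
    dv v (dv w F) z = fderiv ℝ (fderiv ℝ F) z v w := by
  have h0 : ContDiffAt ℝ 1 (fderiv ℝ F) z := h.cd.fderiv_right (by norm_cast)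
  have h1 : DifferentiableAt ℝ (fderiv ℝ F) z := h0.differentiableAt (by simp)
  have h2 : HasFDerivAt (dv w F)
      ((ContinuousLinearMap.apply ℝ B w).comp (fderiv ℝ (fderiv ℝ F) z)) z :=
    (ContinuousLinearMap.apply ℝ B w).hasFDerivAt.comp z h1.hasFDerivAt
  show fderiv ℝ (dv w F) z v = _
  rw [h2.fderiv]
  rfl

lemma dv_comm {F : A → B} {z : A} (h : SmAt F z) (v w : A) :
    dv v (dv w F) z = dv w (dv v F) z := by
  rw [dv_dv h, dv_dv h]
  exact ((h.cd.of_le (m := 2) (by norm_cast)).isSymmSndFDerivAt (by simp)).eq v w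

lemma dv_comm' {F : A → B} {z : A} (h : SmAt F z) (v w : A) :
    dv v (dv w F) =ᶠ[𝓝 z] dv w (dv v F) := by
  filter_upwards [h.ev] with z' hz'
  exact dv_comm hz' v w

lemma dv_add {F G : A → B} {z : A} (hF : DifferentiableAt ℝ F z) (hG : DifferentiableAt ℝ G z)
    (v : A) : dv v (fun z => F z + G z) z = dv v F z + dv v G z := by
  unfold dv
  rw [fderiv_fun_add hF hG]
  rfl

lemma dv_sub {F G : A → B} {z : A} (hF : DifferentiableAt ℝ F z) (hG : DifferentiableAt ℝ G z)
    (v : A) : dv v (fun z => F z - G z) z = dv v F z - dv v G z := by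
  unfold dv
  rw [fderiv_fun_sub hF hG]
  rfl

lemma dv_sum {ι : Type*} {s : Finset ι} {F : ι → A → B} {z : A}
    (hF : ∀ i ∈ s, DifferentiableAt ℝ (F i) z) (v : A) :
    dv v (fun z => ∑ i ∈ s, F i z) z = ∑ i ∈ s, dv v (F i) z := by
  unfold dv
  rw [fderiv_fun_sum hF]
  simp

lemma dv_const (c : B) (v : A) : dv v (fun _ : A => c) = fun _ => 0 := by
  funext z
  simp [dv]

end Gen

section Cx

variable {V : Type*} [NormedAddCommGroup V] [NormedSpace ℂ V]

/-- the operator `D_v D_w + D_{iv} D_{iw}` -/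
noncomputable def mm (v w : V) (F : V → ℝ) : V → ℝ :=
  fun z => dv v (dv w F) z + dv (I • v) (dv (I • w) F) z

lemma mm_congr {F G : V → ℝ} {z : V} (h : F =ᶠ[𝓝 z] G) (v w : V) :
    mm v w F =ᶠ[𝓝 z] mm v w G := by
  filter_upwards [dv_congr (dv_congr h w) v, dv_congr (dv_congr h (I • w)) (I • v)] with z' h1 h2
  unfold mm
  rw [h1, h2]

lemma SmAt.mm {F : V → ℝ} {z : V} (h : SmAt F z) (v w : V) : SmAt (mm v w F) z :=
  ((h.dv w).dv v).add ((h.dv (I • w)).dv (I • v))

lemma mm_sub {F G : V → ℝ} {z : V} (hF : SmAt F z) (hG : SmAt G z) (v w : V) :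
    mm v w (fun z => F z - G z) z = mm v w F z - mm v w G z := by
  have key : ∀ w : V, dv w (fun z => F z - G z) =ᶠ[𝓝 z] fun z => dv w F z - dv w G z := by
    intro w
    filter_upwards [hF.ev, hG.ev] with z' h1 h2
    exact dv_sub h1.da h2.da w
  have key2 : ∀ v w : V, dv v (dv w (fun z => F z - G z)) z = dv v (dv w F) z - dv v (dv w G) z := by
    intro v w
    rw [(dv_congr (key w) v).self_of_nhds]
    exact dv_sub (hF.dv w).da (hG.dv w).da v
  unfold mm
  rw [key2, key2]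
  ring

lemma mm_add {F G : V → ℝ} {z : V} (hF : SmAt F z) (hG : SmAt G z) (v w : V) :
    mm v w (fun z => F z + G z) z = mm v w F z + mm v w G z := by
  have key : ∀ w : V, dv w (fun z => F z + G z) =ᶠ[𝓝 z] fun z => dv w F z + dv w G z := by
    intro w
    filter_upwards [hF.ev, hG.ev] with z' h1 h2
    exact dv_add h1.da h2.da w
  have key2 : ∀ v w : V, dv v (dv w (fun z => F z + G z)) z = dv v (dv w F) z + dv v (dv w G) z := by
    intro v w
    rw [(dv_congr (key w) v).self_of_nhds]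
    exact dv_add (hF.dv w).da (hG.dv w).da v
  unfold mm
  rw [key2, key2]
  ring

/-- the four derivatives commute -/
lemma dv4 {F : V → ℝ} {z : V} (h : SmAt F z) (a b v w : V) :
    dv a (dv b (dv v (dv w F))) z = dv v (dv w (dv a (dv b F))) z := by
  have h1 : dv a (dv b (dv v (dv w F))) z = dv a (dv v (dv b (dv w F))) z :=
    (dv_congr (dv_comm' (h.dv w) b v) a).self_of_nhds
  have h2 : dv a (dv v (dv b (dv w F))) z = dv v (dv a (dv b (dv w F))) z :=
    dv_comm ((h.dv w).dv b) a v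
  have h3 : dv v (dv a (dv b (dv w F))) z = dv v (dv a (dv w (dv b F))) z :=
    (dv_congr (dv_congr (dv_comm' h b w) a) v).self_of_nhds
  have h4 : dv v (dv a (dv w (dv b F))) z = dv v (dv w (dv a (dv b F))) z :=
    (dv_congr (dv_comm' (h.dv b) a w) v).self_of_nhds
  rw [h1, h2, h3, h4]

lemma mm_mm {F : V → ℝ} {z : V} (h : SmAt F z) (a b v w : V) :
    mm a b (mm v w F) z = mm v w (mm a b F) z := by
  have key : ∀ (a b v w : V), mm a b (mm v w F) z
      = dv a (dv b (dv v (dv w F))) z + dv a (dv b (dv (I • v) (dv (I • w) F))) z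
        + (dv (I • a) (dv (I • b) (dv v (dv w F))) z
          + dv (I • a) (dv (I • b) (dv (I • v) (dv (I • w) F))) z) := by
    intro a b v w
    show mm a b (fun z => dv v (dv w F) z + dv (I • v) (dv (I • w) F) z) z = _
    rw [mm_add ((h.dv w).dv v) ((h.dv (I • w)).dv (I • v))]
    unfold mm
    ring
  rw [key, key, dv4 h a b v w, dv4 h a b (I • v) (I • w), dv4 h (I • a) (I • b) v w,
    dv4 h (I • a) (I • b) (I • v) (I • w)]
  ring

end Cx

section Poi

variable {n : ℕ} {V : Type*} [NormedAddCommGroup V] [NormedSpace ℂ V]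
variable (e : (Fin n → ℝ) ≃L[ℝ] V)

/-- `ℤ^n`-periodic functions on `V` -/
def PerV {A : Type*} (F : V → A) : Prop := ∀ z (k : Fin n → ℤ), F (z + e (zv k)) = F z

/-- the Laplacian -/
noncomputable def Lap (F : V → ℝ) : V → ℝ :=
  fun z => ∑ j : Fin n, mm (e (Pi.single j 1)) (e (Pi.single j 1)) F z

/-- the real directions -/
noncomputable def rv : Fin n ⊕ Fin n → (Fin n → ℝ) :=
  Sum.elim (fun j => Pi.single j 1) (fun j => e.symm (I • e (Pi.single j 1)))

/-- the complexified directions -/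
noncomputable def ra : Fin n ⊕ Fin n → (Fin n → ℂ) := fun j m => ((rv e j m : ℝ) : ℂ)

lemma ra_ell : Ell (ra e) := by
  refine ⟨1, one_pos, fun k hk => ?_⟩
  unfold sy
  rw [Fintype.sum_sum_type]
  have h1 : 0 ≤ ∑ j, ‖∑ m, ra e (Sum.inr j) m * (k m : ℂ)‖ ^ 2 :=
    Finset.sum_nonneg fun _ _ => by positivity
  obtain ⟨i, hi⟩ := Function.ne_iff.mp hk
  have h2 : ‖∑ m, ra e (Sum.inl i) m * (k m : ℂ)‖ ^ 2
      ≤ ∑ j, ‖∑ m, ra e (Sum.inl j) m * (k m : ℂ)‖ ^ 2 :=
    Finset.single_le_sum (f := fun j => ‖∑ m, ra e (Sum.inl j) m * (k m : ℂ)‖ ^ 2)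
      (fun _ _ => by positivity) (Finset.mem_univ i)
  have h3 : ∑ m, ra e (Sum.inl i) m * (k m : ℂ) = (k i : ℂ) := by
    rw [Finset.sum_eq_single i]
    · simp [ra, rv]
    · intro m _ hm
      simp [ra, rv, Pi.single_eq_of_ne hm]
    · intro h; exact absurd (Finset.mem_univ i) h
  have h4 : 1 ≤ ‖(k i : ℂ)‖ := by
    rw [Complex.norm_intCast]
    exact_mod_cast Int.one_le_abs hi
  rw [h3] at h2
  have h5 : (1 : ℝ) ≤ ‖(k i : ℂ)‖ ^ 2 := by nlinarith
  linarith

lemma LD_real (r : Fin n → ℝ) (f : (Fin n → ℝ) → ℂ) (x : Fin n → ℝ) :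
    LD (fun m => ((r m : ℝ) : ℂ)) f x = dv r f x := by
  unfold LD dv
  have h : r = ∑ m, r m • (Pi.single m 1 : Fin n → ℝ) := by
    rw [← pi_eq_sum_univ' r]
  conv_rhs => rw [h]
  rw [map_sum]
  refine Finset.sum_congr rfl fun m _ => ?_
  rw [map_smul, Complex.real_smul]

lemma cj_real (r : Fin n → ℝ) : cj (fun m => ((r m : ℝ) : ℂ)) = fun m => ((r m : ℝ) : ℂ) := by
  funext m
  simp [cj]

lemma lapl_ra (f : (Fin n → ℝ) → ℂ) (x : Fin n → ℝ) :
    lapl (ra e) f x = ∑ j, dv (rv e j) (dv (rv e j) f) x := by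
  unfold lapl
  refine Finset.sum_congr rfl fun j _ => ?_
  have h1 : LD (ra e j) f = dv (rv e j) f := funext fun x => LD_real _ _ _
  have h2 : cj (ra e j) = ra e j := cj_real _
  rw [h1, h2]
  exact LD_real _ _ _

variable {e}

lemma dv_symm {B : Type*} [NormedAddCommGroup B] [NormedSpace ℝ B] (φ : (Fin n → ℝ) → B)
    (w z : V) : dv w (fun z => φ (e.symm z)) z = dv (e.symm w) φ (e.symm z) := by
  unfold dv
  have h := e.symm.comp_right_fderiv (f := φ) (x := z)
  have h' : fderiv ℝ (fun z => φ (e.symm z)) z = (fderiv ℝ φ (e.symm z)).comp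
      (e.symm : V →L[ℝ] (Fin n → ℝ)) := h
  rw [h']
  rfl

lemma dv_e {B : Type*} [NormedAddCommGroup B] [NormedSpace ℝ B] (F : V → B)
    (r x : Fin n → ℝ) : dv r (fun x => F (e x)) x = dv (e r) F (e x) := by
  unfold dv
  have h := e.comp_right_fderiv (f := F) (x := x)
  have h' : fderiv ℝ (fun x => F (e x)) x = (fderiv ℝ F (e x)).comp
      (e : (Fin n → ℝ) →L[ℝ] V) := h
  rw [h']
  rfl

lemma dv_ofReal {A : Type*} [NormedAddCommGroup A] [NormedSpace ℝ A] {g : A → ℝ} {x : A}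
    (hg : DifferentiableAt ℝ g x) (r : A) :
    dv r (fun x => ((g x : ℝ) : ℂ)) x = ((dv r g x : ℝ) : ℂ) := by
  unfold dv
  have h := Complex.ofRealCLM.hasFDerivAt.comp x hg.hasFDerivAt
  have h' : fderiv ℝ (fun x => ((g x : ℝ) : ℂ)) x = _ := h.fderiv
  rw [h']
  rfl

lemma dv_re {A : Type*} [NormedAddCommGroup A] [NormedSpace ℝ A] {g : A → ℂ} {x : A}
    (hg : DifferentiableAt ℝ g x) (r : A) :
    dv r (fun x => (g x).re) x = (dv r g x).re := by
  unfold dv
  have h := Complex.reCLM.hasFDerivAt.comp x hg.hasFDerivAt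
  have h' : fderiv ℝ (fun x => (g x).re) x = _ := h.fderiv
  rw [h']
  rfl

lemma sp_of {F : V → ℝ} (hF : ContDiff ℝ ∞ F) (hp : PerV e F) :
    SP (fun x => ((F (e x) : ℝ) : ℂ)) := by
  refine ⟨fun x k => ?_, ?_⟩
  · simp only [map_add, hp (e x) k]
  · exact Complex.ofRealCLM.contDiff.comp (hF.comp e.contDiff)

lemma lapl_of {F : V → ℝ} (hF : ContDiff ℝ ∞ F) (x : Fin n → ℝ) :
    lapl (ra e) (fun x => ((F (e x) : ℝ) : ℂ)) x = ((Lap e F (e x) : ℝ) : ℂ) := by
  rw [lapl_ra, Fintype.sum_sum_type, ← Finset.sum_add_distrib]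
  unfold Lap
  push_cast
  refine Finset.sum_congr rfl fun j _ => ?_
  have key : ∀ r : Fin n → ℝ, dv r (dv r (fun x => ((F (e x) : ℝ) : ℂ))) x
      = ((dv (e r) (dv (e r) F) (e x) : ℝ) : ℂ) := by
    intro r
    have h1 : dv r (fun x => ((F (e x) : ℝ) : ℂ))
        = fun x => ((dv (e r) F (e x) : ℝ) : ℂ) := by
      funext x
      have h2 : ContDiff ℝ ∞ (fun x => F (e x)) := hF.comp e.contDiff
      rw [dv_ofReal (g := fun x => F (e x)) (h2.differentiable (by simp) x), dv_e]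
    rw [h1]
    have h3 : ContDiff ℝ ∞ (fun x => dv (e r) F (e x)) := (dv_contDiff hF _).comp e.contDiff
    rw [dv_ofReal (g := fun x => dv (e r) F (e x)) (h3.differentiable (by simp) x), dv_e]
  rw [key, key]
  unfold mm
  have h4 : rv e (Sum.inl j) = Pi.single j 1 := rfl
  have h5 : e (rv e (Sum.inr j)) = I • e (Pi.single j 1) := by simp [rv]
  rw [h4, h5]
  push_cast
  rfl

/-- periodic functions with constant Laplacian are constant -/
theorem liou {F : V → ℝ} (hF : ContDiff ℝ ∞ F) (hp : PerV e F) {κ : ℝ}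
    (h : ∀ z, Lap e F z = κ) (z z' : V) : F z = F z' := by
  have h1 := harm_const (ra_ell e) (sp_of hF hp) (κ := κ) (fun x => by rw [lapl_of hF, h])
  have h2 := h1 (e.symm z)
  have h3 := h1 (e.symm z')
  rw [← h3] at h2
  simpa using h2

/-- the Poisson equation -/
theorem poissonV {F : V → ℝ} (hF : ContDiff ℝ ∞ F) (hp : PerV e F) :
    ∃ (U : V → ℝ) (κ : ℝ), ContDiff ℝ ∞ U ∧ PerV e U ∧ ∀ z, Lap e U z = F z - κ := by
  obtain ⟨u, hu, hul⟩ := poisson (ra_ell e) (sp_of hF hp)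
  have hre : ContDiff ℝ ∞ (fun x => (u x).re) := Complex.reCLM.contDiff.comp hu.sm
  refine ⟨fun z => (u (e.symm z)).re, (cf 0 fun x => ((F (e x) : ℝ) : ℂ)).re,
    hre.comp e.symm.contDiff, fun z k => ?_, fun z => ?_⟩
  · have : e.symm (z + e (zv k)) = e.symm z + zv k := by
      rw [map_add, e.symm_apply_apply]
    simp only [this, hu.per (e.symm z) k]
  · have h1 := congrArg Complex.re (hul (e.symm z))
    rw [lapl_ra, Fintype.sum_sum_type, ← Finset.sum_add_distrib, Complex.re_sum] at h1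
    have h2 : (((F (e (e.symm z)) : ℝ) : ℂ) - cf 0 fun x => ((F (e x) : ℝ) : ℂ)).re
        = F z - (cf 0 fun x => ((F (e x) : ℝ) : ℂ)).re := by
      rw [Complex.sub_re, Complex.ofReal_re, e.apply_symm_apply]
    rw [h2] at h1
    rw [← h1]
    unfold Lap
    refine Finset.sum_congr rfl fun j _ => ?_
    have key : ∀ w : V, dv w (dv w (fun z => (u (e.symm z)).re)) z
        = (dv (e.symm w) (dv (e.symm w) u) (e.symm z)).re := by
      intro w
      have h3 : dv w (fun z => (u (e.symm z)).re) = fun z => (dv (e.symm w) u (e.symm z)).re := by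
        funext z
        rw [dv_symm (fun x => (u x).re), dv_re (hu.sm.differentiable (by simp) _)]
      rw [h3, dv_symm (fun x => (dv (e.symm w) u x).re),
        dv_re ((dv_contDiff hu.sm _).differentiable (by simp) _)]
    unfold mm
    rw [key, key, e.symm_apply_apply, Complex.add_re]
    rfl

end Poi

end H383.TD
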