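import Mathlib

/-!
# Fourier coefficients of periodic functions on `ℝⁿ`
-/

open Set Filter Topology MeasureTheory Complex
open scoped ContDiff

namespace H383.TD

variable {n : ℕ}

/-- an integer vector as a real vector -/
def zv (k : Fin n → ℤ) : Fin n → ℝ := fun i => (k i : ℝ)

/-- `ℤⁿ`-periodic functions -/
def Per {A : Type*} (f : (Fin n → ℝ) → A) : Prop := ∀ x (k : Fin n → ℤ), f (x + zv k) = f x

/-- the character `e(k·x)` -/
noncomputable def ek (k : Fin n → ℤ) (x : Fin n → ℝ) : ℂ :=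
  Complex.exp (2 * Real.pi * I * ∑ i, (k i : ℂ) * (x i : ℂ))

/-- the quotient map -/
def qt (x : Fin n → ℝ) : UnitAddTorus (Fin n) := fun i => (x i : UnitAddCircle)

lemma mFourier_qt (k : Fin n → ℤ) (x : Fin n → ℝ) :
    UnitAddTorus.mFourier k (qt x) = ek k x := by
  simp only [UnitAddTorus.mFourier, ContinuousMap.coe_mk, qt, ek, fourier_coe_apply]
  rw [← Complex.exp_sum]
  congr 1
  rw [Finset.mul_sum]
  refine Finset.sum_congr rfl fun i _ => ?_
  push_cast
  ring

lemma ek_norm (k : Fin n → ℤ) (x : Fin n → ℝ) : ‖ek k x‖ = 1 := by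
  unfold ek
  have : (2 * Real.pi * I * ∑ i, (k i : ℂ) * (x i : ℂ))
      = ((2 * Real.pi * ∑ i, (k i : ℝ) * x i : ℝ) : ℂ) * I := by
    push_cast; ring
  rw [this, Complex.norm_exp_ofReal_mul_I]

lemma ek_add (k : Fin n → ℤ) (x v : Fin n → ℝ) : ek k (x + v) = ek k x * ek k v := by
  unfold ek
  rw [← Complex.exp_add]
  congr 1
  rw [← mul_add, ← Finset.sum_add_distrib]
  congr 1
  refine Finset.sum_congr rfl fun i _ => ?_
  simp only [Pi.add_apply]
  push_cast
  ring

lemma ek_neg (k : Fin n → ℤ) (x : Fin n → ℝ) : ek (-k) x = ek k (-x) := by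
  unfold ek
  congr 1
  congr 1
  refine Finset.sum_congr rfl fun i _ => ?_
  simp only [Pi.neg_apply]
  push_cast
  ring

lemma ek_zero_right (k : Fin n → ℤ) : ek k 0 = 1 := by
  simp [ek]

lemma ek_zero_left (x : Fin n → ℝ) : ek 0 x = 1 := by
  simp [ek]

lemma ek_mul_neg (k : Fin n → ℤ) (v : Fin n → ℝ) : ek k v * ek (-k) v = 1 := by
  rw [ek_neg, ← ek_add, add_neg_cancel, ek_zero_right]

lemma ek_zv (k l : Fin n → ℤ) : ek k (zv l) = 1 := by
  unfold ek zv
  rw [Complex.exp_eq_one_iff]
  refine ⟨∑ i, k i * l i, ?_⟩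
  push_cast
  ring

lemma ek_per (k : Fin n → ℤ) : Per (ek k) := by
  intro x l
  rw [ek_add, ek_zv, mul_one]

lemma ek_contDiff (k : Fin n → ℤ) : ContDiff ℝ ∞ (ek k) := by
  unfold ek
  refine ContDiff.cexp ?_
  refine contDiff_const.mul ?_
  refine ContDiff.sum fun i _ => ?_
  refine contDiff_const.mul ?_
  exact Complex.ofRealCLM.contDiff.comp (contDiff_apply ℝ ℝ i)

lemma ek_cont (k : Fin n → ℤ) : Continuous (ek k) := (ek_contDiff k).continuous

/-- the boxes -/
def box (a : Fin n → ℝ) : Set (Fin n → ℝ) := {x | ∀ i, x i ∈ Ioc (a i) (a i + 1)}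

lemma box_meas (a : Fin n → ℝ) : MeasurableSet (box a) :=
  MeasurableSet.univ_pi' (fun _ => measurableSet_Ioc)

lemma box_sub (a : Fin n → ℝ) : box a ⊆ Icc a (a + 1) := by
  intro x hx
  refine ⟨fun i => (hx i).1.le, fun i => (hx i).2⟩

lemma box_finite (a : Fin n → ℝ) : volume (box a) < ⊤ :=
  lt_of_le_of_lt (measure_mono (box_sub a)) isCompact_Icc.measure_lt_top

instance (a : Fin n → ℝ) : IsFiniteMeasure (volume.restrict (box a)) :=
  ⟨by rw [Measure.restrict_apply_univ]; exact box_finite a⟩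

/-- the Fourier coefficient -/
noncomputable def cf (k : Fin n → ℤ) (f : (Fin n → ℝ) → ℂ) : ℂ :=
  ∫ x in box (0 : Fin n → ℝ), ek (-k) x * f x

/-- descent to the torus -/
noncomputable def dsc {A : Type*} (f : (Fin n → ℝ) → A) : UnitAddTorus (Fin n) → A :=
  fun t => f (fun i => (AddCircle.equivIoc (1 : ℝ) 0 (t i) : ℝ))

lemma exists_rep (x : Fin n → ℝ) :
    ∃ l : Fin n → ℤ, (fun i => (AddCircle.equivIoc (1 : ℝ) 0 ((x i : UnitAddCircle)) : ℝ))
      = x + zv l := by
  have h : ∀ i, ∃ l : ℤ, ((AddCircle.equivIoc (1 : ℝ) 0 ((x i : UnitAddCircle)) : ℝ))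
      = x i + l := by
    intro i
    have h1 : ((((AddCircle.equivIoc (1 : ℝ) 0 ((x i : UnitAddCircle)) : ℝ)) : UnitAddCircle))
        = (x i : UnitAddCircle) := by
      exact (AddCircle.equivIoc (1 : ℝ) 0).symm_apply_apply ((x i : UnitAddCircle))
    have h2 : (((((AddCircle.equivIoc (1 : ℝ) 0 ((x i : UnitAddCircle)) : ℝ)) - x i : ℝ)
        : UnitAddCircle)) = 0 := by
      rw [AddCircle.coe_sub, h1, sub_self]
    rw [AddCircle.coe_eq_zero_iff] at h2
    obtain ⟨l, hl⟩ := h2
    refine ⟨l, ?_⟩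
    simp only [zsmul_eq_mul, mul_one] at hl
    rw [hl]; ring
  choose l hl using h
  exact ⟨l, funext hl⟩

lemma dsc_qt {A : Type*} {f : (Fin n → ℝ) → A} (hf : Per f) (x : Fin n → ℝ) :
    dsc f (qt x) = f x := by
  obtain ⟨l, hl⟩ := exists_rep x
  unfold dsc qt
  rw [hl, hf]

lemma qt_quot : IsOpenQuotientMap (qt : (Fin n → ℝ) → UnitAddTorus (Fin n)) :=
  IsOpenQuotientMap.piMap fun _ => QuotientAddGroup.isOpenQuotientMap_mk

lemma dsc_cont {f : (Fin n → ℝ) → ℂ} (hf : Per f) (hc : Continuous f) :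
    Continuous (dsc f) := by
  rw [qt_quot.isQuotientMap.continuous_iff]
  have : dsc f ∘ qt = f := funext (dsc_qt hf)
  rwa [this]

lemma mfc_eq {f : (Fin n → ℝ) → ℂ} (hf : Per f) (k : Fin n → ℤ) (a : Fin n → ℝ) :
    UnitAddTorus.mFourierCoeff (dsc f) k = ∫ x in box a, ek (-k) x * f x := by
  rw [UnitAddTorus.mFourierCoeff_eq_integral (dsc f) k a]
  refine integral_congr_ae (Eventually.of_forall fun x => ?_)
  show UnitAddTorus.mFourier (-k) (qt x) • dsc f (qt x) = _
  rw [mFourier_qt, dsc_qt hf, smul_eq_mul]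

lemma mfc_cf {f : (Fin n → ℝ) → ℂ} (hf : Per f) (k : Fin n → ℤ) :
    UnitAddTorus.mFourierCoeff (dsc f) k = cf k f := mfc_eq hf k 0

lemma cf_box {f : (Fin n → ℝ) → ℂ} (hf : Per f) (k : Fin n → ℤ) (a : Fin n → ℝ) :
    cf k f = ∫ x in box a, ek (-k) x * f x := by
  rw [← mfc_cf hf, mfc_eq hf k a]

/-- Fourier inversion -/
lemma inversion {f : (Fin n → ℝ) → ℂ} (hf : Per f) (hc : Continuous f)
    (hs : Summable fun k => cf k f) (x : Fin n → ℝ) :
    HasSum (fun k => cf k f * ek k x) (f x) := by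
  have h1 : Summable (UnitAddTorus.mFourierCoeff
      ((⟨dsc f, dsc_cont hf hc⟩ : C(UnitAddTorus (Fin n), ℂ)))) := by
    refine hs.congr fun k => ?_
    exact (mfc_cf hf k).symm
  have h2 := UnitAddTorus.hasSum_mFourier_series_apply_of_summable h1 (qt x)
  have h3 : ((⟨dsc f, dsc_cont hf hc⟩ : C(UnitAddTorus (Fin n), ℂ))) (qt x) = f x :=
    dsc_qt hf x
  rw [h3] at h2
  refine h2.congr_fun fun k => ?_
  rw [mFourier_qt, smul_eq_mul]
  congr 1
  exact (mfc_cf hf k).symm

lemma box_shift (v : Fin n → ℝ) : (fun x => x + v) ⁻¹' (box v) = box 0 := by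
  ext x
  simp only [box, mem_preimage, Set.mem_ofPred_eq, mem_Ioc, Pi.add_apply, Pi.zero_apply, zero_add]
  constructor
  · intro h i
    have := h i
    constructor <;> linarith [this.1, this.2]
  · intro h i
    have := h i
    constructor <;> linarith [this.1, this.2]

/-- Fourier coefficients of a translate -/
lemma cf_translate {f : (Fin n → ℝ) → ℂ} (hf : Per f) (k : Fin n → ℤ) (v : Fin n → ℝ) :
    cf k (fun x => f (x + v)) = ek k v * cf k f := by
  rw [cf_box hf k v]
  have h1 : ∫ x in box v, ek (-k) x * f x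
      = ∫ x in box 0, ek (-k) (x + v) * f (x + v) := by
    have h := (measurePreserving_add_right (volume : Measure (Fin n → ℝ)) v).setIntegral_preimage_emb
      (measurableEmbedding_addRight v) (fun x => ek (-k) x * f x) (box v)
    rw [← h, box_shift]
  rw [h1, ← integral_const_mul]
  unfold cf
  refine integral_congr_ae (Eventually.of_forall fun x => ?_)
  show _ = _
  simp only []
  rw [ek_add]
  have := ek_mul_neg k v
  linear_combination (-(ek (-k) x * f (x + v))) * this

lemma per_bounded {f : (Fin n → ℝ) → ℂ} (hf : Per f) (hc : Continuous f) :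
    ∃ C : ℝ, 0 ≤ C ∧ ∀ x, ‖f x‖ ≤ C := by
  have h1 := (dsc_cont hf hc)
  obtain ⟨C, hC⟩ := isCompact_univ.exists_bound_of_continuousOn h1.continuousOn
  refine ⟨C, (norm_nonneg _).trans (hC (qt 0) (mem_univ _)), fun x => ?_⟩
  have := hC (qt x) (mem_univ _)
  rwa [dsc_qt hf] at this

lemma per_fderiv {f : (Fin n → ℝ) → ℂ} (hf : Per f) : Per (fderiv ℝ f) := by
  intro x l
  have h : (fun x => f (x + zv l)) = f := funext fun x => hf x l
  have h2 := fderiv_comp_add_right (𝕜 := ℝ) (f := f) (x := x) (zv l)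
  rw [h] at h2
  exact h2.symm

lemma cf_int {f : (Fin n → ℝ) → ℂ} (hc : Continuous f) (a : Fin n → ℝ) (k : Fin n → ℤ) :
    Integrable (fun x => ek k x * f x) (volume.restrict (box a)) := by
  have h : IntegrableOn (fun x => ek k x * f x) (Icc a (a + 1)) volume :=
    (((ek_cont k).mul hc).continuousOn).integrableOn_compact isCompact_Icc
  exact h.mono_set (box_sub a)

lemma cf_norm_le {f : (Fin n → ℝ) → ℂ} (k : Fin n → ℤ) {C : ℝ} (hC : ∀ x, ‖f x‖ ≤ C) :
    ‖cf k f‖ ≤ C := by
  have h1 : ‖cf k f‖ ≤ C * (volume.restrict (box (0 : Fin n → ℝ))).real univ := by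
    refine norm_integral_le_of_norm_le_const (Eventually.of_forall fun x => ?_)
    rw [norm_mul, ek_norm, one_mul]
    exact hC x
  have h2 : (volume.restrict (box (0 : Fin n → ℝ))).real univ = 1 := by
    have h3 : box (0 : Fin n → ℝ) = Set.pi univ fun i => Ioc (0 : ℝ) 1 := by
      ext x
      simp [box]
    rw [Measure.real, Measure.restrict_apply_univ, h3, Real.volume_pi_Ioc]
    simp
  rw [h2, mul_one] at h1
  exact h1

/-- Fourier coefficients of a derivative -/
lemma cf_pd {f : (Fin n → ℝ) → ℂ} (hf : Per f) (hc : ContDiff ℝ 1 f) (k : Fin n → ℤ)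
    (m : Fin n) :
    cf k (fun x => fderiv ℝ f x (Pi.single m 1)) = 2 * Real.pi * I * k m * cf k f := by
  set e : Fin n → ℝ := Pi.single m 1 with he
  have hfd : Continuous (fun x => fderiv ℝ f x e) :=
    (hc.continuous_fderiv (by norm_num)).clm_apply continuous_const
  have hfp : Per (fun x => fderiv ℝ f x e) := by
    intro x l
    simp only [per_fderiv hf x l]
  obtain ⟨C, hC0, hC⟩ := per_bounded hfp hfd
  have hpath : ∀ (x : Fin n → ℝ) (s : ℝ), HasDerivAt (fun s : ℝ => x + s • e) e s := by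
    intro x s
    have := ((hasDerivAt_id s).smul_const e).const_add x
    simpa using this
  have hD : ∀ (x : Fin n → ℝ) (s : ℝ),
      HasDerivAt (fun s : ℝ => ek (-k) x * f (x + s • e))
        (ek (-k) x * fderiv ℝ f (x + s • e) e) s := by
    intro x s
    have h1 : HasFDerivAt f (fderiv ℝ f (x + s • e)) (x + s • e) :=
      (hc.differentiable (by norm_num) _).hasFDerivAt
    exact (h1.comp_hasDerivAt s (hpath x s)).const_mul _
  have hL := (hasDerivAt_integral_of_dominated_loc_of_deriv_le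
    (μ := volume.restrict (box (0 : Fin n → ℝ))) (x₀ := (0 : ℝ)) (s := univ)
    (F := fun s x => ek (-k) x * f (x + s • e))
    (F' := fun s x => ek (-k) x * fderiv ℝ f (x + s • e) e)
    (bound := fun _ => C) univ_mem
    (Eventually.of_forall fun s => ((ek_cont _).mul (hc.continuous.comp
      (continuous_id.add continuous_const))).aestronglyMeasurable)
    (cf_int (hc.continuous.comp (continuous_id.add continuous_const)) 0 (-k))
    ((ek_cont _).mul (hfd.comp (continuous_id.add continuous_const))).aestronglyMeasurable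
    (Eventually.of_forall fun x s _ => by
      rw [norm_mul, ek_norm, one_mul]; exact hC _)
    (integrable_const _)
    (Eventually.of_forall fun x s _ => hD x s)).2
  have hR : HasDerivAt (fun s : ℝ => ek k (s • e) * cf k f)
      (2 * Real.pi * I * k m * cf k f) 0 := by
    have h1 : ∀ s : ℝ, ek k (s • e) = Complex.exp (2 * Real.pi * I * k m * s) := by
      intro s
      unfold ek
      congr 1
      have : ∑ i, (k i : ℂ) * (((s • e) i : ℝ) : ℂ) = k m * s := by
        rw [Finset.sum_eq_single m]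
        · simp [he]
        · intro i _ hi
          simp [he, Pi.single_eq_of_ne hi]
        · intro h; exact absurd (Finset.mem_univ m) h
      rw [this]; ring
    have h2 : HasDerivAt (fun s : ℝ => Complex.exp (2 * Real.pi * I * k m * s))
        (2 * Real.pi * I * k m) 0 := by
      have h3 : HasDerivAt (fun s : ℝ => (2 * Real.pi * I * k m * (s : ℂ)))
          (2 * Real.pi * I * k m) 0 := by
        have := (Complex.ofRealCLM.hasDerivAt (x := (0 : ℝ))).const_mul
          (2 * Real.pi * I * (k m : ℂ))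
        simpa using this
      have h4 := h3.cexp
      simpa using h4
    have h5 := h2.mul_const (cf k f)
    refine h5.congr_of_eventuallyEq (Eventually.of_forall fun s => ?_)
    simp only [h1]
  have heq : (fun s : ℝ => ∫ x in box (0 : Fin n → ℝ), ek (-k) x * f (x + s • e))
      = fun s : ℝ => ek k (s • e) * cf k f := by
    funext s
    exact cf_translate hf k (s • e)
  rw [heq] at hL
  have := hL.unique hR
  rw [← this]
  unfold cf
  simp

end H383.TD
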