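import Vale.Agent.P281.H383.TD.D2b
import Vale.Agent.P281.H125.D.Phi

/-!
# P281, T-Delta: the third derivative of the theta datum is the canonical one
-/

open Set Filter Topology Complex Metric
open scoped ContDiff
open Vale.Agent.P281 Vale.Agent.P281.H125.D

set_option linter.unusedSectionVars false

namespace H383.TD

variable {n : ℕ} {V : Type*} [NormedAddCommGroup V] [NormedSpace ℂ V] [FiniteDimensional ℂ V]

/-- `s` is a local logarithm of the theta datum. -/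
def LogAt (E : V →L[ℝ] V →L[ℝ] ℝ) (lam : V → ℝ) (s : V → ℂ) (z : V) : Prop :=
  AnalyticAt ℂ s z ∧ ∀ᶠ v in 𝓝 z, lam v = Real.exp (2 * (s v).re - E (I • v) v)

variable {E : V →L[ℝ] V →L[ℝ] ℝ} {lam : V → ℝ}

lemma LogAt.ev {s : V → ℂ} {z : V} (h : LogAt E lam s z) : ∀ᶠ v in 𝓝 z, LogAt E lam s v := by
  filter_upwards [h.1.eventually_analyticAt, eventually_eventually_nhds.2 h.2] with v h1 h2
  exact ⟨h1, h2⟩

/-- holomorphic functions with vanishing real part have vanishing derivative -/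
lemma fderiv_zero_of_re {f : V → ℂ} {z : V} (hf : AnalyticAt ℂ f z)
    (h : ∀ᶠ v in 𝓝 z, (f v).re = 0) : fderiv ℂ f z = 0 := by
  have h1 : ∀ u : V, (fderiv ℂ f z u).re = 0 := by
    intro u
    rw [← dv_re_an hf]
    have h2 : (fun z => (f z).re) =ᶠ[𝓝 z] fun _ => (0 : ℝ) := h
    rw [(dv_congr h2 u).self_of_nhds, dv_const]
  ext u
  have h2 := h1 u
  have h3 := h1 (I • u)
  rw [map_smul, smul_eq_mul] at h3
  apply Complex.ext
  · simpa using h2
  · simpa using h3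

lemma LogAt.fderiv_eq {s s' : V → ℂ} {z : V} (h : LogAt E lam s z) (h' : LogAt E lam s' z) :
    fderiv ℂ s =ᶠ[𝓝 z] fderiv ℂ s' := by
  filter_upwards [h.ev, h'.ev] with v h1 h2
  have h3 : fderiv ℂ (fun v => s v - s' v) v = 0 := by
    refine fderiv_zero_of_re (h1.1.sub h2.1) ?_
    filter_upwards [h1.2, h2.2] with u h4 h5
    rw [h4] at h5
    have h6 := Real.exp_injective h5
    rw [Complex.sub_re]
    linarith
  rw [fderiv_fun_sub h1.1.differentiableAt h2.1.differentiableAt] at h3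
  exact sub_eq_zero.1 h3

lemma LogAt.trans (hE0 : ∀ v, E v v = 0) (hEI : ∀ v w, E (I • v) (I • w) = E v w) {γ : V}
    (hper : ∀ z, lam (z + γ) = lam z) {s : V → ℂ} {z : V} (h : LogAt E lam s z) :
    LogAt E lam (fun v => s (v - γ) + (cl (E (I • γ)) v - (E (I • γ) γ / 2 : ℝ))) (z + γ) ∧
    fderiv ℂ (fderiv ℂ (fun v => s (v - γ) + (cl (E (I • γ)) v - (E (I • γ) γ / 2 : ℝ)))) (z + γ)
      = fderiv ℂ (fderiv ℂ s) z := by
  have hsk : ∀ v w, E v w = -E w v := by
    intro v w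
    have h1 := hE0 (v + w)
    simp only [map_add, add_apply, hE0] at h1
    linarith
  have htend : Tendsto (fun v : V => v - γ) (𝓝 (z + γ)) (𝓝 z) := by
    have h1 : ContinuousAt (fun v : V => v - γ) (z + γ) := by fun_prop
    have := h1.tendsto
    rwa [add_sub_cancel_right] at this
  have hsub : ∀ v, AnalyticAt ℂ (fun v : V => v - γ) v := fun v =>
    analyticAt_id.sub analyticAt_const
  have haff : ∀ v, AnalyticAt ℂ (fun v => cl (E (I • γ)) v - ((E (I • γ) γ / 2 : ℝ) : ℂ)) v :=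
    fun v => ((cl (E (I • γ))).analyticAt v).sub analyticAt_const
  refine ⟨⟨?_, ?_⟩, ?_⟩
  · refine AnalyticAt.add ?_ (haff _)
    refine AnalyticAt.fun_comp ?_ (hsub _)
    rw [add_sub_cancel_right]
    exact h.1
  · filter_upwards [htend.eventually h.2] with v hv
    have h1 := hper (v - γ)
    rw [sub_add_cancel] at h1
    rw [h1, hv]
    congr 1
    have h2 : (s (v - γ) + (cl (E (I • γ)) v - ((E (I • γ) γ / 2 : ℝ) : ℂ))).re
        = (s (v - γ)).re + (E (I • γ) v - E (I • γ) γ / 2) := by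
      rw [Complex.add_re, Complex.sub_re, cl_re, Complex.ofReal_re]
    rw [h2]
    have h3 : E (I • v) γ = E (I • γ) v := by
      rw [← hEI (I • v) γ, smul_smul, I_mul_I, neg_one_smul, map_neg, neg_apply, hsk]
      ring
    have h4 : E (I • (v - γ)) (v - γ) = E (I • v) v - 2 * E (I • γ) v + E (I • γ) γ := by
      simp only [smul_sub, map_sub, sub_apply, h3]
      ring
    rw [h4]
    ring
  · have h1 : fderiv ℂ (fun v => s (v - γ) + (cl (E (I • γ)) v - ((E (I • γ) γ / 2 : ℝ) : ℂ)))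
        =ᶠ[𝓝 (z + γ)] fun v => fderiv ℂ s (v - γ) + cl (E (I • γ)) := by
      filter_upwards [htend.eventually h.ev] with v hv
      have e1 : HasFDerivAt (fun v => s (v - γ)) (fderiv ℂ s (v - γ)) v := by
        have := hv.1.differentiableAt.hasFDerivAt.comp v
          ((hasFDerivAt_id v).sub_const γ)
        rw [ContinuousLinearMap.comp_id] at this
        exact this
      have e2 : HasFDerivAt (fun v => cl (E (I • γ)) v - ((E (I • γ) γ / 2 : ℝ) : ℂ))
          (cl (E (I • γ))) v := (cl (E (I • γ))).hasFDerivAt.sub_const _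
      exact (e1.add e2).fderiv
    rw [h1.fderiv_eq]
    have e3 : HasFDerivAt (fun v => fderiv ℂ s (v - γ)) (fderiv ℂ (fderiv ℂ s) z) (z + γ) := by
      have h0 : HasFDerivAt (fderiv ℂ s) (fderiv ℂ (fderiv ℂ s) z) ((fun v : V => v - γ) (z + γ)) := by
        simp only [add_sub_cancel_right]
        exact h.1.fderiv.differentiableAt.hasFDerivAt
      have := h0.comp (z + γ) ((hasFDerivAt_id (z + γ)).sub_const γ)
      rw [ContinuousLinearMap.comp_id] at this
      exact this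
    exact (e3.add_const _).fderiv

variable {e : (Fin n → ℝ) ≃L[ℝ] V} {Z : Set V} {Le : V → (V → ℂ) → Prop}

/-- local logarithms from a local equation -/
lemma logAt_of {z : V} {h s₀ : V → ℂ} (hs : AnalyticAt ℂ s₀ z) (hh : AnalyticAt ℂ h z)
    (h0 : h z ≠ 0) (hl : ∀ᶠ w in 𝓝 z, lam w = ‖Complex.exp (s₀ w) * h w‖ ^ 2 *
      Real.exp (-(E (I • w) w))) :
    ∃ l : V → ℂ, AnalyticAt ℂ l z ∧ (∀ᶠ w in 𝓝 z, h w = Complex.exp (l w)) ∧
      LogAt E lam (fun w => s₀ w + l w) z := by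
  obtain ⟨l, hl1, hl2⟩ := loc_log hh h0
  refine ⟨l, hl1, hl2, hs.add hl1, ?_⟩
  filter_upwards [hl, hl2] with w h1 h2
  rw [h1, h2, ← Complex.exp_add, Complex.norm_exp, ← Real.exp_nat_mul, ← Real.exp_add]
  congr 1

/-- the logarithmic derivative -/
lemma fderiv_log {z : V} {h l : V → ℂ} (hl : AnalyticAt ℂ l z)
    (hh : ∀ᶠ w in 𝓝 z, h w = Complex.exp (l w)) :
    fderiv ℂ l =ᶠ[𝓝 z] fun v => (h v)⁻¹ • fderiv ℂ h v := by
  filter_upwards [hl.eventually_analyticAt, eventually_eventually_nhds.2 hh] with v h1 h2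
  have h3 : fderiv ℂ h v = Complex.exp (l v) • fderiv ℂ l v := by
    have h4 : h =ᶠ[𝓝 v] fun w => Complex.exp (l w) := h2
    rw [h4.fderiv_eq]
    exact h1.differentiableAt.hasFDerivAt.cexp.fderiv
  rw [h3, h2.self_of_nhds, smul_smul, inv_mul_cancel₀ (Complex.exp_ne_zero _), one_smul]

/-- **The link**: the derivative of the periodic second logarithmic derivative `w` is the third
derivative of the local logarithms of the theta datum. -/
theorem link (hD : DivOne e Z Le) (hE0 : ∀ v, E v v = 0)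
    (hEI : ∀ v w, E (I • v) (I • w) = E v w)
    (hper : ∀ z (k : Fin n → ℤ), lam (z + e (zr k)) = lam z)
    (hloc : ∀ z h, Le z h → ∃ s : V → ℂ, AnalyticAt ℂ s z ∧ ∀ᶠ w in 𝓝 z,
        lam w = ‖Complex.exp (s w) * h w‖ ^ 2 * Real.exp (-(E (I • w) w)))
    {w : V → V →L[ℂ] V →L[ℂ] ℂ} (hwper : ∀ z (k : Fin n → ℤ), z ∉ Z → w (z + e (zr k)) = w z)
    (hwloc : ∀ z, ∃ h, Le z h ∧ ∃ A : V → (V →L[ℂ] V →L[ℂ] ℂ), AnalyticAt ℂ A z ∧
      ∀ᶠ z' in 𝓝 z, z' ∉ Z → w z' = fderiv ℂ (fun v => (h v)⁻¹ • fderiv ℂ h v) z' + A z') :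
    ∃ c : V →L[ℂ] V →L[ℂ] ℂ, ∀ z, z ∉ Z → ∀ s : V → ℂ, LogAt E lam s z →
      (∀ᶠ z' in 𝓝 z, w z' = fderiv ℂ (fderiv ℂ s) z' + c) ∧
      fderiv ℂ w z = fderiv ℂ (fderiv ℂ (fderiv ℂ s)) z := by
  classical
  have hex : ∀ z, z ∉ Z → ∃ s, LogAt E lam s z := by
    intro z hz
    obtain ⟨h, hh⟩ := hD.ex z
    obtain ⟨s, hs, hsl⟩ := hloc z h hh
    have h0 : h z ≠ 0 := fun h0 => hz ((hD.zero _ _ hh).self_of_nhds.1 h0)
    obtain ⟨l, _, _, hl⟩ := logAt_of hs (hD.an _ _ hh) h0 hsl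
    exact ⟨_, hl⟩
  let W : V → V →L[ℂ] V →L[ℂ] ℂ := fun z =>
    if hz : z ∉ Z then fderiv ℂ (fderiv ℂ (hex z hz).choose) z else 0
  have hW : ∀ z, z ∉ Z → ∀ s, LogAt E lam s z → W z = fderiv ℂ (fderiv ℂ s) z := by
    intro z hz s hs
    have h1 : W z = fderiv ℂ (fderiv ℂ (hex z hz).choose) z := dif_pos hz
    rw [h1]
    exact ((hex z hz).choose_spec.fderiv_eq hs).fderiv_eq
  have hclosed : ∀ z, z ∉ Z → ∀ᶠ z' in 𝓝 z, z' ∉ Z := by
    intro z hz
    obtain ⟨h, hh⟩ := hD.ex z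
    have h0 : h z ≠ 0 := fun h0 => hz ((hD.zero _ _ hh).self_of_nhds.1 h0)
    filter_upwards [hD.zero _ _ hh, (hD.an _ _ hh).continuousAt.eventually_ne h0] with z' h1 h2 h3
    exact h2 (h1.2 h3)
  have hconst := const_of_periodic (e := e) (D := Z) hD.dense
    (fun z k hz hz' => hz (by
      have := hD.Zper (-k) hz'
      rwa [zr_neg, map_neg, add_neg_cancel_right] at this))
    (F := fun z => w z - W z) (by
      intro z
      obtain ⟨h, hh, A, hA, hAw⟩ := hwloc z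
      obtain ⟨s₀, hs₀, hs₀l⟩ := hloc z h hh
      refine ⟨fun z' => A z' - fderiv ℂ (fderiv ℂ s₀) z', hA.sub hs₀.fderiv.fderiv, ?_⟩
      filter_upwards [hAw, hs₀.eventually_analyticAt, eventually_eventually_nhds.2 hs₀l,
        (hD.an _ _ hh).eventually_analyticAt, hD.zero _ _ hh] with z' h1 h2 h3 h4 h5 hz'
      have h0 : h z' ≠ 0 := fun h0 => hz' (h5.1 h0)
      obtain ⟨l, hl1, hl2, hl3⟩ := logAt_of h2 h4 h0 h3
      have e1 : fderiv ℂ (fun w => s₀ w + l w) =ᶠ[𝓝 z'] fun v => fderiv ℂ s₀ v + fderiv ℂ l v := by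
        filter_upwards [h2.eventually_analyticAt, hl1.eventually_analyticAt] with v g1 g2
        exact fderiv_fun_add g1.differentiableAt g2.differentiableAt
      rw [h1 hz', hW z' hz' _ hl3, e1.fderiv_eq,
        fderiv_fun_add h2.fderiv.differentiableAt hl1.fderiv.differentiableAt,
        (fderiv_log hl1 hl2).fderiv_eq]
      abel)
    (by
      intro z k hz
      have hz' : z + e (zr k) ∉ Z := fun hz' => hz (by
        have := hD.Zper (-k) hz'
        rwa [zr_neg, map_neg, add_neg_cancel_right] at this)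
      obtain ⟨s, hs⟩ := hex z hz
      obtain ⟨h1, h2⟩ := hs.trans hE0 hEI (γ := e (zr k)) (fun z => hper z k)
      rw [hwper z k hz, hW _ hz' _ h1, hW _ hz _ hs, h2])
  obtain ⟨c, hc⟩ := hconst
  refine ⟨c, fun z hz s hs => ?_⟩
  have h1 : ∀ᶠ z' in 𝓝 z, w z' = fderiv ℂ (fderiv ℂ s) z' + c := by
    filter_upwards [hclosed z hz, hs.ev] with z' h2 h3
    rw [← hc z' h2, hW z' h2 s h3]
    abel
  refine ⟨h1, ?_⟩
  have h2 : w =ᶠ[𝓝 z] fun z' => fderiv ℂ (fderiv ℂ s) z' + c := h1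
  rw [h2.fderiv_eq]
  exact (hs.1.fderiv.fderiv.differentiableAt.hasFDerivAt.add_const c).fderiv

end H383.TD
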