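import Vale.Agent.P281.H383.TD.Dv
import Vale.Agent.P281.H125.D.Pou

/-!
# P281, T-Delta, block D2b: the metric of a periodic divisor
-/

open Set Filter Topology Complex Metric
open scoped ContDiff
open Vale.Agent.P281 Vale.Agent.P281.H125.D

set_option linter.unusedSectionVars false

namespace H383.TD

variable {n : ℕ} {V : Type*} [NormedAddCommGroup V] [NormedSpace ℂ V]

/-- A periodic divisor on `V`, with support `Z`: `Le w h` means that `h` is a local equation at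
`w`. -/
structure DivOne (e : (Fin n → ℝ) ≃L[ℝ] V) (Z : Set V) (Le : V → (V → ℂ) → Prop) : Prop where
  ex : ∀ w, ∃ h, Le w h
  an : ∀ w h, Le w h → AnalyticAt ℂ h w
  zero : ∀ w h, Le w h → ∀ᶠ w' in 𝓝 w, (h w' = 0 ↔ w' ∈ Z)
  near : ∀ w h, Le w h → ∀ᶠ w' in 𝓝 w, Le w' h
  unit : ∀ w h h', Le w h → Le w h' →
    ∃ u : V → ℂ, AnalyticAt ℂ u w ∧ u w ≠ 0 ∧ ∀ᶠ w' in 𝓝 w, h' w' = u w' * h w'
  per : ∀ w h, Le w h → ∀ k : Fin n → ℤ, Le (w + e (zr k)) (fun w' => h (w' - e (zr k)))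
  dense : ∀ w, ¬ ∀ᶠ w' in 𝓝 w, w' ∈ Z

/-- the pair `(h, ϕ)` is valid at `z` -/
def Val (L : V → ℝ) (Z : Set V) (Le : V → (V → ℂ) → Prop) (z : V) (h : V → ℂ) (ϕ : V → ℝ) : Prop :=
  Le z h ∧ SmAt ϕ z ∧ ∀ᶠ w in 𝓝 z, w ∉ Z → L w = Real.log (‖h w‖ ^ 2) + ϕ w

lemma smAt_log {u : V → ℂ} {z : V} [CompleteSpace V] (hu : AnalyticAt ℂ u z) (h0 : u z ≠ 0) :
    SmAt (fun w => Real.log (‖u w‖ ^ 2)) z := by
  filter_upwards [hu.eventually_analyticAt, hu.continuousAt.eventually_ne h0] with w h1 h2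
  have h3 : ContDiffAt ℝ ∞ (fun w => ‖u w‖ ^ 2) w :=
    ((h1.restrictScalars (𝕜 := ℝ)).contDiffAt).norm_sq ℂ
  exact h3.log (by positivity)

/-- the metric -/
theorem exists_metric [FiniteDimensional ℂ V] {e : (Fin n → ℝ) ≃L[ℝ] V} {Z : Set V}
    {Le : V → (V → ℂ) → Prop} (hD : DivOne e Z Le) :
    ∃ L : V → ℝ, (∀ z (k : Fin n → ℤ), L (z + e (zr k)) = L z) ∧
      ∀ z h, Le z h → ∃ ϕ, Val L Z Le z h ϕ := by
  classical
  have : CompleteSpace V := FiniteDimensional.complete ℂ V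
  have hch : ∀ c : Fin n → ℝ, ∃ (h : V → ℂ) (ε : ℝ), 0 < ε ∧
      ∀ x : Fin n → ℝ, ‖x - c‖ < ε → Le (e x) h := by
    intro c
    obtain ⟨h, hh⟩ := hD.ex (e c)
    have h1 : ∀ᶠ x in 𝓝 c, Le (e x) h :=
      e.continuous.continuousAt.eventually (hD.near _ _ hh)
    obtain ⟨ε, hε, hb⟩ := Metric.eventually_nhds_iff.1 h1
    refine ⟨h, ε, hε, fun x hx => hb ?_⟩
    rwa [dist_eq_norm]
  choose h ε hε hEq using hch
  obtain ⟨s, χ, hχ, hχp, hχ1, hχs⟩ := exists_pou ε hε
  refine ⟨fun z => ∑ c ∈ s, χ c (e.symm z) *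
    Real.log (‖h c (e (e.symm z - zr (rd (e.symm z - c))))‖ ^ 2), ?_, ?_⟩
  · intro z k
    refine Finset.sum_congr rfl fun c _ => ?_
    have h0 : e.symm (z + e (zr k)) = e.symm z + zr k := by
      rw [map_add, e.symm_apply_apply]
    have h1 : e.symm z + zr k - c = e.symm z - c + zr k := by abel
    rw [h0, hχp, h1, rd_add, zr_add]
    congr 6
    abel
  · intro z h₀ hh₀
    have hloc : ∀ c ∈ s, ∃ ρ : V → ℝ, SmAt ρ z ∧
        ∀ᶠ w in 𝓝 z, w ∉ Z → χ c (e.symm w) *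
          Real.log (‖h c (e (e.symm w - zr (rd (e.symm w - c))))‖ ^ 2)
            = χ c (e.symm w) * Real.log (‖h₀ w‖ ^ 2) + ρ w := by
      intro c hc
      rcases hχs c hc (e.symm z) with h1 | ⟨m, hm1, hm2⟩
      · refine ⟨fun _ => 0, SmAt.of_contDiff contDiff_const z, ?_⟩
        have h2 : ∀ᶠ w in 𝓝 z, χ c (e.symm w) = 0 :=
          e.symm.continuous.continuousAt.eventually h1
        filter_upwards [h2] with w hw _
        rw [hw]; ring
      · have hE1 : Le (e (e.symm z - zr m)) (h c) := by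
          refine hEq c _ ?_
          rwa [sub_right_comm]
        have hE2 := hD.per _ _ hE1 m
        have hE3 : e (e.symm z - zr m) + e (zr m) = z := by
          rw [← map_add, sub_add_cancel, e.apply_symm_apply]
        rw [hE3] at hE2
        obtain ⟨u, hu, hu0, huh⟩ := hD.unit _ _ _ hh₀ hE2
        refine ⟨fun w => χ c (e.symm w) * Real.log (‖u w‖ ^ 2), ?_, ?_⟩
        · filter_upwards [smAt_log hu hu0] with w hw
          exact (((hχ c).comp e.symm.contDiff).contDiffAt).mul hw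
        · have e1 : ∀ᶠ w in 𝓝 z, ‖e.symm w - c - zr m‖ < 1 / 2 := by
            have : ContinuousAt (fun w : V => ‖e.symm w - c - zr m‖) z :=
              ((e.symm.continuous.sub continuous_const).sub continuous_const).norm.continuousAt
            exact this.eventually (gt_mem_nhds hm2)
          have e5 : ∀ᶠ w in 𝓝 z, u w ≠ 0 := hu.continuousAt.eventually_ne hu0
          filter_upwards [e1, e5, huh, hD.zero _ _ hh₀] with w f1 f5 f3 f7 hZ
          have g1 : rd (e.symm w - c) = m := rd_eq f1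
          have g2 : h₀ w ≠ 0 := fun h0 => hZ (f7.1 h0)
          have g3 : e (e.symm w - zr m) = w - e (zr m) := by
            rw [map_sub, e.apply_symm_apply]
          rw [g1, g3, f3, norm_mul, mul_pow, Real.log_mul (by positivity) (by positivity)]
          ring
    choose! ρ hρ1 hρ2 using hloc
    refine ⟨fun w => ∑ c ∈ s, ρ c w, hh₀, SmAt.sum hρ1, ?_⟩
    have hall := (Filter.eventually_all_finset s).2 hρ2
    filter_upwards [hall] with w hw hZ
    rw [Finset.sum_congr rfl fun c hc => hw c hc hZ, Finset.sum_add_distrib, ← Finset.sum_mul,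
      hχ1, one_mul]

/-- local logarithms -/
lemma loc_log {u : V → ℂ} {z : V} (hu : AnalyticAt ℂ u z) (h0 : u z ≠ 0) :
    ∃ l : V → ℂ, AnalyticAt ℂ l z ∧ ∀ᶠ w in 𝓝 z, u w = Complex.exp (l w) := by
  refine ⟨fun w => Complex.log (u w / u z) + Complex.log (u z), ?_, ?_⟩
  · refine AnalyticAt.add (AnalyticAt.clog (hu.div analyticAt_const h0) ?_) analyticAt_const
    rw [div_self h0]
    exact Complex.one_mem_slitPlane
  · filter_upwards [hu.continuousAt.eventually_ne h0] with w hw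
    rw [Complex.exp_add, Complex.exp_log (div_ne_zero hw h0), Complex.exp_log h0,
      div_mul_cancel₀ _ h0]

lemma dv_re_an {f : V → ℂ} {z : V} (hf : AnalyticAt ℂ f z) (v : V) :
    dv v (fun z => (f z).re) z = (fderiv ℂ f z v).re := by
  have h1 := (hf.differentiableAt.hasFDerivAt).restrictScalars ℝ
  rw [dv_re h1.differentiableAt]
  unfold dv
  rw [h1.fderiv]
  rfl

lemma mm_re_an [CompleteSpace V] {f : V → ℂ} {z : V} (hf : AnalyticAt ℂ f z) (v w : V) :
    mm v w (fun z => (f z).re) z = 0 := by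
  have key : ∀ v w : V, dv v (dv w (fun z => (f z).re)) z
      = (fderiv ℂ (fun z => fderiv ℂ f z w) z v).re := by
    intro v w
    have h1 : dv w (fun z => (f z).re) =ᶠ[𝓝 z] fun z => (fderiv ℂ f z w).re := by
      filter_upwards [hf.eventually_analyticAt] with z' hz'
      exact dv_re_an hz' w
    have h2 : AnalyticAt ℂ (fun z => fderiv ℂ f z w) z :=
      ((ContinuousLinearMap.apply ℂ ℂ w).analyticAt _).comp hf.fderiv
    rw [(dv_congr h1 v).self_of_nhds, dv_re_an h2]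
  unfold mm
  rw [key, key]
  have h3 : (fun z => fderiv ℂ f z (I • w)) = fun z => I * fderiv ℂ f z w := by
    funext z
    rw [map_smul, smul_eq_mul]
  have h2 : AnalyticAt ℂ (fun z => fderiv ℂ f z w) z :=
    ((ContinuousLinearMap.apply ℂ ℂ w).analyticAt _).comp hf.fderiv
  rw [h3, fderiv_const_mul h2.differentiableAt]
  rw [smul_apply, map_smul, smul_eq_mul, smul_eq_mul, ← mul_assoc, I_mul_I]
  simp

lemma mm_unit [CompleteSpace V] {u : V → ℂ} {z : V} (hu : AnalyticAt ℂ u z) (h0 : u z ≠ 0)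
    (v w : V) : mm v w (fun w => Real.log (‖u w‖ ^ 2)) z = 0 := by
  obtain ⟨l, hl, hul⟩ := loc_log hu h0
  have h1 : (fun w => Real.log (‖u w‖ ^ 2)) =ᶠ[𝓝 z] fun w => (2 * l w).re := by
    filter_upwards [hul] with w hw
    rw [hw, Complex.norm_exp, Real.log_pow, Real.log_exp]
    simp
  rw [(mm_congr h1 v w).self_of_nhds]
  exact mm_re_an (analyticAt_const.mul hl) v w

/-- functions which agree off `Z` agree -/
lemma eq_of_dense {Z : Set V} {z : V} (hZ : ¬ ∀ᶠ w in 𝓝 z, w ∈ Z) {F G : V → ℝ}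
    (hF : ContinuousAt F z) (hG : ContinuousAt G z) (h : ∀ᶠ w in 𝓝 z, w ∉ Z → F w = G w) :
    F z = G z := by
  by_contra hne
  have h1 : ∀ᶠ w in 𝓝 z, F w ≠ G w := by
    have h2 : ContinuousAt (fun w => F w - G w) z := hF.sub hG
    have h3 := h2.eventually_ne (sub_ne_zero.2 hne)
    exact h3.mono fun w hw => sub_ne_zero.1 hw
  apply hZ
  filter_upwards [h, h1] with w h2 h3
  by_contra h4
  exact h3 (h2 h4)

variable {e : (Fin n → ℝ) ≃L[ℝ] V} {Z : Set V} {Le : V → (V → ℂ) → Prop} {L : V → ℝ}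

lemma Val.ev (hD : DivOne e Z Le) {z : V} {h : V → ℂ} {ϕ : V → ℝ} (hv : Val L Z Le z h ϕ) :
    ∀ᶠ w in 𝓝 z, Val L Z Le w h ϕ := by
  filter_upwards [hD.near _ _ hv.1, hv.2.1.ev, eventually_eventually_nhds.2 hv.2.2] with w h1 h2 h3
  exact ⟨h1, h2, h3⟩

/-- two potentials differ by a pluriharmonic function -/
lemma Val.mm_eq [CompleteSpace V] (hD : DivOne e Z Le) {z : V} {h h' : V → ℂ} {ϕ ϕ' : V → ℝ}
    (hv : Val L Z Le z h ϕ) (hv' : Val L Z Le z h' ϕ') (v w : V) :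
    mm v w ϕ z = mm v w ϕ' z := by
  obtain ⟨u, hu, hu0, huh⟩ := hD.unit _ _ _ hv.1 hv'.1
  have hl := smAt_log hu hu0
  have hsum : SmAt (fun w => ϕ' w + Real.log (‖u w‖ ^ 2)) z := hv'.2.1.add hl
  have hoff : ∀ᶠ w in 𝓝 z, w ∉ Z → ϕ w = ϕ' w + Real.log (‖u w‖ ^ 2) := by
    filter_upwards [hv.2.2, hv'.2.2, huh, hD.zero _ _ hv.1, hu.continuousAt.eventually_ne hu0]
      with w h1 h2 h3 h4 h5 hZ
    have h6 : h w ≠ 0 := fun h0 => hZ (h4.1 h0)
    have h7 := h1 hZ
    rw [h2 hZ, h3, norm_mul, mul_pow, Real.log_mul (by positivity) (by positivity)] at h7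
    linarith
  have hall : ϕ =ᶠ[𝓝 z] fun w => ϕ' w + Real.log (‖u w‖ ^ 2) := by
    filter_upwards [hv.2.1, hsum, eventually_eventually_nhds.2 hoff] with w h1 h2 h3
    exact eq_of_dense (hD.dense w) h1.continuousAt h2.continuousAt h3
  rw [(mm_congr hall v w).self_of_nhds, mm_add hv'.2.1 hl, mm_unit hu hu0, add_zero]

end H383.TD
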