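import Vale.Agent.P281.H308.Bir.Main
import Vale.Agent.P281.H511.Gen.Prime
import Vale.Agent.P281.H713.SA.T4

/-! P281, block X4 (helper383): push-forward of pluricanonical sections by a modification. -/

open scoped Manifold ContDiff Topology
open Set Filter

set_option linter.unusedSectionVars false

noncomputable section

namespace Vale.Agent.P281.H383.TD

open Vale.Agent.P281 Vale.Agent.P281.H713 Vale.Agent.P281.H64 Vale.Agent.P281.H64.Gen
open Vale.Agent.P281.ISO Vale.Agent.P281.H308.Bir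
open Vale.Agent.P281.H511.Gen (sm subset_of_eventually isAnalyticSet_prime subset_closure_sm)

section

variable {n : ℕ} {X X₁ : Type} [TopologicalSpace X] [ChartedSpace (Cm n) X]
  [TopologicalSpace X₁] [ChartedSpace (Cm n) X₁]
  [IsManifold 𝓘(ℂ, Cm n) ω X] [IsManifold 𝓘(ℂ, Cm n) ω X₁]

/-- a point off the exceptional set is not mapped to the image of the exceptional set -/
theorem notMem_of_notExc {u : X₁ → X} (hu : TZ.S.IsModif (Cm n) u) {z : X₁}
    (hz : z ∉ excSet (Cm n) u) : u z ∉ u '' excSet (Cm n) u := by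
  obtain ⟨⟨hT2, hT2', -, -⟩, hu', hp, U, hU, hUd, hUd', h1⟩ := hu
  rintro ⟨z', hz', he⟩
  have hne : z ≠ z' := fun h => hz (h ▸ hz')
  obtain ⟨W, W', hW, hW', hzW, hzW', hdis⟩ := t2_separation hne
  have hb : Function.Bijective (dM (Cm n) (Cm n) u z) := by
    by_contra h
    exact hz h
  have e1 : u '' W ∈ 𝓝 (u z') := by
    rw [he]
    exact nhds_le_map (hu' z) hb (image_mem_map (hW.mem_nhds hzW))
  have hc : Continuous u := hu'.continuous
  obtain ⟨O, hOs, hO, hzO⟩ := mem_nhds_iff.1 e1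
  obtain ⟨w', ⟨hw'W, hw'O⟩, hw'U⟩ := hUd'.inter_open_nonempty (W' ∩ u ⁻¹' O)
    (hW'.inter (hO.preimage hc)) ⟨z', hzW', hzO⟩
  obtain ⟨w, hwW, hww⟩ := hOs hw'O
  obtain ⟨y, -, hy⟩ := h1 (u w') hw'U
  have h3 : w = w' := (hy w hww).trans (hy w' rfl).symm
  exact disjoint_left.1 hdis hwW (h3 ▸ hw'W)

variable {u : X₁ → X} {N : Set X}

/-- a prime divisor which is not contained in the exceptional set is determined by its image -/
theorem prime_inj (h : Mod (n := n) u N) {D D' : Set X₁} (hD : J.IsPrime (Cm n) D)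
    (hD' : J.IsPrime (Cm n) D') {z : X₁} (hz : u z ∉ N) (hzD : z ∈ D) (he : u '' D = u '' D') :
    D = D' := by
  have hc : Continuous u := continuous_iff_continuousAt.2 fun w => (h.hol w).continuousAt
  have hloc : ∀ {A B : Set X₁}, u '' A = u '' B → ∀ w, u w ∉ N → w ∈ A → w ∈ B := by
    intro A B hAB w hw hwA
    have h1 : u w ∈ u '' B := hAB ▸ mem_image_of_mem u hwA
    obtain ⟨w', hw', e⟩ := h1
    rwa [h.inj w w' e.symm hw]
  have hsub : ∀ {A B : Set X₁}, J.IsPrime (Cm n) A → J.IsPrime (Cm n) B → u '' A = u '' B →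
      z ∈ A → A ⊆ B := by
    intro A B hA hB hAB hzA
    have h1 := mem_closure_iff_frequently.1 (subset_closure_sm hA.2.1 hzA)
    have h2 : ∀ᶠ w in 𝓝 z, u w ∉ N :=
      hc.continuousAt.eventually (h.nclosed.isOpen_compl.mem_nhds hz)
    obtain ⟨x, hx, hxN⟩ := (h1.and_eventually h2).exists
    refine subset_of_eventually hA (isAnalyticSet_prime hB) hx ?_
    have h3 : ∀ᶠ w in 𝓝 x, u w ∉ N :=
      hc.continuousAt.eventually (h.nclosed.isOpen_compl.mem_nhds hxN)
    filter_upwards [h3] with w hw hwA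
    exact hloc hAB w hw hwA
  exact Subset.antisymm (hsub hD hD' he hzD) (hsub hD' hD he.symm (hloc he z hz hzD))

/-- **push-forward of a section** -/
theorem push_sec [T2Space X] (hHar : HartogsStmt) (hN : IsSmall2 (Cm n) N)
    (h : Mod (n := n) u N) {m : ℕ} {k : Set X₁ → ℕ} {s : X₁ → ℂ}
    (hs : IsSection (Cm n) (fun (D : Set X₁) z g => IsLocalEq (Cm n) D g z) m k s)
    {K : Set X → ℕ} (hKf : {D | K D ≠ 0}.Finite) (hKp : ∀ D, K D ≠ 0 → IsPrimeDivisor (Cm n) D)
    (hk : ∀ D, k D ≠ 0 → (∀ w ∈ D, u w ∈ N) ∨ K (u '' D) = k D)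
    (hinj : ∀ z, u z ∉ N → ∀ D D', k D ≠ 0 → k D' ≠ 0 → z ∈ D → z ∈ D' → u '' D = u '' D' →
      D = D') :
    ∃ σ : X → ℂ, IsSection (Cm n) (fun (D : Set X) z g => IsLocalEq (Cm n) D g z) m K σ ∧
      ∀ y, y ∉ N → (∀ D, K D ≠ 0 → y ∉ D) →
        σ y = s (inv h y) / (dM (Cm n) (Cm n) u (inv h y)).det ^ m := by
  classical
  obtain ⟨hRo, hRd⟩ := dense_compl_finite (X := X) (T := {D | K D ≠ 0}) hKf
    (fun D hD => (hKp D hD).1) (fun D hD => by
      rw [dense_iff_inter_open]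
      intro U hU hUne
      obtain ⟨x, hxU, hxD⟩ := IsLocalEq.exists_notMem (hKp D hD).2.1 hU hUne
      exact ⟨x, hxU, hxD⟩)
  have hGd : Dense {y | y ∉ N ∧ ∀ D, K D ≠ 0 → y ∉ D} :=
    h.ndense.inter_of_isOpen_left hRd h.nclosed.isOpen_compl
  obtain ⟨σ, hσ, hσe⟩ := H76.glue_section hGd (m := m) (k := K)
    (s₀ := fun y => s (inv h y) / (dM (Cm n) (Cm n) u (inv h y)).det ^ m) (by
      intro x
      set T : Finset (Set X) := hKf.toFinset with hT
      have hTm : ∀ D, D ∈ T ↔ K D ≠ 0 := fun D => by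
        rw [hT, Set.Finite.mem_toFinset]
        rfl
      have hch : ∀ D, ∃ g : X → ℂ, D ∈ T → IsLocalEq (Cm n) D g x := by
        intro D
        by_cases hDT : D ∈ T
        · obtain ⟨g, hg⟩ := (hKp D ((hTm D).1 hDT)).2.1 x
          exact ⟨g, fun _ => hg⟩
        · exact ⟨0, fun h => absurd h hDT⟩
      choose g hg using hch
      obtain ⟨a, ha, hae⟩ := push_local hHar hN h x hs (K := K) (T := T) (g := g)
        (fun D hD => (hTm D).2 hD) hg hGd hk hinj
      refine ⟨T, g, a, fun D hD => (hTm D).2 hD, hg, ha, ?_⟩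
      filter_upwards [hae] with y hy hyG
      exact hy hyG.1 hyG.2)
  exact ⟨σ, hσ, fun y hy hyK => hσe y ⟨hy, hyK⟩ hyK⟩

end

end Vale.Agent.P281.H383.TD
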