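import Vale.Agent.P281.H383.TD.PF2
import Vale.Agent.P281.H349.NF.NeatF
import Vale.Agent.P281.H498.TZ.PoleZ

/-! P281, block X4 (helper383): the pole condition of the pushed-forward sections. -/

open scoped Manifold ContDiff Topology
open Set Filter

set_option linter.unusedSectionVars false

noncomputable section

namespace Vale.Agent.P281.H383.TD

open Vale.Agent.P281 Vale.Agent.P281.H713 Vale.Agent.P281.H64 Vale.Agent.P281.H64.Gen
open Vale.Agent.P281.ISO Vale.Agent.P281.H308.Bir Vale.Agent.P281.H713.SA Vale.Agent.P281.MF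
open Vale.Agent.P281.H498 (tT_coord PoleAt)

section

variable {n p : ℕ} {X X₁ Y Y₁ : Type} [TopologicalSpace X] [ChartedSpace (Cm n) X]
  [TopologicalSpace X₁] [ChartedSpace (Cm n) X₁]
  [TopologicalSpace Y] [ChartedSpace (Cm p) Y] [TopologicalSpace Y₁] [ChartedSpace (Cm p) Y₁]

theorem poleAt_of {m : ℕ} {K : Set X → ℕ} {𝒢 : Set (Set Y)} {f : X → Y} {σ : Y → ℂ}
    (h : TL.IsPullSection (n := n) (p := p) m K 𝒢 (id : X → X) f σ) (x : X) :
    PoleAt n p m K 𝒢 (id : X → X) f σ x := by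
  obtain ⟨T, g, hT, hg, ha⟩ := h.pole x
  refine ⟨T, g, hT, hg, fun I => ?_⟩
  obtain ⟨a, h1, h2⟩ := ha fun r c => I (finProdFinEquiv (r, c))
  exact ⟨a, h1, h2⟩

theorem minors_eq_tT {m : ℕ} {f : X → Y} {x z : X} (I : Fin m → Fin p → Fin n) :
    TL.minors (n := n) (p := p) m (id : X → X) f x z I =
      tT f m (fun w => (chartAt (Cm n) x : X → Cm n) w)
        (fun t => I (finProdFinEquiv.symm t).1 (finProdFinEquiv.symm t).2) z := by
  unfold TL.minors tT tq mK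
  refine Finset.prod_congr rfl fun r _ => ?_
  congr 1
  ext a' b'
  simp only [Equiv.symm_apply_apply]
  rfl

variable [IsManifold 𝓘(ℂ, Cm n) ω X] [IsManifold 𝓘(ℂ, Cm n) ω X₁]
  [IsManifold 𝓘(ℂ, Cm p) ω Y] [IsManifold 𝓘(ℂ, Cm p) ω Y₁]
variable {f : X → Y} {f₁ : X₁ → Y₁} {u : X₁ → X} {v : Y₁ → Y} {N : Set X}

/-- the pole condition, near a point off the exceptional set -/
theorem pull_at (hf : ∀ x, HolM (Cm n) (Cm p) f x) (hf₁ : ∀ x, HolM (Cm n) (Cm p) f₁ x)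
    (hu : Mod (n := n) u N) (hv : ∀ x, HolM (Cm p) (Cm p) v x)
    (hcomm : ∀ x, f (u x) = v (f₁ x)) {m : ℕ} {s : Y₁ → ℂ} {σ : Y → ℂ} {𝒢₁ : Set (Set Y₁)}
    {K₁ k : Set X₁ → ℕ} {K : Set X → ℕ} {G : Set X} {z : X₁} (hz : u z ∉ N) {x₀ : X}
    (hx : u z ∈ (chartAt (Cm n) x₀).source)
    (hpole : PoleAt n p m K₁ 𝒢₁ (id : X₁ → X₁) f₁ s z) (hkK : ∀ D, K₁ D ≤ k D)
    {T : Finset (Set X)} {g : Set X → X → ℂ} (hT : ∀ D, K D ≠ 0 → D ∈ T)
    (hg : ∀ D ∈ T, IsLocalEq (Cm n) D (g D) (u z))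
    (hk : ∀ D, k D ≠ 0 → z ∈ D → K (u '' D) = k D)
    (hinj : ∀ D D', k D ≠ 0 → k D' ≠ 0 → z ∈ D → z ∈ D' → u '' D = u '' D' → D = D')
    (hσ : ∀ w, u w ∈ G → (dM (Cm p) (Cm p) v (f₁ w)).det ≠ 0 ∧
      σ (v (f₁ w)) = s (f₁ w) / (dM (Cm p) (Cm p) v (f₁ w)).det ^ m)
    (hG₁ : ∀ w, u w ∈ G → ∀ G' ∈ 𝒢₁, f₁ w ∉ G')
    (hG₂ : ∀ w, u w ∈ G → ∀ D, K₁ D ≠ 0 → w ∉ D) (I : Fin (m * p) → Fin n) :
    ∃ B : X → ℂ, HolV (Cm n) B (u z) ∧ ∀ᶠ y in 𝓝 (u z), y ∈ G →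
      σ (f y) * tT f m (fun w => (chartAt (Cm n) x₀ : X → Cm n) w) I y *
        ∏ D ∈ T, g D y ^ K D = B y := by
  classical
  obtain ⟨T₁, g₁, hT₁, hg₁, ha⟩ := hpole
  choose a ha hae using ha
  obtain ⟨C, hC, hCe⟩ := prod_pull hu hz hT hg hg₁ (k := k) hk hinj
  -- the coordinates
  set c₀ : X → Cm n := fun w => (chartAt (Cm n) x₀ : X → Cm n) w with hc₀
  set c : X₁ → Cm n := fun w => c₀ (u w) with hc
  set c' : X₁ → Cm n := fun w => (chartAt (Cm n) z : X₁ → Cm n) w with hc'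
  have hc₀h : ∀ w, u w ∈ (chartAt (Cm n) x₀).source → HolV (Cm n) c₀ (u w) := fun w hw =>
    HolV.chart hw
  have hc₀u : ∀ w, u w ∈ (chartAt (Cm n) x₀).source → IsUnit (dV (Cm n) c₀ (u w)) := fun w hw =>
    isUnit_dV_chart (E := Cm n) hw
  have hch : HolV (Cm n) c z := HolV.comp (h := c₀) (hc₀h z hx) (hu.hol z)
  have hcu : IsUnit (dV (Cm n) c z) := by
    have h1 : dV (Cm n) c z = dV (Cm n) c₀ (u z) * dM (Cm n) (Cm n) u z :=
      dV_comp (hc₀h z hx) (hu.hol z)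
    rw [h1]
    refine (hc₀u z hx).mul ?_
    obtain ⟨L, hL⟩ : ∃ L : Cm n ≃L[ℂ] Cm n, (L : Cm n →L[ℂ] Cm n) = dM (Cm n) (Cm n) u z := by
      refine ⟨(LinearMap.equivOfDetNeZero
        ((dM (Cm n) (Cm n) u z : Cm n →L[ℂ] Cm n) : Cm n →ₗ[ℂ] Cm n)
        (det_ne_of_bij (hu.exc z hz))).toContinuousLinearEquiv, ?_⟩
      ext v
      rfl
    rw [← hL]
    exact ⟨ContinuousLinearEquiv.toUnit L, rfl⟩
  have hc'h : HolV (Cm n) c' z := HolV.chart (mem_chart_source _ _)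
  have hc'u : IsUnit (dV (Cm n) c' z) := isUnit_dV_chart (E := Cm n) (mem_chart_source _ _)
  have hB := holV_quot hc'h hch hcu
  have hBe : ∀ i l : Fin n, HolV (Cm n) (fun w => ((dV (Cm n) c' w).comp
      (Ring.inverse (dV (Cm n) c w))) (Pi.single i 1) l) z := by
    intro i l
    have hG : ContDiff ℂ ω fun B : Cm n →L[ℂ] Cm n => B (Pi.single i 1) l :=
      ((ContinuousLinearMap.proj (R := ℂ) (φ := fun _ : Fin n => ℂ) l).comp
        (ContinuousLinearMap.apply ℂ (Cm n) (Pi.single i 1 : Cm n))).contDiff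
    exact HolV.comp_contDiff (G := fun B : Cm n →L[ℂ] Cm n => B (Pi.single i 1) l)
      hG.contDiffAt hB
  set B₁ : X₁ → ℂ := fun w => (∑ L : Fin (m * p) → Fin n, (∏ b, ((dV (Cm n) c' w).comp
    (Ring.inverse (dV (Cm n) c w))) (Pi.single (I b) 1) (L b)) * a L w) *
      (C w * ∏ D ∈ T₁, g₁ D w ^ (k D - K₁ D)) with hB₁
  have hB₁h : HolV (Cm n) B₁ z := by
    refine HolV.mul (HolV.sum fun L _ => (HolV.prod fun b _ => hBe (I b) (L b)).mul (ha L)) ?_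
    exact HolV.mul hC (HolV.prod fun D hD => ((hg₁ D hD).holAt).pow _)
  refine ⟨fun y => B₁ (inv hu y), holV_of_inv hu hz hB₁h, ?_⟩
  have hgev : ∀ᶠ w in 𝓝 z, ∀ D ∈ T₁, IsLocalEq (Cm n) D (g₁ D) w := by
    rw [Filter.eventually_all_finset]
    exact fun D hD => (hg₁ D hD).eventually
  have hev : ∀ᶠ w in 𝓝 z, u w ∈ G → σ (f (u w)) * tT f m c₀ I (u w) *
      ∏ D ∈ T, g D (u w) ^ K D = B₁ w := by
    have e1 : ∀ᶠ w in 𝓝 z, u w ∉ N :=
      (hu.hol z).continuousAt.eventually (hu.nclosed.isOpen_compl.mem_nhds hz)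
    filter_upwards [hCe, hgev, eventually_all.2 hae, e1, unit_nhds hc'h hc'u,
      (hu.hol z).continuousAt.eventually ((chartAt (Cm n) x₀).open_source.mem_nhds hx)]
      with w h1 h2 h3 h4 h5 h6 hwG
    obtain ⟨hd, hσw⟩ := hσ w hwG
    have h7 : ∏ D ∈ T₁, g₁ D w ^ K₁ D ≠ 0 := by
      refine Finset.prod_ne_zero_iff.2 fun D hD => ?_
      by_cases h0 : K₁ D = 0
      · rw [h0, pow_zero]
        exact one_ne_zero
      · exact pow_ne_zero _ fun h8 => hG₂ w hwG D h0 ((h2 D hD).mem_iff.2 h8)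
    have h8 : ∏ D ∈ T₁, g₁ D w ^ k D =
        (∏ D ∈ T₁, g₁ D w ^ K₁ D) * ∏ D ∈ T₁, g₁ D w ^ (k D - K₁ D) := by
      rw [← Finset.prod_mul_distrib]
      refine Finset.prod_congr rfl fun D _ => ?_
      rw [← pow_add, Nat.add_sub_cancel' (hkK D)]
    have h9 := tT_square hf hf₁ (fun x => hu.hol x) hv hcomm (hu.exc w h4) (hc₀h w h6)
      (hc₀u w h6) m I
    rw [h1, h8, h9, hcomm w, hσw, hB₁]
    show s (f₁ w) / (dM (Cm p) (Cm p) v (f₁ w)).det ^ m *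
      ((dM (Cm p) (Cm p) v (f₁ w)).det ^ m * tT f₁ m c I w) * _ = _
    rw [tT_coord m (c := c) (c' := c') h5.2.1 I]
    have h10 : ∀ L, s (f₁ w) * tT f₁ m c' L w * ∏ D ∈ T₁, g₁ D w ^ K₁ D = a L w := fun L =>
      h3 L w rfl (hG₁ w hwG) h7
    have h11 : (∑ L : Fin (m * p) → Fin n, (∏ b, ((dV (Cm n) c' w).comp
        (Ring.inverse (dV (Cm n) c w))) (Pi.single (I b) 1) (L b)) * a L w) =
        s (f₁ w) * (∑ L : Fin (m * p) → Fin n, (∏ b, ((dV (Cm n) c' w).comp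
        (Ring.inverse (dV (Cm n) c w))) (Pi.single (I b) 1) (L b)) * tT f₁ m c' L w) *
        ∏ D ∈ T₁, g₁ D w ^ K₁ D := by
      rw [Finset.mul_sum, Finset.sum_mul]
      refine Finset.sum_congr rfl fun L _ => ?_
      rw [← h10 L]
      ring
    have hdm := pow_ne_zero m hd
    simp only [h11]
    field_simp
  have h12 := (tendsto_inv hu hz).eventually hev
  filter_upwards [h12] with y hy hyG
  have h13 := hy (by rw [u_inv hu y]; exact hyG)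
  rwa [u_inv hu y] at h13

end

end Vale.Agent.P281.H383.TD
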