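import Vale.Agent.P281.H383.TD.D1

/-!
# The Poisson equation on one torus, and periodic harmonic functions
-/

open Set Filter Topology MeasureTheory Complex
open scoped ContDiff

set_option linter.unusedSectionVars false

namespace H383.TD

variable {n : ℕ}

/-- smooth periodic functions -/
structure SP (f : (Fin n → ℝ) → ℂ) : Prop where
  per : Per f
  sm : ContDiff ℝ ∞ f

lemma SP.toSm {f : (Fin n → ℝ) → ℂ} (h : SP f) : Sm (univ : Set ℂ) (fun _ => f) := by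
  refine ⟨fun _ _ => h.per, ?_⟩
  exact (h.sm.comp contDiff_snd).contDiffOn

lemma SP.add {f g : (Fin n → ℝ) → ℂ} (hf : SP f) (hg : SP g) : SP (fun x => f x + g x) :=
  ⟨fun x l => by simp only [hf.per x l, hg.per x l], hf.sm.add hg.sm⟩

lemma SP.sub {f g : (Fin n → ℝ) → ℂ} (hf : SP f) (hg : SP g) : SP (fun x => f x - g x) :=
  ⟨fun x l => by simp only [hf.per x l, hg.per x l], hf.sm.sub hg.sm⟩

lemma SP.cmul {f : (Fin n → ℝ) → ℂ} (hf : SP f) (c : ℂ) : SP (fun x => c * f x) :=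
  ⟨fun x l => by simp only [hf.per x l], contDiff_const.mul hf.sm⟩

lemma SP.const (c : ℂ) : SP (fun _ : Fin n → ℝ => c) :=
  ⟨fun _ _ => rfl, contDiff_const⟩

lemma SP.sum {ι : Type*} {s : Finset ι} {f : ι → (Fin n → ℝ) → ℂ} (hf : ∀ i ∈ s, SP (f i)) :
    SP (fun x => ∑ i ∈ s, f i x) :=
  ⟨fun x l => Finset.sum_congr rfl fun i hi => (hf i hi).per x l,
    ContDiff.sum fun i hi => (hf i hi).sm⟩

lemma LD_contDiff {f : (Fin n → ℝ) → ℂ} (hf : ContDiff ℝ ∞ f) (v : Fin n → ℂ) :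
    ContDiff ℝ ∞ (LD v f) := by
  unfold LD
  refine ContDiff.sum fun m _ => contDiff_const.mul ?_
  exact (hf.fderiv_right (by simp)).clm_apply contDiff_const

lemma SP.LD {f : (Fin n → ℝ) → ℂ} (hf : SP f) (v : Fin n → ℂ) : SP (LD v f) := by
  refine ⟨fun x l => ?_, LD_contDiff hf.sm v⟩
  unfold H383.TD.LD
  simp only [per_fderiv hf.per x l]

lemma SP.summable {f : (Fin n → ℝ) → ℂ} (hf : SP f) : Summable fun k => cf k f := by
  obtain ⟨C, hC0, hC⟩ := hf.toSm.decay isOpen_univ (mem_univ 0) (n + 1)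
  exact Summable.of_norm_bounded ((summable_zn n).mul_left C) hC.self_of_nhds

/-- a smooth periodic function is determined by its coefficients -/
lemma SP.eq_of_cf {f g : (Fin n → ℝ) → ℂ} (hf : SP f) (hg : SP g) (h : ∀ k, cf k f = cf k g) :
    f = g := by
  funext x
  have h1 := inversion hf.per hf.sm.continuous hf.summable x
  have h2 := inversion hg.per hg.sm.continuous hg.summable x
  simp only [h] at h1
  exact h1.unique h2

lemma cf_const (k : Fin n → ℤ) (hk : k ≠ 0) (c : ℂ) : cf k (fun _ => c) = 0 := by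
  obtain ⟨i, hi⟩ := Function.ne_iff.mp hk
  have h1 := cf_pd (f := fun _ : Fin n → ℝ => c) (fun _ _ => rfl) contDiff_const k i
  have h2 : cf k (fun x => fderiv ℝ (fun _ : Fin n → ℝ => c) x (Pi.single i 1)) = 0 := by
    simp [cf]
  rw [h2] at h1
  have h3 : (2 * Real.pi * I * k i : ℂ) ≠ 0 :=
    mul_ne_zero two_pi_I_ne (by exact_mod_cast hi)
  exact (mul_eq_zero.1 h1.symm).resolve_left h3

lemma vol_box : (volume.restrict (box (0 : Fin n → ℝ))).real univ = 1 := by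
  have h3 : box (0 : Fin n → ℝ) = Set.pi univ fun _ => Ioc (0 : ℝ) 1 := by
    ext x
    simp [box]
  rw [Measure.real, Measure.restrict_apply_univ, h3, Real.volume_pi_Ioc]
  simp

lemma cf_zero_const (c : ℂ) : cf (0 : Fin n → ℤ) (fun _ => c) = c := by
  unfold cf
  have : ∀ x : Fin n → ℝ, ek (-0) x * c = c := by
    intro x; rw [neg_zero, ek_zero_left, one_mul]
  simp only [this]
  rw [integral_const, vol_box, one_smul]

/-- constant iff the coefficients vanish -/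
lemma SP.eq_const {f : (Fin n → ℝ) → ℂ} (hf : SP f) (h : ∀ k ≠ 0, cf k f = 0) :
    ∀ x, f x = cf 0 f := by
  have : f = fun _ => cf 0 f := by
    refine hf.eq_of_cf (SP.const _) fun k => ?_
    by_cases hk : k = 0
    · subst hk; rw [cf_zero_const]
    · rw [h k hk, cf_const k hk]
  intro x
  exact congrFun this x

/-- `L_v` on the coefficients -/
noncomputable def cLD {E : Type*} (v : Fin n → ℂ) (c : (Fin n → ℤ) → E → ℂ) :
    (Fin n → ℤ) → E → ℂ :=
  fun k y => (2 * Real.pi * I * ∑ m, v m * k m) * c k y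

lemma Coef.cLD {E : Type*} [NormedAddCommGroup E] [NormedSpace ℂ E] {T : Set E}
    {c : (Fin n → ℤ) → E → ℂ} (h : Coef T c) (v : Fin n → ℂ) : Coef T (cLD v c) := by
  have hpi := Real.pi_pos
  refine ⟨fun k => (h.hol k).const_mul _, fun y0 hy0 N => ?_⟩
  obtain ⟨C, hC0, hC⟩ := h.dec y0 hy0 (N + 1)
  have hS : 0 ≤ ∑ m, ‖v m‖ := Finset.sum_nonneg fun i _ => norm_nonneg _
  refine ⟨2 * Real.pi * (∑ m, ‖v m‖) * (C * 2), by positivity, ?_⟩
  filter_upwards [hC] with y hy k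
  unfold H383.TD.cLD
  rw [norm_mul]
  have h1 : ‖(2 * Real.pi * I * ∑ m, v m * (k m : ℂ) : ℂ)‖ ≤ 2 * Real.pi * (∑ m, ‖v m‖) * ‖k‖ := by
    rw [norm_mul, norm_mul, norm_mul, Complex.norm_I, mul_one, Complex.norm_real,
      Real.norm_of_nonneg Real.pi_pos.le]
    have h4 : ‖(2 : ℂ)‖ = 2 := by simp
    rw [h4, mul_assoc (2 * Real.pi)]
    refine mul_le_mul_of_nonneg_left ?_ (by positivity)
    refine (norm_sum_le _ _).trans ?_
    rw [Finset.sum_mul]
    refine Finset.sum_le_sum fun m _ => ?_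
    rw [norm_mul]
    have h3 : ‖((k m : ℤ) : ℂ)‖ = ‖k m‖ := by
      rw [Complex.norm_intCast, Int.norm_eq_abs]
    rw [h3]
    exact mul_le_mul_of_nonneg_left (norm_le_pi_norm k m) (norm_nonneg _)
  calc ‖(2 * Real.pi * I * ∑ m, v m * (k m : ℂ) : ℂ)‖ * ‖c k y‖
      ≤ (2 * Real.pi * (∑ m, ‖v m‖) * ‖k‖) * (C * (1 + ‖k‖ ^ (N + 1))⁻¹) :=
        mul_le_mul h1 (hy k) (norm_nonneg _) (by positivity)
    _ = 2 * Real.pi * (∑ m, ‖v m‖) * C * (‖k‖ * (1 + ‖k‖ ^ (N + 1))⁻¹) := by ring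
    _ ≤ 2 * Real.pi * (∑ m, ‖v m‖) * C * (2 * (1 + ‖k‖ ^ N)⁻¹) :=
        mul_le_mul_of_nonneg_left (wt_le N k) (by positivity)
    _ = 2 * Real.pi * (∑ m, ‖v m‖) * (C * 2) * (1 + ‖k‖ ^ N)⁻¹ := by ring

variable {J : Type*} [Fintype J]

/-- the conjugate vector -/
noncomputable def cj (v : Fin n → ℂ) : Fin n → ℂ := fun m => (starRingEnd ℂ) (v m)

/-- the Laplacian `∑ L_{ā_j} L_{a_j}` -/
noncomputable def lapl (a : J → Fin n → ℂ) (f : (Fin n → ℝ) → ℂ) : (Fin n → ℝ) → ℂ :=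
  fun x => ∑ j, LD (cj (a j)) (LD (a j) f) x

/-- the symbol -/
noncomputable def sy (a : J → Fin n → ℂ) (k : Fin n → ℤ) : ℝ :=
  ∑ j, ‖∑ m, a j m * (k m : ℂ)‖ ^ 2

lemma SP.lapl {f : (Fin n → ℝ) → ℂ} (hf : SP f) (a : J → Fin n → ℂ) : SP (lapl a f) :=
  SP.sum fun j _ => (hf.LD (a j)).LD (cj (a j))

lemma cf_add {f g : (Fin n → ℝ) → ℂ} (hf : Continuous f) (hg : Continuous g) (k : Fin n → ℤ) :
    cf k (fun x => f x + g x) = cf k f + cf k g := by
  unfold cf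
  rw [← integral_add (cf_int hf 0 (-k)) (cf_int hg 0 (-k))]
  refine integral_congr_ae (Eventually.of_forall fun x => ?_)
  show _ = _
  ring

lemma cf_sum {ι : Type*} (s : Finset ι) {f : ι → (Fin n → ℝ) → ℂ} (hf : ∀ i, Continuous (f i))
    (k : Fin n → ℤ) : cf k (fun x => ∑ i ∈ s, f i x) = ∑ i ∈ s, cf k (f i) := by
  unfold cf
  rw [← integral_finsetSum _ fun i _ => cf_int (hf i) 0 (-k)]
  refine integral_congr_ae (Eventually.of_forall fun x => ?_)
  exact Finset.mul_sum _ _ _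

lemma cf_LD' {f : (Fin n → ℝ) → ℂ} (hf : SP f) (k : Fin n → ℤ) (v : Fin n → ℂ) :
    cf k (LD v f) = 2 * Real.pi * I * (∑ m, v m * k m) * cf k f :=
  cf_LD hf.per (hf.sm.of_le (by simp)) k v

lemma cj_sum (v : Fin n → ℂ) (k : Fin n → ℤ) :
    ∑ m, cj v m * (k m : ℂ) = (starRingEnd ℂ) (∑ m, v m * (k m : ℂ)) := by
  rw [map_sum]
  refine Finset.sum_congr rfl fun m _ => ?_
  rw [map_mul, map_intCast]
  rfl

lemma cf_lapl {f : (Fin n → ℝ) → ℂ} (hf : SP f) (a : J → Fin n → ℂ) (k : Fin n → ℤ) :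
    cf k (lapl a f) = -(4 * Real.pi ^ 2 * sy a k : ℝ) * cf k f := by
  unfold lapl
  rw [cf_sum Finset.univ fun j => ((hf.LD (a j)).LD (cj (a j))).sm.continuous]
  have h1 : ∀ j, cf k (LD (cj (a j)) (LD (a j) f))
      = -(4 * Real.pi ^ 2 * ‖∑ m, a j m * (k m : ℂ)‖ ^ 2 : ℝ) * cf k f := by
    intro j
    rw [cf_LD' (hf.LD (a j)), cf_LD' hf, cj_sum]
    have h2 : (starRingEnd ℂ) (∑ m, a j m * (k m : ℂ)) * (∑ m, a j m * (k m : ℂ))
        = ((‖∑ m, a j m * (k m : ℂ)‖ ^ 2 : ℝ) : ℂ) := by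
      rw [Complex.conj_mul']
      push_cast
      rfl
    push_cast at h2 ⊢
    linear_combination (4 * Real.pi ^ 2 * I ^ 2 * cf k f) * h2 + (4 * (Real.pi : ℂ) ^ 2 *
      (‖∑ m, a j m * (k m : ℂ)‖ : ℂ) ^ 2 * cf k f) * Complex.I_sq
  simp only [h1]
  rw [← Finset.sum_mul]
  congr 1
  unfold sy
  push_cast
  rw [Finset.mul_sum, ← Finset.sum_neg_distrib]

/-- ellipticity -/
def Ell (a : J → Fin n → ℂ) : Prop := ∃ c : ℝ, 0 < c ∧ ∀ k : Fin n → ℤ, k ≠ 0 →
  c ≤ sy a k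

/-- periodic harmonic functions are constant -/
lemma harm_const {a : J → Fin n → ℂ} (ha : Ell a) {f : (Fin n → ℝ) → ℂ} (hf : SP f) {κ : ℂ}
    (h : ∀ x, lapl a f x = κ) : ∀ x, f x = cf 0 f := by
  obtain ⟨c, hc, hs⟩ := ha
  refine hf.eq_const fun k hk => ?_
  have h1 := cf_lapl hf a k
  have h2 : lapl a f = fun _ => κ := funext h
  rw [h2, cf_const k hk] at h1
  have h3 : (-(4 * Real.pi ^ 2 * sy a k : ℝ) : ℂ) ≠ 0 := by
    rw [neg_ne_zero]
    have : 0 < sy a k := lt_of_lt_of_le hc (hs k hk)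
    have := Real.pi_pos
    exact_mod_cast (by positivity : (4 * Real.pi ^ 2 * sy a k) ≠ 0)
  exact (mul_eq_zero.1 h1.symm).resolve_left h3

/-- the Poisson equation -/
theorem poisson {a : J → Fin n → ℂ} (ha : Ell a) {ρ : (Fin n → ℝ) → ℂ} (hρ : SP ρ) :
    ∃ u : (Fin n → ℝ) → ℂ, SP u ∧ ∀ x, lapl a u x = ρ x - cf 0 ρ := by
  classical
  obtain ⟨c, hc, hs⟩ := ha
  set γ : (Fin n → ℤ) → ℂ → ℂ := fun k _ =>
    if k = 0 then 0 else cf k ρ / (-(4 * Real.pi ^ 2 * sy a k : ℝ)) with hγ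
  have hpi := Real.pi_pos
  have hC : Coef (univ : Set ℂ) γ := by
    refine ⟨fun k => differentiableOn_const _, fun y0 hy0 N => ?_⟩
    obtain ⟨C, hC0, hC⟩ := hρ.toSm.decay isOpen_univ (mem_univ y0) N
    refine ⟨C / c, by positivity, ?_⟩
    filter_upwards [hC] with y hy k
    by_cases hk : k = 0
    · simp only [hγ, hk, if_true, norm_zero]
      positivity
    · simp only [hγ, hk, if_false]
      rw [norm_div, norm_neg, Complex.norm_real]
      have h1 : c ≤ ‖4 * Real.pi ^ 2 * sy a k‖ := by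
        have h2 : 0 < sy a k := lt_of_lt_of_le hc (hs k hk)
        rw [Real.norm_of_nonneg (by positivity)]
        have h3 := hs k hk
        have h5 : (1 : ℝ) ≤ 4 * Real.pi ^ 2 := by nlinarith [Real.pi_gt_three]
        nlinarith
      calc ‖cf k ρ‖ / ‖4 * Real.pi ^ 2 * sy a k‖ ≤ (C * (1 + ‖k‖ ^ N)⁻¹) / c :=
            div_le_div₀ (by positivity) (hy k) hc h1
        _ = C / c * (1 + ‖k‖ ^ N)⁻¹ := by ring
  have hu : SP (ser γ 0) := ⟨ser_per γ 0, (ser_Sm isOpen_univ hC).slice (mem_univ 0)⟩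
  refine ⟨ser γ 0, hu, ?_⟩
  intro x
  have h0 : ∀ j x, HasSum (fun k => (2 * Real.pi * I * ∑ m, cj (a j) m * k m) *
      ((2 * Real.pi * I * ∑ m, a j m * k m) * γ k 0) * ek k x)
      (LD (cj (a j)) (LD (a j) (ser γ 0)) x) := by
    intro j x
    have h1 : LD (a j) (ser γ 0) = ser (cLD (a j) γ) 0 := by
      funext x
      exact ((LD_ser isOpen_univ hC (mem_univ 0) (a j) x).unique
        ((hC.cLD (a j)).summ (mem_univ 0) x).hasSum)
    rw [h1]
    exact LD_ser isOpen_univ (hC.cLD (a j)) (mem_univ 0) (cj (a j)) x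
  have h1 : HasSum (fun k => -(4 * Real.pi ^ 2 * sy a k : ℝ) * γ k 0 * ek k x)
      (lapl a (ser γ 0) x) := by
    have h2 := hasSum_sum (s := Finset.univ) fun j _ => h0 j x
    refine h2.congr_fun fun k => ?_
    have h3 : ∀ j, (2 * Real.pi * I * ∑ m, cj (a j) m * (k m : ℂ)) *
        ((2 * Real.pi * I * ∑ m, a j m * (k m : ℂ)) * γ k 0) * ek k x
        = -(4 * Real.pi ^ 2 * ‖∑ m, a j m * (k m : ℂ)‖ ^ 2 : ℝ) * γ k 0 * ek k x := by
      intro j
      rw [cj_sum]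
      have h2 : (starRingEnd ℂ) (∑ m, a j m * (k m : ℂ)) * (∑ m, a j m * (k m : ℂ))
          = ((‖∑ m, a j m * (k m : ℂ)‖ ^ 2 : ℝ) : ℂ) := by
        rw [Complex.conj_mul']
        push_cast
        rfl
      push_cast at h2 ⊢
      linear_combination (4 * Real.pi ^ 2 * I ^ 2 * γ k 0 * ek k x) * h2 +
        (4 * (Real.pi : ℂ) ^ 2 *
        (‖∑ m, a j m * (k m : ℂ)‖ : ℂ) ^ 2 * γ k 0 * ek k x) * Complex.I_sq
    simp only [h3]
    rw [← Finset.sum_mul, ← Finset.sum_mul]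
    congr 2
    unfold sy
    push_cast
    rw [Finset.mul_sum, ← Finset.sum_neg_distrib]
  have h2 := inversion hρ.per hρ.sm.continuous hρ.summable x
  have h3 : HasSum (fun k : Fin n → ℤ => if k = 0 then cf 0 ρ else 0) (cf 0 ρ) :=
    hasSum_ite_eq 0 (cf 0 ρ)
  refine h1.unique ((h2.sub h3).congr_fun fun k => ?_)
  by_cases hk : k = 0
  · subst hk
    simp [hγ, ek_zero_left]
  · simp only [hγ, hk, if_false, sub_zero]
    have h4 : 0 < sy a k := lt_of_lt_of_le hc (hs k hk)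
    have h5 : (-(4 * Real.pi ^ 2 * sy a k : ℝ) : ℂ) ≠ 0 := by
      rw [neg_ne_zero]
      exact_mod_cast (by positivity : (4 * Real.pi ^ 2 * sy a k) ≠ 0)
    rw [mul_div_cancel₀ _ h5]

end H383.TD
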