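import Vale.Agent.P281.H383.TD.Sm
import Vale.Agent.P281.MF.Hol

/-!
# Fourier series with rapidly decreasing holomorphic coefficients
-/

open Set Filter Topology MeasureTheory Complex
open scoped ContDiff
open Vale.Agent.P281

set_option linter.unusedSectionVars false

namespace H383.TD

variable {n : ℕ} {E : Type*} [NormedAddCommGroup E] [NormedSpace ℂ E]

/-- rapidly decreasing families of holomorphic functions -/
structure Coef (T : Set E) (c : (Fin n → ℤ) → E → ℂ) : Prop where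
  hol : ∀ k, DifferentiableOn ℂ (c k) T
  dec : ∀ y0 ∈ T, ∀ N : ℕ, ∃ C : ℝ, 0 ≤ C ∧
    ∀ᶠ y in 𝓝 y0, ∀ k, ‖c k y‖ ≤ C * (1 + ‖k‖ ^ N)⁻¹

/-- the series -/
noncomputable def ser (c : (Fin n → ℤ) → E → ℂ) : E → (Fin n → ℝ) → ℂ :=
  fun y x => ∑' k, c k y * ek k x

/-- `∂_{x_m}` on the coefficients -/
noncomputable def dx (m : Fin n) (c : (Fin n → ℤ) → E → ℂ) : (Fin n → ℤ) → E → ℂ :=
  fun k y => 2 * Real.pi * I * k m * c k y

/-- `∂_y` on the coefficients -/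
noncomputable def dy (v : E) (c : (Fin n → ℤ) → E → ℂ) : (Fin n → ℤ) → E → ℂ :=
  fun k y => fderiv ℂ (c k) y v

lemma wt_le (N : ℕ) (k : Fin n → ℤ) :
    ‖k‖ * (1 + ‖k‖ ^ (N + 1))⁻¹ ≤ 2 * (1 + ‖k‖ ^ N)⁻¹ := by
  by_cases hk : k = 0
  · subst hk
    simp only [norm_zero, zero_mul]
    positivity
  · have h1 := norm_one_le hk
    have hpos : 0 < 1 + ‖k‖ ^ (N + 1) := by positivity
    have hpos2 : 0 < 1 + ‖k‖ ^ N := by positivity
    rw [← div_eq_mul_inv, div_le_iff₀ hpos, ← div_eq_mul_inv, div_mul_eq_mul_div,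
      le_div_iff₀ hpos2]
    have h2 : ‖k‖ ≤ ‖k‖ ^ (N + 1) := le_self_pow₀ h1 (by omega)
    have h3 : ‖k‖ ^ (N + 1) = ‖k‖ ^ N * ‖k‖ := pow_succ _ _
    nlinarith

lemma Coef.dx {T : Set E} {c : (Fin n → ℤ) → E → ℂ} (h : Coef T c) (m : Fin n) :
    Coef T (dx m c) := by
  refine ⟨fun k => (h.hol k).const_mul _, fun y0 hy0 N => ?_⟩
  obtain ⟨C, hC0, hC⟩ := h.dec y0 hy0 (N + 1)
  refine ⟨2 * Real.pi * (C * 2), by positivity, ?_⟩
  filter_upwards [hC] with y hy k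
  unfold H383.TD.dx
  rw [norm_mul]
  have h1 : ‖(2 * Real.pi * I * k m : ℂ)‖ ≤ 2 * Real.pi * ‖k‖ := by
    rw [norm_mul, norm_mul, norm_mul, Complex.norm_I, mul_one]
    have h3 : ‖((k m : ℤ) : ℂ)‖ = ‖k m‖ := by
      rw [Complex.norm_intCast, Int.norm_eq_abs]
    rw [h3, Complex.norm_real, Real.norm_of_nonneg Real.pi_pos.le]
    have h4 : ‖(2 : ℂ)‖ = 2 := by simp
    rw [h4]
    have := norm_le_pi_norm k m
    have := Real.pi_pos
    gcongr
  calc ‖(2 * Real.pi * I * k m : ℂ)‖ * ‖c k y‖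
      ≤ (2 * Real.pi * ‖k‖) * (C * (1 + ‖k‖ ^ (N + 1))⁻¹) := by
        have := Real.pi_pos
        exact mul_le_mul h1 (hy k) (norm_nonneg _) (by positivity)
    _ = 2 * Real.pi * C * (‖k‖ * (1 + ‖k‖ ^ (N + 1))⁻¹) := by ring
    _ ≤ 2 * Real.pi * C * (2 * (1 + ‖k‖ ^ N)⁻¹) := by
        have := Real.pi_pos
        exact mul_le_mul_of_nonneg_left (wt_le N k) (by positivity)
    _ = 2 * Real.pi * (C * 2) * (1 + ‖k‖ ^ N)⁻¹ := by ring

/-- bounds on a ball -/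
lemma Coef.ball {T : Set E} (hT : IsOpen T) {c : (Fin n → ℤ) → E → ℂ} (h : Coef T c) {y0 : E}
    (hy0 : y0 ∈ T) (N : ℕ) : ∃ r : ℝ, 0 < r ∧ Metric.ball y0 (2 * r) ⊆ T ∧ ∃ C : ℝ, 0 ≤ C ∧
      (∀ y ∈ Metric.ball y0 (2 * r), ∀ k, ‖c k y‖ ≤ C * (1 + ‖k‖ ^ N)⁻¹) ∧
      (∀ y ∈ Metric.ball y0 r, ∀ k, ‖fderiv ℂ (c k) y‖ ≤ C * (1 + ‖k‖ ^ N)⁻¹) := by
  obtain ⟨C, hC0, hC⟩ := h.dec y0 hy0 N
  obtain ⟨R, hR, hRs⟩ := Metric.mem_nhds_iff.1 (Filter.inter_mem hC (hT.mem_nhds hy0))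
  have hr : 0 < R / 2 := by positivity
  refine ⟨R / 2, hr, ?_, max C (C / (R / 2)), le_max_of_le_left hC0, ?_, ?_⟩
  · intro y hy
    have : 2 * (R / 2) = R := by ring
    rw [this] at hy
    exact (hRs hy).2
  · intro y hy k
    have : 2 * (R / 2) = R := by ring
    rw [this] at hy
    refine ((hRs hy).1 k).trans ?_
    gcongr
    exact le_max_left _ _
  · intro y hy k
    have hsub : Metric.ball y (R / 2) ⊆ Metric.ball y0 R := by
      refine Metric.ball_subset_ball' ?_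
      rw [Metric.mem_ball] at hy
      linarith
    have h1 : ‖fderiv ℂ (c k) y‖ ≤ (C * (1 + ‖k‖ ^ N)⁻¹) / (R / 2) := by
      refine MF.norm_fderiv_le_of_ball hr ((h.hol k).mono fun z hz => (hRs (hsub hz)).2) ?_
      intro z hz
      exact (hRs (hsub hz)).1 k
    refine h1.trans ?_
    calc (C * (1 + ‖k‖ ^ N)⁻¹) / (R / 2) = (C / (R / 2)) * (1 + ‖k‖ ^ N)⁻¹ := by ring
      _ ≤ max C (C / (R / 2)) * (1 + ‖k‖ ^ N)⁻¹ := by
        gcongr
        exact le_max_right _ _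

variable [FiniteDimensional ℂ E]

lemma Coef.dy {T : Set E} (hT : IsOpen T) {c : (Fin n → ℤ) → E → ℂ} (h : Coef T c) (v : E) :
    Coef T (dy v c) := by
  refine ⟨fun k => MF.differentiableOn_fderiv_apply hT (h.hol k) v, fun y0 hy0 N => ?_⟩
  obtain ⟨r, hr, hrT, C, hC0, hC, hCd⟩ := h.ball hT hy0 N
  refine ⟨C * ‖v‖, by positivity, ?_⟩
  filter_upwards [Metric.ball_mem_nhds y0 hr] with y hy k
  unfold H383.TD.dy
  calc ‖fderiv ℂ (c k) y v‖ ≤ ‖fderiv ℂ (c k) y‖ * ‖v‖ := ContinuousLinearMap.le_opNorm _ _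
    _ ≤ (C * (1 + ‖k‖ ^ N)⁻¹) * ‖v‖ := by gcongr; exact hCd y hy k
    _ = C * ‖v‖ * (1 + ‖k‖ ^ N)⁻¹ := by ring

lemma Coef.summ {T : Set E} {c : (Fin n → ℤ) → E → ℂ} (h : Coef T c) {y : E} (hy : y ∈ T)
    (x : Fin n → ℝ) : Summable fun k => c k y * ek k x := by
  obtain ⟨C, hC0, hC⟩ := h.dec y hy (n + 1)
  have h1 := hC.self_of_nhds
  refine Summable.of_norm_bounded ((summable_zn n).mul_left C) fun k => ?_
  rw [norm_mul, ek_norm, mul_one]
  exact h1 k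

/-- derivative of the character -/
lemma ek_hasFDerivAt (k : Fin n → ℤ) (x : Fin n → ℝ) :
    HasFDerivAt (ek k) (fderiv ℝ (ek k) x) x :=
  ((ek_contDiff k).differentiable (by simp) x).hasFDerivAt

lemma ek_fderiv (k : Fin n → ℤ) (x v : Fin n → ℝ) :
    fderiv ℝ (ek k) x v = (2 * Real.pi * I * ∑ i, (k i : ℂ) * (v i : ℂ)) * ek k x := by
  have h1 : HasDerivAt (fun s : ℝ => x + s • v) v 0 := by
    simpa using ((hasDerivAt_id (0 : ℝ)).smul_const v).const_add x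
  have h2 : HasFDerivAt (ek k) (fderiv ℝ (ek k) x) (x + (0 : ℝ) • v) := by
    simpa using ek_hasFDerivAt k x
  have h3 := h2.comp_hasDerivAt (0 : ℝ) h1
  have h4 : (ek k ∘ fun s : ℝ => x + s • v)
      = fun s : ℝ => ek k x * Complex.exp ((2 * Real.pi * I * ∑ i, (k i : ℂ) * (v i : ℂ)) * s) := by
    funext s
    simp only [Function.comp]
    rw [ek_add]
    congr 1
    unfold ek
    congr 1
    simp only [Pi.smul_apply, smul_eq_mul]
    push_cast
    rw [mul_assoc (2 * (Real.pi : ℂ) * I)]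
    congr 1
    rw [Finset.sum_mul]
    refine Finset.sum_congr rfl fun i _ => ?_
    ring
  rw [h4] at h3
  have h5 : HasDerivAt (fun s : ℝ => ek k x *
      Complex.exp ((2 * Real.pi * I * ∑ i, (k i : ℂ) * (v i : ℂ)) * s))
      (ek k x * (2 * Real.pi * I * ∑ i, (k i : ℂ) * (v i : ℂ))) 0 := by
    have h6 : HasDerivAt (fun s : ℝ => ((2 * Real.pi * I * ∑ i, (k i : ℂ) * (v i : ℂ)) * (s : ℂ)))
        (2 * Real.pi * I * ∑ i, (k i : ℂ) * (v i : ℂ)) 0 := by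
      have := (Complex.ofRealCLM.hasDerivAt (x := (0 : ℝ))).const_mul
        (2 * Real.pi * I * ∑ i, (k i : ℂ) * (v i : ℂ))
      simpa using this
    have h7 := (h6.cexp).const_mul (ek k x)
    simpa using h7
  rw [h3.unique h5]
  ring

lemma ek_fderiv_norm (k : Fin n → ℤ) (x : Fin n → ℝ) :
    ‖fderiv ℝ (ek k) x‖ ≤ 2 * Real.pi * n * ‖k‖ := by
  have hpi := Real.pi_pos
  refine ContinuousLinearMap.opNorm_le_bound _ (by positivity) fun v => ?_
  rw [ek_fderiv, norm_mul, ek_norm, mul_one, norm_mul, norm_mul, norm_mul, Complex.norm_I,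
    mul_one, Complex.norm_real, Real.norm_of_nonneg hpi.le]
  have h4 : ‖(2 : ℂ)‖ = 2 := by simp
  rw [h4]
  have h5 : ‖∑ i, (k i : ℂ) * (v i : ℂ)‖ ≤ n * (‖k‖ * ‖v‖) := by
    refine (norm_sum_le _ _).trans ?_
    calc ∑ i, ‖(k i : ℂ) * (v i : ℂ)‖ ≤ ∑ _i : Fin n, ‖k‖ * ‖v‖ := by
          refine Finset.sum_le_sum fun i _ => ?_
          rw [norm_mul]
          have h3 : ‖((k i : ℤ) : ℂ)‖ = ‖k i‖ := by
            rw [Complex.norm_intCast, Int.norm_eq_abs]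
          rw [h3, Complex.norm_real]
          exact mul_le_mul (norm_le_pi_norm k i) (norm_le_pi_norm v i) (norm_nonneg _)
            (norm_nonneg _)
      _ = n * (‖k‖ * ‖v‖) := by simp
  calc 2 * Real.pi * ‖∑ i, (k i : ℂ) * (v i : ℂ)‖ ≤ 2 * Real.pi * (n * (‖k‖ * ‖v‖)) := by gcongr
    _ = 2 * Real.pi * n * ‖k‖ * ‖v‖ := by ring

/-- the termwise derivative -/
noncomputable def tder (c : (Fin n → ℤ) → E → ℂ) (k : Fin n → ℤ) (q : E × (Fin n → ℝ)) :
    (E × (Fin n → ℝ)) →L[ℝ] ℂ :=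
  c k q.1 • ((fderiv ℝ (ek k) q.2).comp (ContinuousLinearMap.snd ℝ E (Fin n → ℝ)))
  + ek k q.2 • (((fderiv ℂ (c k) q.1).restrictScalars ℝ).comp
      (ContinuousLinearMap.fst ℝ E (Fin n → ℝ)))

lemma term_hasFDerivAt {T : Set E} (hT : IsOpen T) {c : (Fin n → ℤ) → E → ℂ} (h : Coef T c)
    (k : Fin n → ℤ) (q : E × (Fin n → ℝ)) (hq : q.1 ∈ T) :
    HasFDerivAt (fun q : E × (Fin n → ℝ) => c k q.1 * ek k q.2) (tder c k q) q := by
  have h1 : HasFDerivAt (c k) ((fderiv ℂ (c k) q.1).restrictScalars ℝ) q.1 :=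
    (((h.hol k).differentiableAt (hT.mem_nhds hq)).hasFDerivAt).restrictScalars ℝ
  have h2 : HasFDerivAt (fun q : E × (Fin n → ℝ) => c k q.1) (((fderiv ℂ (c k) q.1).restrictScalars
      ℝ).comp (ContinuousLinearMap.fst ℝ E (Fin n → ℝ))) q := h1.comp q hasFDerivAt_fst
  have h3 : HasFDerivAt (fun q : E × (Fin n → ℝ) => ek k q.2) ((fderiv ℝ (ek k) q.2).comp
      (ContinuousLinearMap.snd ℝ E (Fin n → ℝ))) q :=
    (ek_hasFDerivAt k q.2).comp q hasFDerivAt_snd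
  exact h2.mul h3

lemma tder_apply (c : (Fin n → ℤ) → E → ℂ) (k : Fin n → ℤ) (q : E × (Fin n → ℝ)) (v : E)
    (w : Fin n → ℝ) : tder c k q (v, w)
      = dy v c k q.1 * ek k q.2 + ∑ m, (w m : ℂ) * (dx m c k q.1 * ek k q.2) := by
  unfold tder H383.TD.dy H383.TD.dx
  simp only [add_apply, smul_apply,
    ContinuousLinearMap.comp_apply, ContinuousLinearMap.coe_snd', ContinuousLinearMap.coe_fst',
    ContinuousLinearMap.coe_restrictScalars', smul_eq_mul]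
  rw [ek_fderiv, Finset.mul_sum, Finset.sum_mul, Finset.mul_sum, add_comm]
  congr 1
  · ring
  · refine Finset.sum_congr rfl fun i _ => ?_
    ring

/-- the series is differentiable, with the termwise derivative -/
lemma ser_hasFDerivAt {T : Set E} (hT : IsOpen T) {c : (Fin n → ℤ) → E → ℂ} (h : Coef T c)
    {y : E} (hy : y ∈ T) (x : Fin n → ℝ) :
    Summable (fun k => tder c k (y, x)) ∧
    HasFDerivAt (fun q : E × (Fin n → ℝ) => ser c q.1 q.2) (∑' k, tder c k (y, x)) (y, x) := by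
  obtain ⟨r, hr, hrT, C, hC0, hC, hCd⟩ := h.ball hT hy (n + 2)
  obtain ⟨r', hr', hrT', C', hC0', hC', hCd'⟩ := h.ball hT hy (n + 1)
  set ρ := min r r' with hρ
  have hρ0 : 0 < ρ := lt_min hr hr'
  have hpi := Real.pi_pos
  set u : (Fin n → ℤ) → ℝ := fun k =>
    (4 * Real.pi * n * C + C') * (1 + ‖k‖ ^ (n + 1))⁻¹ with hu
  have husum : Summable u := (summable_zn n).mul_left _
  have ho : IsOpen (Metric.ball y ρ ×ˢ (univ : Set (Fin n → ℝ))) :=
    Metric.isOpen_ball.prod isOpen_univ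
  have hpre : IsPreconnected (Metric.ball y ρ ×ˢ (univ : Set (Fin n → ℝ))) :=
    (convex_ball y ρ).isPreconnected.prod isPreconnected_univ
  have hmemT : ∀ z ∈ Metric.ball y ρ, z ∈ T := fun z hz =>
    hrT (Metric.ball_subset_ball (by linarith [min_le_left r r']) hz)
  have hf : ∀ (k : Fin n → ℤ) (q : E × (Fin n → ℝ)),
      q ∈ Metric.ball y ρ ×ˢ (univ : Set (Fin n → ℝ)) →
      HasFDerivAt (fun q : E × (Fin n → ℝ) => c k q.1 * ek k q.2) (tder c k q) q :=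
    fun k q hq => term_hasFDerivAt hT h k q (hmemT _ hq.1)
  have hb : ∀ (k : Fin n → ℤ) (q : E × (Fin n → ℝ)),
      q ∈ Metric.ball y ρ ×ˢ (univ : Set (Fin n → ℝ)) → ‖tder c k q‖ ≤ u k := by
    intro k q hq
    have hq1 : q.1 ∈ Metric.ball y r := Metric.ball_subset_ball (min_le_left _ _) hq.1
    have hq2 : q.1 ∈ Metric.ball y (2 * r) := Metric.ball_subset_ball (by linarith) hq1
    have hq3 : q.1 ∈ Metric.ball y r' := Metric.ball_subset_ball (min_le_right _ _) hq.1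
    have e1 : ‖c k q.1 • ((fderiv ℝ (ek k) q.2).comp (ContinuousLinearMap.snd ℝ E (Fin n → ℝ)))‖
        ≤ (4 * Real.pi * n * C) * (1 + ‖k‖ ^ (n + 1))⁻¹ := by
      rw [norm_smul]
      calc ‖c k q.1‖ * ‖(fderiv ℝ (ek k) q.2).comp (ContinuousLinearMap.snd ℝ E (Fin n → ℝ))‖
          ≤ (C * (1 + ‖k‖ ^ (n + 2))⁻¹) * (2 * Real.pi * n * ‖k‖) := by
            refine mul_le_mul (hC _ hq2 k) ?_ (norm_nonneg _) (by positivity)
            refine (ContinuousLinearMap.opNorm_comp_le _ _).trans ?_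
            calc ‖fderiv ℝ (ek k) q.2‖ * ‖ContinuousLinearMap.snd ℝ E (Fin n → ℝ)‖
                ≤ (2 * Real.pi * n * ‖k‖) * 1 := by
                  refine mul_le_mul (ek_fderiv_norm k q.2)
                    (ContinuousLinearMap.norm_snd_le _ _ _) (norm_nonneg _) (by positivity)
              _ = 2 * Real.pi * n * ‖k‖ := mul_one _
        _ = (2 * Real.pi * n * C) * (‖k‖ * (1 + ‖k‖ ^ (n + 1 + 1))⁻¹) := by ring
        _ ≤ (2 * Real.pi * n * C) * (2 * (1 + ‖k‖ ^ (n + 1))⁻¹) := by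
            exact mul_le_mul_of_nonneg_left (wt_le (n + 1) k) (by positivity)
        _ = _ := by ring
    have e2 : ‖ek k q.2 • (((fderiv ℂ (c k) q.1).restrictScalars ℝ).comp
        (ContinuousLinearMap.fst ℝ E (Fin n → ℝ)))‖ ≤ C' * (1 + ‖k‖ ^ (n + 1))⁻¹ := by
      rw [norm_smul, ek_norm, one_mul]
      refine (ContinuousLinearMap.opNorm_comp_le _ _).trans ?_
      calc ‖(fderiv ℂ (c k) q.1).restrictScalars ℝ‖ * ‖ContinuousLinearMap.fst ℝ E (Fin n → ℝ)‖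
          ≤ (C' * (1 + ‖k‖ ^ (n + 1))⁻¹) * 1 := by
            refine mul_le_mul ?_ (ContinuousLinearMap.norm_fst_le _ _ _) (norm_nonneg _)
              (by positivity)
            rw [ContinuousLinearMap.norm_restrictScalars]
            exact hCd' _ hq3 k
        _ = _ := mul_one _
    calc ‖tder c k q‖ ≤ _ := norm_add_le _ _
      _ ≤ _ := add_le_add e1 e2
      _ = u k := by rw [hu]; ring
  have hmem : ((y, x) : E × (Fin n → ℝ)) ∈ Metric.ball y ρ ×ˢ (univ : Set (Fin n → ℝ)) :=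
    ⟨Metric.mem_ball_self hρ0, mem_univ _⟩
  refine ⟨Summable.of_norm_bounded husum fun k => hb k _ hmem, ?_⟩
  exact hasFDerivAt_tsum_of_isPreconnected husum ho hpre hf hb hmem (h.summ hy x) hmem

end H383.TD
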