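import Vale.Agent.P281.H383.TD.Fou

/-!
# Families of smooth periodic functions: decay of the Fourier coefficients
-/

open Set Filter Topology MeasureTheory Complex
open scoped ContDiff

namespace H383.TD

variable {n : ℕ} {E : Type*} [NormedAddCommGroup E] [NormedSpace ℝ E]

/-- jointly smooth families of periodic functions -/
structure Sm (T : Set E) (f : E → (Fin n → ℝ) → ℂ) : Prop where
  per : ∀ y ∈ T, Per (f y)
  smooth : ContDiffOn ℝ ∞ (fun q : E × (Fin n → ℝ) => f q.1 q.2) (T ×ˢ univ)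

/-- partial derivative in `x_m` -/
noncomputable def pd (m : Fin n) (f : E → (Fin n → ℝ) → ℂ) : E → (Fin n → ℝ) → ℂ :=
  fun y x => fderiv ℝ (f y) x (Pi.single m 1)

lemma Sm.slice {T : Set E} {f : E → (Fin n → ℝ) → ℂ} (h : Sm T f) {y : E}
    (hy : y ∈ T) : ContDiff ℝ ∞ (f y) := by
  rw [← contDiffOn_univ]
  have h1 : ContDiffOn ℝ ∞ (fun x : Fin n → ℝ => ((y, x) : E × (Fin n → ℝ))) univ :=
    (contDiff_const.prodMk contDiff_id).contDiffOn
  exact h.smooth.comp h1 (fun x _ => ⟨hy, mem_univ _⟩)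

lemma Sm.fderiv_slice {T : Set E} (hT : IsOpen T) {f : E → (Fin n → ℝ) → ℂ} (h : Sm T f)
    {y : E} (hy : y ∈ T) (x : Fin n → ℝ) :
    fderiv ℝ (f y) x = (fderiv ℝ (fun q : E × (Fin n → ℝ) => f q.1 q.2) (y, x)).comp
      (ContinuousLinearMap.inr ℝ E (Fin n → ℝ)) := by
  have ho : IsOpen (T ×ˢ (univ : Set (Fin n → ℝ))) := hT.prod isOpen_univ
  have hd : DifferentiableAt ℝ (fun q : E × (Fin n → ℝ) => f q.1 q.2) (y, x) :=
    (h.smooth.differentiableOn (by simp)).differentiableAt (ho.mem_nhds ⟨hy, mem_univ _⟩)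
  have h1 : HasFDerivAt (fun x : Fin n → ℝ => ((y, x) : E × (Fin n → ℝ)))
      (ContinuousLinearMap.inr ℝ E (Fin n → ℝ)) x := hasFDerivAt_prodMk_right y x
  exact (hd.hasFDerivAt.comp x h1).fderiv

lemma Sm.pd {T : Set E} (hT : IsOpen T) {f : E → (Fin n → ℝ) → ℂ} (h : Sm T f) (m : Fin n) :
    Sm T (pd m f) := by
  have ho : IsOpen (T ×ˢ (univ : Set (Fin n → ℝ))) := hT.prod isOpen_univ
  refine ⟨fun y hy x l => ?_, ?_⟩
  · unfold H383.TD.pd
    rw [per_fderiv (h.per y hy) x l]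
  · have h1 : ContDiffOn ℝ ∞ (fderiv ℝ (fun q : E × (Fin n → ℝ) => f q.1 q.2)) (T ×ˢ univ) :=
      h.smooth.fderiv_of_isOpen ho (by simp)
    have h2 : ContDiffOn ℝ ∞ (fun q : E × (Fin n → ℝ) =>
        (fderiv ℝ (fun q : E × (Fin n → ℝ) => f q.1 q.2) q) ((0 : E), Pi.single m 1))
        (T ×ˢ univ) := h1.clm_apply contDiffOn_const
    refine h2.congr fun q hq => ?_
    unfold H383.TD.pd
    rw [h.fderiv_slice hT hq.1]
    simp

lemma Sm.add {T : Set E} {f g : E → (Fin n → ℝ) → ℂ} (hf : Sm T f) (hg : Sm T g) :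
    Sm T (fun y x => f y x + g y x) := by
  refine ⟨fun y hy x l => ?_, hf.smooth.add hg.smooth⟩
  simp only [hf.per y hy x l, hg.per y hy x l]

lemma Sm.locbd {T : Set E} {f : E → (Fin n → ℝ) → ℂ} (h : Sm T f) (hT : IsOpen T) {y0 : E}
    (hy : y0 ∈ T) : ∃ C : ℝ, 0 ≤ C ∧ ∀ᶠ y in 𝓝 y0, ∀ x, ‖f y x‖ ≤ C := by
  obtain ⟨C, hC0, hC⟩ := per_bounded (h.per y0 hy) (h.slice hy).continuous
  refine ⟨C + 1, by linarith, ?_⟩
  have hcont : ContinuousOn (fun q : E × (Fin n → ℝ) => f q.1 q.2) (T ×ˢ univ) :=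
    h.smooth.continuousOn
  have ho : IsOpen (T ×ˢ (univ : Set (Fin n → ℝ))) := hT.prod isOpen_univ
  have h1 : ∀ x ∈ Icc (0 : Fin n → ℝ) 1, ∀ᶠ q : E × (Fin n → ℝ) in 𝓝 y0 ×ˢ 𝓝 x,
      ‖f q.1 q.2‖ ≤ C + 1 := by
    intro x _
    have h2 : ContinuousAt (fun q : E × (Fin n → ℝ) => ‖f q.1 q.2‖) (y0, x) :=
      (hcont.continuousAt (ho.mem_nhds ⟨hy, mem_univ _⟩)).norm
    have h3 : ‖f y0 x‖ < C + 1 := by linarith [hC x]
    have h4 := h2.eventually (eventually_lt_nhds h3)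
    rw [nhds_prod_eq] at h4
    exact h4.mono fun q hq => le_of_lt hq
  have h2 : ∀ᶠ y in 𝓝 y0, ∀ x ∈ Icc (0 : Fin n → ℝ) 1, ‖f y x‖ ≤ C + 1 := by
    exact isCompact_Icc.eventually_forall_of_forall_eventually
      (fun x hx => by
        have := h1 x hx
        rw [← nhds_prod_eq] at this
        exact this)
  filter_upwards [h2, hT.mem_nhds hy] with y hy2 hyT x
  -- reduce to the box
  obtain ⟨l, hl⟩ := exists_rep x
  have h5 : f y x = f y (x + zv l) := ((h.per y hyT) x l).symm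
  rw [h5]
  refine hy2 _ ?_
  rw [← hl]
  constructor
  · intro i
    exact ((AddCircle.equivIoc (1 : ℝ) 0 ((x i : UnitAddCircle))).2.1).le
  · intro i
    have := ((AddCircle.equivIoc (1 : ℝ) 0 ((x i : UnitAddCircle))).2.2)
    simpa using this

/-- iterated partial derivatives -/
lemma Sm.iter {T : Set E} (hT : IsOpen T) {f : E → (Fin n → ℝ) → ℂ} (h : Sm T f) (m : Fin n)
    (N : ℕ) : ∃ F : E → (Fin n → ℝ) → ℂ, Sm T F ∧ ∀ y ∈ T, ∀ k,
      cf k (F y) = (2 * Real.pi * I * k m) ^ N * cf k (f y) := by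
  induction N with
  | zero => exact ⟨f, h, fun y _ k => by simp⟩
  | succ N ih =>
    obtain ⟨F, hF, hFk⟩ := ih
    refine ⟨H383.TD.pd m F, hF.pd hT m, fun y hy k => ?_⟩
    have h1 := cf_pd (hF.per y hy) ((hF.slice hy).of_le (by simp)) k m
    show cf k (fun x => fderiv ℝ (F y) x (Pi.single m 1)) = _
    rw [h1, hFk y hy k]
    ring

lemma Sm.decay {T : Set E} (hT : IsOpen T) {f : E → (Fin n → ℝ) → ℂ} (h : Sm T f) {y0 : E}
    (hy0 : y0 ∈ T) (N : ℕ) :
    ∃ C : ℝ, 0 ≤ C ∧ ∀ᶠ y in 𝓝 y0, ∀ k : Fin n → ℤ, ‖cf k (f y)‖ ≤ C * (1 + ‖k‖ ^ N)⁻¹ := by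
  obtain ⟨C0, hC0, hb0⟩ := h.locbd hT hy0
  choose F hF hFk using fun m => h.iter hT m N
  choose C hC hb using fun m => (hF m).locbd hT hy0
  have hS : 0 ≤ ∑ m, C m := Finset.sum_nonneg fun i _ => hC i
  refine ⟨C0 + (C0 + ∑ m, C m), by linarith, ?_⟩
  filter_upwards [hb0, eventually_all.mpr hb, hT.mem_nhds hy0] with y hyb0 hyb hyT k
  have hpos : 0 < 1 + ‖k‖ ^ N := by positivity
  rw [← div_eq_mul_inv, le_div_iff₀ hpos, mul_add, mul_one]
  refine add_le_add (cf_norm_le k hyb0) ?_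
  by_cases hn : Nonempty (Fin n)
  · obtain ⟨m, hm⟩ : ∃ m, ‖k‖ = ‖k m‖ := by
      obtain ⟨m, _, hm⟩ := Finset.exists_max_image Finset.univ (fun i => ‖k i‖)
        Finset.univ_nonempty
      refine ⟨m, le_antisymm ?_ (norm_le_pi_norm k m)⟩
      exact (pi_norm_le_iff_of_nonneg (norm_nonneg _)).mpr fun i => hm i (Finset.mem_univ _)
    have h1 : ‖cf k (F m y)‖ ≤ C m := cf_norm_le k (hyb m)
    rw [hFk m y hyT k, norm_mul, norm_pow] at h1
    have h2 : ‖k m‖ ≤ ‖(2 * Real.pi * I * k m : ℂ)‖ := by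
      rw [norm_mul, norm_mul, norm_mul, Complex.norm_I, mul_one]
      have h3 : ‖((k m : ℤ) : ℂ)‖ = ‖k m‖ := by
        rw [Complex.norm_intCast, Int.norm_eq_abs]
      rw [h3, Complex.norm_real, Real.norm_of_nonneg Real.pi_pos.le]
      have h4 : ‖(2 : ℂ)‖ = 2 := by simp
      rw [h4]
      nlinarith [Real.pi_gt_three, norm_nonneg (k m)]
    have h3 : ‖cf k (f y)‖ * ‖k‖ ^ N ≤ C m := by
      refine le_trans ?_ h1
      rw [mul_comm, hm]
      gcongr
    exact (h3.trans (Finset.single_le_sum (f := C) (fun i _ => hC i) (Finset.mem_univ m))).trans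
      (by linarith)
  · have hn' : IsEmpty (Fin n) := not_nonempty_iff.mp hn
    have hk : k = 0 := Subsingleton.elim _ _
    subst hk
    have h1 : ‖cf (0 : Fin n → ℤ) (f y)‖ ≤ C0 := cf_norm_le 0 hyb0
    have h2 : ‖(0 : Fin n → ℤ)‖ ^ N ≤ 1 := pow_le_one₀ (norm_nonneg _) (by simp)
    calc ‖cf (0 : Fin n → ℤ) (f y)‖ * ‖(0 : Fin n → ℤ)‖ ^ N
        ≤ ‖cf (0 : Fin n → ℤ) (f y)‖ * 1 := by gcongr
      _ ≤ C0 + ∑ m, C m := by linarith

lemma norm_zv (k : Fin n → ℤ) : ‖zv k‖ = ‖k‖ := by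
  refine le_antisymm ?_ ?_
  · refine (pi_norm_le_iff_of_nonneg (norm_nonneg _)).mpr fun i => ?_
    refine le_trans (le_of_eq ?_) (norm_le_pi_norm k i)
    simp [zv, Int.norm_eq_abs]
  · refine (pi_norm_le_iff_of_nonneg (norm_nonneg _)).mpr fun i => ?_
    refine le_trans (le_of_eq ?_) (norm_le_pi_norm (zv k) i)
    simp [zv, Int.norm_eq_abs]

lemma norm_one_le {k : Fin n → ℤ} (hk : k ≠ 0) : 1 ≤ ‖k‖ := by
  obtain ⟨i, hi⟩ := Function.ne_iff.mp hk
  refine le_trans ?_ (norm_le_pi_norm k i)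
  rw [Int.norm_eq_abs]
  exact_mod_cast Int.one_le_abs hi

lemma summable_zn (n : ℕ) : Summable fun k : Fin n → ℤ => (1 + ‖k‖ ^ (n + 1))⁻¹ := by
  set b := Pi.basisFun ℝ (Fin n) with hb
  set L : Submodule ℤ (Fin n → ℝ) := Submodule.span ℤ (range b) with hL
  have hfr : Module.finrank ℤ L < n + 1 := by
    have : Module.finrank ℤ L ≤ Fintype.card (Fin n) := finrank_range_le_card b
    simpa using Nat.lt_succ_of_le this
  have h1 : Summable fun z : L ↦ ‖z‖⁻¹ ^ (n + 1) := ZLattice.summable_norm_pow_inv L (n + 1) hfr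
  have hmem : ∀ k : Fin n → ℤ, zv k ∈ L := by
    intro k
    have : zv k = ∑ i, k i • b i := by
      funext j
      simp only [zv, hb, Pi.basisFun_apply, Finset.sum_apply, zsmul_eq_mul]
      rw [Finset.sum_eq_single j]
      · simp
      · intro i _ hi
        simp [Pi.single_eq_of_ne (Ne.symm hi)]
      · intro h; exact absurd (Finset.mem_univ j) h
    rw [this]
    exact Submodule.sum_mem _ fun i _ => L.smul_mem _ (Submodule.subset_span ⟨i, rfl⟩)
  have hinj : Function.Injective (fun k : Fin n → ℤ => (⟨zv k, hmem k⟩ : L)) := by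
    intro k l hkl
    have h2 : zv k = zv l := congrArg Subtype.val hkl
    funext i
    have := congrFun h2 i
    simpa [zv] using this
  have h2 := h1.comp_injective hinj
  refine Summable.of_norm_bounded_eventually h2 ?_
  have hfin : ({0} : Set (Fin n → ℤ)).Finite := finite_singleton 0
  refine hfin.subset fun k hk => ?_
  by_contra hk0
  apply hk
  have hk0' : k ≠ 0 := fun h => hk0 (by simp [h])
  have hpos : 0 < ‖k‖ := by linarith [norm_one_le hk0']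
  have h3 : ‖(⟨zv k, hmem k⟩ : L)‖ = ‖k‖ := norm_zv k
  show ‖(1 + ‖k‖ ^ (n + 1))⁻¹‖ ≤ ‖(⟨zv k, hmem k⟩ : L)‖⁻¹ ^ (n + 1)
  rw [h3, Real.norm_of_nonneg (by positivity), inv_pow]
  gcongr
  linarith

end H383.TD
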